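import Vale.Agent.P227.LpN.Kernel
import Vale.Agent.P230.PL

/-!
# P227 `LpN`: the Brunn–Minkowski inequality for slab bodies and its second order form
-/

namespace Vale.Agent.P227.LpN

open MeasureTheory Set Filter Finset Matrix
open scoped Topology ENNReal Pointwise

variable {n N : ℕ} {u : Fin N → Vec n}

namespace BM

lemma isClosed_body (u : Fin N → Vec n) (b : Sd N → ℝ) : IsClosed (body u b) := by
  have : body u b = ⋂ σ, {x | x ⬝ᵥ nrm u σ ≤ b σ} := by ext; simp [body]
  rw [this]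
  exact isClosed_iInter fun σ => isClosed_le (by simp only [dotProduct]; fun_prop) continuous_const

lemma vol_ne_top (hu : GenPos u) (b : Sd N → ℝ) : volume (body u b) ≠ ⊤ :=
  (Kernel.isCompact_body hu b).measure_lt_top.ne

lemma vol_nonneg (u : Fin N → Vec n) (b : Sd N → ℝ) : 0 ≤ vol u b := ENNReal.toReal_nonneg

lemma body_comb {b c : Sd N → ℝ} {p q : ℝ} (hp : 0 ≤ p) (hq : 0 ≤ q) {x y : Vec n}
    (hx : x ∈ body u b) (hy : y ∈ body u c) : p • x + q • y ∈ body u (p • b + q • c) := by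
  intro σ
  simp only [add_dotProduct, smul_dotProduct, smul_eq_mul, Pi.add_apply, Pi.smul_apply]
  exact add_le_add (mul_le_mul_of_nonneg_left (hx σ) hp) (mul_le_mul_of_nonneg_left (hy σ) hq)

lemma vol_mul_le (hu : GenPos u) (b c : Sd N → ℝ) {p q : ℝ} (hp : 0 < p) (hq : 0 < q)
    (hpq : p + q = 1) : vol u b ^ p * vol u c ^ q ≤ vol u (p • b + q • c) := by
  have := Vale.Agent.P230.brunn_minkowski_mul hp hq hpq (isClosed_body u b).measurableSet
    (isClosed_body u c).measurableSet (isClosed_body u (p • b + q • c)).measurableSet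
    (fun x hx y hy => body_comb hp.le hq.le hx hy)
  have h2 := ENNReal.toReal_mono (vol_ne_top hu _) this
  rwa [ENNReal.toReal_mul, ← ENNReal.toReal_rpow, ← ENNReal.toReal_rpow] at h2

lemma body_smul (u : Fin N → Vec n) (b : Sd N → ℝ) {c : ℝ} (hc : 0 < c) :
    body u (c • b) = c • body u b := by
  ext x
  rw [mem_smul_set_iff_inv_smul_mem₀ hc.ne']
  simp only [body, Set.mem_ofPred_eq, Pi.smul_apply, smul_eq_mul, smul_dotProduct]
  exact forall_congr' fun σ => by rw [inv_mul_le_iff₀ hc]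

lemma vol_smul (u : Fin N → Vec n) (b : Sd N → ℝ) {c : ℝ} (hc : 0 < c) :
    vol u (c • b) = c ^ n * vol u b := by
  rw [vol, vol, body_smul u b hc, Measure.addHaar_smul_of_nonneg _ hc.le, ENNReal.toReal_mul,
    ENNReal.toReal_ofReal (by positivity)]
  simp

lemma vol_transl (u : Fin N → Vec n) (b : Sd N → ℝ) (a : Vec n) :
    vol u (b + transl u a) = vol u b := by
  have e : body u (b + transl u a) = (fun x => x + -a) ⁻¹' body u b := by
    ext x
    simp only [body, Set.mem_preimage, Set.mem_ofPred_eq, Pi.add_apply, transl, add_dotProduct,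
      neg_dotProduct]
    exact forall_congr' fun σ => ⟨fun h => by linarith, fun h => by linarith⟩
  rw [vol, vol, e, measure_preimage_add_right]

lemma vol_mono (hu : GenPos u) {b c : Sd N → ℝ} (h : ∀ σ, b σ ≤ c σ) : vol u b ≤ vol u c :=
  ENNReal.toReal_mono (vol_ne_top hu c) (measure_mono fun _ hx σ => (hx σ).trans (h σ))

lemma vol_pos_of_hasInt (hu : GenPos u) {b : Sd N → ℝ} (hb : HasInt u b) : 0 < vol u b := by
  obtain ⟨x, hx⟩ := hb
  have hop : IsOpen (⋂ σ, {z : Vec n | z ⬝ᵥ nrm u σ < b σ}) :=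
    isOpen_iInter_of_finite fun σ =>
      isOpen_lt (by simp only [dotProduct]; fun_prop) continuous_const
  have hsub : (⋂ σ, {z : Vec n | z ⬝ᵥ nrm u σ < b σ}) ⊆ body u b := fun z hz σ =>
    (Set.mem_iInter.1 hz σ).le
  exact ENNReal.toReal_pos ((hop.measure_pos volume ⟨x, Set.mem_iInter.2 hx⟩).trans_le
    (measure_mono hsub)).ne' (vol_ne_top hu b)

/-- From a multiplicative inequality and homogeneity to concavity of the root. -/
lemma concaveOn_root {E : Type*} [AddCommGroup E] [Module ℝ E] {S : Set E} {F : E → ℝ} {m : ℕ}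
    (hm : m ≠ 0) (hpos : ∀ h ∈ S, 0 < F h)
    (hcone : ∀ h ∈ S, ∀ c : ℝ, 0 < c → c • h ∈ S)
    (hhom : ∀ h ∈ S, ∀ c : ℝ, 0 < c → F (c • h) = c ^ m * F h)
    (hmul : ∀ h ∈ S, ∀ g ∈ S, ∀ a b : ℝ, 0 < a → 0 < b → a + b = 1 →
      a • h + b • g ∈ S ∧ F h ^ a * F g ^ b ≤ F (a • h + b • g)) :
    ConcaveOn ℝ S (fun h => F h ^ ((1 : ℝ) / m)) := by
  refine concaveOn_iff_forall_pos.2 ⟨convex_iff_forall_pos.2 fun h hh g hg a b ha hb hab =>
    (hmul h hh g hg a b ha hb hab).1, fun h hh g hg a b ha hb hab => ?_⟩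
  set α := F h ^ ((1 : ℝ) / m) with hα
  set β := F g ^ ((1 : ℝ) / m) with hβ
  have hα0 : 0 < α := Real.rpow_pos_of_pos (hpos h hh) _
  have hβ0 : 0 < β := Real.rpow_pos_of_pos (hpos g hg) _
  have hαm : α ^ m = F h := by
    rw [hα, one_div, Real.rpow_inv_natCast_pow (hpos h hh).le hm]
  have hβm : β ^ m = F g := by
    rw [hβ, one_div, Real.rpow_inv_natCast_pow (hpos g hg).le hm]
  set γ := a * α + b * β with hγ
  have hγ0 : 0 < γ := by positivity
  have h1 : F (α⁻¹ • h) = 1 := by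
    rw [hhom h hh _ (inv_pos.2 hα0), inv_pow, hαm, inv_mul_cancel₀ (hpos h hh).ne']
  have h2 : F (β⁻¹ • g) = 1 := by
    rw [hhom g hg _ (inv_pos.2 hβ0), inv_pow, hβm, inv_mul_cancel₀ (hpos g hg).ne']
  obtain ⟨h3, h4⟩ := hmul _ (hcone h hh _ (inv_pos.2 hα0)) _ (hcone g hg _ (inv_pos.2 hβ0))
    (a * α / γ) (b * β / γ) (by positivity) (by positivity)
    (by rw [← add_div, div_self hγ0.ne'])
  rw [h1, h2, Real.one_rpow, Real.one_rpow, one_mul] at h4
  have e : γ • ((a * α / γ) • α⁻¹ • h + (b * β / γ) • β⁻¹ • g) = a • h + b • g := by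
    simp only [smul_add, smul_smul]
    congr 2 <;> field_simp
  have h5 : γ ^ m ≤ F (a • h + b • g) := by
    rw [← e, hhom _ h3 _ hγ0]
    exact le_mul_of_one_le_right (pow_nonneg hγ0.le m) h4
  simp only [smul_eq_mul]
  calc a * α + b * β = (γ ^ m) ^ ((1 : ℝ) / m) := by
        rw [one_div, Real.pow_rpow_inv_natCast hγ0.le hm]
    _ ≤ _ := Real.rpow_le_rpow (pow_nonneg hγ0.le m) h5 (by positivity)

lemma vol_root_concave (hu : GenPos u) (hn : n ≠ 0) :
    ConcaveOn ℝ {b | 0 < vol u b} (fun b => vol u b ^ ((1 : ℝ) / n)) :=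
  concaveOn_root hn (fun _ h => h)
    (fun b (hb : 0 < vol u b) c hc => show 0 < vol u (c • b) by
      rw [vol_smul u b hc]; positivity)
    (fun b _ c hc => vol_smul u b hc)
    (fun b hb c hc p q hp hq hpq =>
      have hm := vol_mul_le hu b c hp hq hpq
      ⟨lt_of_lt_of_le (mul_pos (Real.rpow_pos_of_pos hb p) (Real.rpow_pos_of_pos hc q)) hm, hm⟩)

variable {ι : Type} [Fintype ι]

lemma ev_dv (y v : ι → ℝ) (P : Poly ι) :
    ev y (dv v P) = ∑ σ, v σ * ev y (MvPolynomial.pderiv σ P) := by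
  simp [ev, dv]

lemma hasDerivAt_ev_line (P : Poly ι) (y v : ι → ℝ) (t : ℝ) :
    HasDerivAt (fun s => ev (y + s • v) P) (ev (y + t • v) (dv v P)) t := by
  classical
  rw [ev_dv]
  induction P using MvPolynomial.induction_on with
  | C a => simpa [ev] using hasDerivAt_const t a
  | add p q hp hq =>
    simp only [map_add, ev, mul_add, Finset.sum_add_distrib] at hp hq ⊢
    exact hp.add hq
  | mul_X p i hp =>
    have h1 : HasDerivAt (fun s : ℝ => (y + s • v) i) (v i) t := by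
      simpa using ((hasDerivAt_id t).mul_const (v i)).const_add (y i)
    simp only [ev] at hp ⊢
    simp only [map_mul, MvPolynomial.eval_X, MvPolynomial.pderiv_mul, MvPolynomial.pderiv_X,
      map_add]
    refine (hp.fun_mul h1).congr_deriv ?_
    simp only [mul_add, Finset.sum_add_distrib, Finset.sum_mul]
    congr 1
    · exact Finset.sum_congr rfl fun σ _ => by ring
    · rw [Finset.sum_eq_single i]
      · simp; ring
      · intro σ _ hσ
        simp [Pi.single_eq_of_ne' hσ]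
      · simp

/-- A concave root bounds the second derivative. -/
lemma root_second {g g1 : ℝ → ℝ} {g2 ε m : ℝ} (hε : 0 < ε) (hm : 0 < m)
    (hg : ∀ t ∈ Set.Ioo (-ε) ε, 0 < g t ∧ HasDerivAt g (g1 t) t)
    (hg1 : HasDerivAt g1 g2 0)
    (hc : ConcaveOn ℝ (Set.Ioo (-ε) ε) (fun t => g t ^ (1 / m))) :
    m * g 0 * g2 ≤ (m - 1) * g1 0 ^ 2 := by
  have h0 : (0 : ℝ) ∈ Set.Ioo (-ε) ε := ⟨by linarith, hε⟩
  obtain ⟨hp, hd⟩ := hg 0 h0
  have hd1 : ∀ t ∈ Set.Ioo (-ε) ε,
      HasDerivAt (fun t => g t ^ (1 / m)) (g1 t * (1 / m) * g t ^ (1 / m - 1)) t :=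
    fun t ht => (hg t ht).2.rpow_const (Or.inl (hg t ht).1.ne')
  have hanti : AntitoneOn (fun t => g1 t * (1 / m) * g t ^ (1 / m - 1)) (Set.Ioo (-ε) ε) := by
    intro a ha b hb hab
    rcases hab.eq_or_lt with rfl | hlt
    · exact le_rfl
    · exact (hc.le_slope_of_hasDerivAt ha hb hlt (hd1 b hb)).trans
        (hc.slope_le_of_hasDerivAt ha hb hlt (hd1 a ha))
  have hd2 : HasDerivAt (fun t => g1 t * (1 / m) * g t ^ (1 / m - 1))
      (g2 * (1 / m) * g 0 ^ (1 / m - 1) +
        g1 0 * (1 / m) * (g1 0 * (1 / m - 1) * g 0 ^ (1 / m - 1 - 1))) 0 :=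
    (hg1.mul_const (1 / m)).fun_mul (hd.rpow_const (Or.inl hp.ne'))
  have hle : g2 * (1 / m) * g 0 ^ (1 / m - 1) +
      g1 0 * (1 / m) * (g1 0 * (1 / m - 1) * g 0 ^ (1 / m - 1 - 1)) ≤ 0 := by
    have ht := (hasDerivAt_iff_tendsto_slope.1 hd2).mono_left (nhdsGT_le_nhdsNE (0 : ℝ))
    refine le_of_tendsto ht ?_
    filter_upwards [Ioo_mem_nhdsGT hε] with t htI
    rw [slope_def_field, sub_zero]
    exact div_nonpos_of_nonpos_of_nonneg
      (sub_nonpos.2 (hanti h0 ⟨by linarith [htI.1], htI.2⟩ htI.1.le)) htI.1.le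
  have e : g 0 ^ (1 / m - 1) = g 0 ^ (1 / m - 1 - 1) * g 0 := by
    conv_rhs => rw [← Real.rpow_add_one hp.ne']
    ring_nf
  rw [e] at hle
  have hpp := Real.rpow_pos_of_pos hp (1 / m - 1 - 1)
  have e2 : g 0 ^ (1 / m - 1 - 1) / m ^ 2 * (m * g 0 * g2 - (m - 1) * g1 0 ^ 2) ≤ 0 := by
    refine le_of_eq_of_le ?_ hle
    field_simp
    ring
  have := nonpos_of_mul_nonpos_right e2 (by positivity)
  linarith

end BM

/-- The second order form of the Brunn–Minkowski inequality. -/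
theorem afSpec : AFSpec := by
  intro n N u hn hu P U hU _ hPU y hy v
  obtain ⟨F, hF⟩ : ∃ F : (Sd N → ℝ) → ℝ, F = fun w =>
      ((n : ℝ) - 1) * ev w (dv v P) ^ 2 - n * ev w P * hForm w P v v := ⟨_, rfl⟩
  have hFc : Continuous F := by
    rw [hF]
    simp only [ev, hForm]
    exact (continuous_const.mul ((MvPolynomial.continuous_eval _).pow 2)).sub
      ((continuous_const.mul (MvPolynomial.continuous_eval _)).mul
        (MvPolynomial.continuous_eval _))
  suffices h : ∀ w ∈ U, 0 ≤ F w by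
    have := closure_minimal (show U ⊆ {w | 0 ≤ F w} from h) (isClosed_le continuous_const hFc) hy
    rw [hF] at this
    exact sub_nonneg.1 this
  intro w hw
  rw [hF]
  have hn1 : (1 : ℝ) ≤ n := by exact_mod_cast hn
  have hP0 : 0 ≤ ev w P := (hPU w hw).2 ▸ BM.vol_nonneg u w
  rcases hP0.eq_or_lt with h0 | h0
  · simp only [← h0, mul_zero, zero_mul, sub_zero]
    exact mul_nonneg (by linarith) (sq_nonneg _)
  have hline : Continuous fun t : ℝ => w + t • v := by fun_prop
  have hev : ∀ᶠ t in 𝓝 (0 : ℝ), w + t • v ∈ U ∧ 0 < ev (w + t • v) P := by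
    refine Filter.Eventually.and (hline.tendsto' 0 w (by simp) (hU.mem_nhds hw)) ?_
    exact ((MvPolynomial.continuous_eval P).comp hline).continuousAt.eventually_const_lt
      (by simpa [ev] using h0)
  obtain ⟨ε, hε, hεs⟩ := Metric.eventually_nhds_iff.1 hev
  have hmem : ∀ t ∈ Set.Ioo (-ε) ε, w + t • v ∈ U ∧ 0 < ev (w + t • v) P := fun t ht =>
    hεs (by simpa [Real.dist_eq, abs_lt] using ht)
  have hvol : ∀ t ∈ Set.Ioo (-ε) ε, vol u (w + t • v) = ev (w + t • v) P := fun t ht =>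
    (hPU _ (hmem t ht).1).2
  have hroot : ConcaveOn ℝ (Set.Ioo (-ε) ε) (fun t => ev (w + t • v) P ^ (1 / (n : ℝ))) := by
    refine ⟨convex_Ioo _ _, fun a ha b hb p q hp hq hpq => ?_⟩
    have hc : p • a + q • b ∈ Set.Ioo (-ε) ε := convex_Ioo _ _ ha hb hp hq hpq
    have he : p • (w + a • v) + q • (w + b • v) = w + (p • a + q • b) • v := by
      have : p • w + q • w = w := by rw [← add_smul, hpq, one_smul]
      simp only [smul_eq_mul]
      linear_combination (norm := module) this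
    have := (BM.vol_root_concave hu (by omega)).2
      (show 0 < vol u (w + a • v) by rw [hvol a ha]; exact (hmem a ha).2)
      (show 0 < vol u (w + b • v) by rw [hvol b hb]; exact (hmem b hb).2) hp hq hpq
    simp only [he, hvol a ha, hvol b hb, hvol _ hc] at this
    exact this
  have key := BM.root_second (m := (n : ℝ)) hε (by linarith)
    (fun t ht => ⟨(hmem t ht).2, BM.hasDerivAt_ev_line P w v t⟩)
    (BM.hasDerivAt_ev_line (dv v P) w v 0) hroot
  simp only [zero_smul, add_zero] at key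
  exact sub_nonneg.2 key

end Vale.Agent.P227.LpN
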