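import Vale.Agent.P227.LpN.Spec

/-!
# P227 `Lp3`: from the local inequality to the inequality for bodies

For fixed normals `s ↦ vol (mean_p ((1-s) a + s b)) ^ (p/3)` is concave, its second derivative being
a positive multiple of `rForm (1 - p)`.  The normals are then refined along a dense sequence in
general position and the polytopes decrease to the Wulff body.
-/

namespace Vale.Agent.P227.LpN

open MeasureTheory Set Filter Finset Matrix
open scoped Topology

set_option linter.unusedSectionVars false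

namespace Global

variable {n N : ℕ} [NeZero n] {u : Fin N → Vec n}

/-- The weighted Cauchy-Schwarz inequality. -/
lemma varForm_nonneg (G : SymFacts u) {h : Fin N → ℝ} (hh : Pos h) (z : Fin N → ℝ) :
    0 ≤ varForm u h z := by
  rw [varForm, sub_nonneg, div_le_iff₀ (mul_pos (Nat.cast_pos.2 (NeZero.pos n)) (G.vol_pos h hh)),
    ← G.euler_vol h hh]
  refine Finset.sum_sq_le_sum_mul_sum_of_sq_le_mul _
    (fun i _ => div_nonneg (mul_nonneg (G.area_nonneg h hh i) (sq_nonneg _)) (hh i).le)
    (fun i _ => mul_nonneg (G.area_nonneg h hh i) (hh i).le) fun i _ => le_of_eq ?_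
  have := (hh i).ne'
  field_simp

lemma rForm_le (G : SymFacts u)
    (hL : ∀ h, Pos h → ∀ z, rForm u (1 / ((n : ℝ) - 1)) h z ≤ 0) {τ : ℝ}
    (hτ : τ ≤ 1 / ((n : ℝ) - 1)) {h : Fin N → ℝ} (hh : Pos h) (z : Fin N → ℝ) :
    rForm u τ h z ≤ 0 := by
  have h1 := hL h hh z
  have h2 := mul_le_mul_of_nonneg_right hτ (varForm_nonneg G hh z)
  simp only [rForm] at h1 ⊢
  linarith

/-- The `p`-mean of two vectors of support numbers. -/
noncomputable def mean (p : ℝ) (a b : Fin N → ℝ) (s : ℝ) : Fin N → ℝ :=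
  fun i => ((1 - s) * a i ^ p + s * b i ^ p) ^ (1 / p)

lemma mean_zero {p : ℝ} (hp : p ≠ 0) {a b : Fin N → ℝ} (ha : Pos a) : mean p a b 0 = a := by
  funext i
  simp [mean, ← Real.rpow_mul (ha i).le, mul_inv_cancel₀ hp]

lemma mean_one {p : ℝ} (hp : p ≠ 0) {a b : Fin N → ℝ} (hb : Pos b) : mean p a b 1 = b := by
  funext i
  simp [mean, ← Real.rpow_mul (hb i).le, mul_inv_cancel₀ hp]

/-- The local inequality integrated along a `p`-segment. -/
theorem segment_ineq (G : SymFacts u)
    (hL : ∀ h, Pos h → ∀ z, rForm u (1 / ((n : ℝ) - 1)) h z ≤ 0)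
    {p : ℝ} (hp0 : 0 < p) (hp : 1 - p ≤ 1 / ((n : ℝ) - 1)) {a b : Fin N → ℝ} (ha : Pos a)
    (hb : Pos b) {t : ℝ} (ht0 : 0 ≤ t) (ht1 : t ≤ 1) :
    (1 - t) * svol u a ^ (p / n) + t * svol u b ^ (p / n) ≤ svol u (mean p a b t) ^ (p / n) := by
  have hn : (0 : ℝ) < n := Nat.cast_pos.2 (NeZero.pos n)
  set w : Fin N → ℝ → ℝ := fun i s => (1 - s) * a i ^ p + s * b i ^ p with hw
  have hwpos : ∀ i, ∀ s ∈ Icc (0 : ℝ) 1, 0 < w i s := fun i s hs => by
    have h1 := Real.rpow_pos_of_pos (ha i) p
    have h2 := Real.rpow_pos_of_pos (hb i) p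
    rcases eq_or_lt_of_le hs.2 with h | h
    · simp [hw, h, h2]
    · exact add_pos_of_pos_of_nonneg (mul_pos (by linarith) h1) (mul_nonneg hs.1 h2.le)
  have hH : ∀ s ∈ Icc (0 : ℝ) 1, Pos (mean p a b s) := fun s hs i =>
    Real.rpow_pos_of_pos (hwpos i s hs) _
  set φ : Fin N → ℝ → ℝ := fun i s => (b i ^ p - a i ^ p) / (p * w i s) with hφ
  set Z : ℝ → Fin N → ℝ := fun s i => mean p a b s i * φ i s with hZ
  have hwd : ∀ i s, HasDerivAt (w i) (b i ^ p - a i ^ p) s := fun i s => by
    have := (((hasDerivAt_id s).const_sub 1).mul_const (a i ^ p)).add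
      ((hasDerivAt_id s).mul_const (b i ^ p))
    exact this.congr_deriv (by ring)
  have hmd : ∀ s ∈ Icc (0 : ℝ) 1, ∀ i, HasDerivAt (fun r => mean p a b r i) (Z s i) s := by
    intro s hs i
    refine ((hwd i s).rpow_const (p := 1 / p) (Or.inl (hwpos i s hs).ne')).congr_deriv ?_
    have hne := (hwpos i s hs).ne'
    rw [Real.rpow_sub_one hne]
    simp only [hZ, hφ, mean]
    rw [show (1 - s) * a i ^ p + s * b i ^ p = w i s from rfl]
    field_simp
  have hφd : ∀ s ∈ Icc (0 : ℝ) 1, ∀ i, HasDerivAt (φ i) (-p * φ i s ^ 2) s := by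
    intro s hs i
    have hne := (hwpos i s hs).ne'
    refine ((hasDerivAt_const s (b i ^ p - a i ^ p)).fun_div ((hwd i s).const_mul p)
      (mul_ne_zero hp0.ne' hne)).congr_deriv ?_
    simp only [hφ]
    field_simp
    ring
  have hZd : ∀ s ∈ Icc (0 : ℝ) 1, ∀ i,
      HasDerivAt (fun r => Z r i) ((1 - p) * (Z s i ^ 2 / mean p a b s i)) s := by
    intro s hs i
    refine ((hmd s hs i).fun_mul (hφd s hs i)).congr_deriv ?_
    have := (hH s hs i).ne'
    simp only [hZ]
    field_simp
    ring
  set V : ℝ → ℝ := fun s => svol u (mean p a b s) with hV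
  set D : ℝ → ℝ := fun s => form1 u (mean p a b s) (Z s) with hD
  have hVd : ∀ s ∈ Icc (0 : ℝ) 1, HasDerivAt V (D s) s := fun s hs => by
    have h1 := (G.vol_fderiv _ (hH s hs)).comp_hasDerivAt s (hasDerivAt_pi.2 (hmd s hs))
    refine h1.congr_deriv ?_
    simp [hD, form1]
  set D2 : ℝ → ℝ := fun s => form2 u (mean p a b s) (Z s) (Z s) +
    (1 - p) * ∑ i, sarea u (mean p a b s) i * Z s i ^ 2 / mean p a b s i with hD2
  have hDd : ∀ s ∈ Icc (0 : ℝ) 1, HasDerivAt D (D2 s) s := fun s hs => by
    have h1 : ∀ i, HasDerivAt (fun r => sarea u (mean p a b r) i * Z r i)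
        ((∑ j, shess u (mean p a b s) i j * Z s j) * Z s i +
          sarea u (mean p a b s) i * ((1 - p) * (Z s i ^ 2 / mean p a b s i))) s := fun i => by
      refine HasDerivAt.fun_mul ?_ (hZd s hs i)
      refine ((G.area_fderiv _ (hH s hs) i).comp_hasDerivAt s
        (hasDerivAt_pi.2 (hmd s hs))).congr_deriv ?_
      simp
    refine (HasDerivAt.fun_sum fun i _ => h1 i).congr_deriv ?_
    simp only [hD2, form2, Finset.sum_add_distrib, Finset.sum_mul, Finset.mul_sum]
    congr 1
    · exact Finset.sum_congr rfl fun i _ => Finset.sum_congr rfl fun j _ => by ring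
    · exact Finset.sum_congr rfl fun i _ => by ring
  set g1 : ℝ → ℝ := fun s => D s * (p / (n : ℝ)) * V s ^ (p / (n : ℝ) - 1) with hg1
  have hg : ∀ s ∈ Icc (0 : ℝ) 1, HasDerivAt (fun r => V r ^ (p / (n : ℝ))) (g1 s) s := fun s hs =>
    (hVd s hs).rpow_const (Or.inl (G.vol_pos _ (hH s hs)).ne')
  have hg1d : ∀ s ∈ Icc (0 : ℝ) 1, HasDerivAt g1
      (p / (n : ℝ) * V s ^ (p / (n : ℝ) - 1) * rForm u (1 - p) (mean p a b s) (Z s)) s := fun s hs => by
    have hne := (G.vol_pos _ (hH s hs)).ne'
    refine (((hDd s hs).mul_const (p / (n : ℝ))).fun_mul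
      ((hVd s hs).rpow_const (p := p / (n : ℝ) - 1) (Or.inl hne))).congr_deriv ?_
    rw [Real.rpow_sub_one (x := V s) hne (p / (n : ℝ) - 1)]
    simp only [hD2, rForm, varForm, hD, hV]
    field_simp
    ring
  have hc : ConcaveOn ℝ (Icc (0 : ℝ) 1) fun s => V s ^ (p / (n : ℝ)) := by
    refine AntitoneOn.concaveOn_of_deriv (convex_Icc 0 1)
      (fun s hs => (hg s hs).continuousAt.continuousWithinAt)
      (fun s hs => ((hg s (interior_subset hs)).differentiableAt).differentiableWithinAt) ?_
    have hanti : AntitoneOn g1 (Icc (0 : ℝ) 1) := by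
      refine antitoneOn_of_hasDerivWithinAt_nonpos (convex_Icc 0 1)
        (fun s hs => (hg1d s hs).continuousAt.continuousWithinAt)
        (fun s hs => (hg1d s (interior_subset hs)).hasDerivWithinAt) fun s hs => ?_
      have hs := interior_subset hs
      exact mul_nonpos_of_nonneg_of_nonpos
        (mul_nonneg (by positivity) (Real.rpow_nonneg (G.vol_pos _ (hH s hs)).le _))
        (rForm_le G hL hp (hH s hs) _)
    intro x hx y hy hxy
    rw [(hg x (interior_subset hx)).deriv, (hg y (interior_subset hy)).deriv]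
    exact hanti (interior_subset hx) (interior_subset hy) hxy
  have := hc.2 (left_mem_Icc.2 zero_le_one) (right_mem_Icc.2 zero_le_one)
    (sub_nonneg.2 ht1) ht0 (sub_add_cancel 1 t)
  simpa [hV, mean_zero hp0.ne' ha, mean_one hp0.ne' hb] using this

/-! ### Normals -/

/-- At most `n` of the vectors are always independent. -/
def Good {k : ℕ} (l : Fin k → Vec n) : Prop :=
  ∀ s : Finset (Fin k), s.card ≤ n → LinearIndepOn ℝ l (↑s : Set (Fin k))

lemma exists_extend {k : ℕ} {l : Fin k → Vec n} (hl : Good l) {U : Set (Vec n)} (hU : IsOpen U)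
    (hne : U.Nonempty) : ∃ x ∈ U, Good (Fin.snoc l x : Fin (k + 1) → Vec n) := by
  classical
  set B : Set (Vec n) :=
    ⋃ s : {s : Finset (Fin k) // s.card < n}, ↑(Submodule.span ℝ (l '' (↑s.1 : Set (Fin k)))) with hB
  have hB0 : volume B = 0 := by
    refine measure_iUnion_null fun s => Measure.addHaar_submodule volume _ fun htop => ?_
    have h1 := finrank_span_finset_le_card (R := ℝ) (s.1.image l)
    rw [Finset.coe_image, Set.finrank, htop, finrank_top, Module.finrank_fin_fun] at h1
    exact absurd (lt_of_le_of_lt (h1.trans Finset.card_image_le) s.2) (lt_irrefl _)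
  obtain ⟨x, hxU, hxB⟩ : ∃ x ∈ U, x ∉ B := by
    by_contra h
    push Not at h
    exact (hU.measure_pos volume hne).ne' (measure_mono_null h hB0)
  simp only [hB, Set.mem_iUnion, not_exists, SetLike.mem_coe] at hxB
  refine ⟨x, hxU, fun s hs => ?_⟩
  set s' : Finset (Fin k) := Finset.univ.filter fun i => Fin.castSucc i ∈ s with hs'
  have hinj : Set.InjOn Fin.castSucc (↑s' : Set (Fin k)) := (Fin.castSucc_injective k).injOn
  have hcard : s'.card ≤ s.card :=
    Finset.card_le_card_of_injOn Fin.castSucc (fun i hi => by simpa [hs'] using hi) hinj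
  have himg : LinearIndepOn ℝ (Fin.snoc l x : Fin (k + 1) → Vec n)
      (Fin.castSucc '' (↑s' : Set (Fin k))) := by
    rw [← hinj.bijOn_image.image_eq]
    refine LinearIndepOn.image_of_comp Fin.castSucc _ ?_
    simpa [Function.comp_def] using hl s' (hcard.trans hs)
  by_cases hlast : Fin.last k ∈ s
  · have hlt : s'.card < s.card := by
      have hsub : s'.map Fin.castSuccEmb ⊂ s :=
        Finset.ssubset_iff_subset_ne.2 ⟨fun i hi => by
          obtain ⟨j, hj, rfl⟩ := Finset.mem_map.1 hi
          simpa [hs'] using hj, fun e => by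
          rw [← e] at hlast
          obtain ⟨j, -, hj⟩ := Finset.mem_map.1 hlast
          exact Fin.castSucc_ne_last j hj⟩
      simpa using Finset.card_lt_card hsub
    have e : (↑s : Set (Fin (k + 1))) = insert (Fin.last k) (Fin.castSucc '' (↑s' : Set (Fin k))) := by
      ext i
      induction i using Fin.lastCases with
      | last => simp [hlast]
      | cast i => simp [hs']
    rw [e, linearIndepOn_insert (by simp)]
    refine ⟨himg, ?_⟩
    rw [Fin.snoc_last, Set.image_image]
    simpa using hxB ⟨s', lt_of_lt_of_le hlt hs⟩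
  · have e : (↑s : Set (Fin (k + 1))) = Fin.castSucc '' (↑s' : Set (Fin k)) := by
      ext i
      induction i using Fin.lastCases with
      | last => simp [hlast]
      | cast i => simp [hs']
    rwa [e]

lemma Good.genPos {k : ℕ} {l : Fin k → Vec n} (hl : Good l) (hk : n < k) : GenPos l := by
  refine ⟨hk, fun e => ?_⟩
  have := hl (Finset.univ.map e) (by simp)
  rw [Finset.coe_map, Finset.coe_univ, Set.image_univ] at this
  exact (linearIndepOn_range_iff e.injective l).1 this

lemma Good.ne_zero {k : ℕ} {l : Fin k → Vec n} (hl : Good l) (i : Fin k) : l i ≠ 0 :=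
  (hl {i} (by rw [Finset.card_singleton]; exact NeZero.pos n)).ne_zero (by simp)

/-- A dense sequence of vectors in general position. -/
lemma exists_normals : ∃ e : ℕ → Vec n, DenseRange e ∧ ∀ k, Good (fun i : Fin k => e i) := by
  set U : ℕ → Set (Vec n) := fun k =>
    Metric.ball (TopologicalSpace.denseSeq (Vec n) k.unpair.1) (1 / ((k.unpair.2 : ℝ) + 1)) with hU
  have hstep : ∀ k (l : {l : Fin k → Vec n // Good l}),
      ∃ x ∈ U k, Good (Fin.snoc l.1 x : Fin (k + 1) → Vec n) := fun k l =>
    exists_extend l.2 Metric.isOpen_ball ⟨_, Metric.mem_ball_self (by positivity)⟩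
  choose nx hnx using hstep
  let f : (k : ℕ) → {l : Fin k → Vec n // Good l} := fun k => Nat.rec
    ⟨Fin.elim0, fun s _ => by
      rw [Finset.eq_empty_of_isEmpty s, Finset.coe_empty]; exact linearIndepOn_empty ℝ _⟩
    (fun k l => ⟨Fin.snoc l.1 (nx k l), (hnx k l).2⟩) k
  have hsucc : ∀ k, (f (k + 1)).1 = Fin.snoc (f k).1 (nx k (f k)) := fun k => rfl
  refine ⟨fun k => nx k (f k), ?_, fun k => ?_⟩
  · rw [DenseRange, Metric.dense_iff]
    intro x r hr
    obtain ⟨c, hc⟩ := exists_nat_one_div_lt (half_pos hr)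
    obtain ⟨_, hd, i, rfl⟩ := Metric.dense_iff.1 (TopologicalSpace.denseRange_denseSeq (Vec n)) x (r / 2)
      (half_pos hr)
    refine ⟨_, ?_, Nat.pair i c, rfl⟩
    have hm := (hnx (Nat.pair i c) (f (Nat.pair i c))).1
    simp only [hU, Nat.unpair_pair, Metric.mem_ball] at hm
    rw [Metric.mem_ball] at hd ⊢
    linarith [dist_triangle (nx (Nat.pair i c) (f (Nat.pair i c)))
      (TopologicalSpace.denseSeq (Vec n) i) x]
  · have : (fun i : Fin k => nx i (f i)) = (f k).1 := by
      induction k with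
      | zero => exact Subsingleton.elim _ _
      | succ k ih =>
        funext i
        rw [hsucc]
        induction i using Fin.lastCases with
        | last => simp
        | cast i => rw [Fin.snoc_castSucc, ← ih]; rfl
    rw [this]
    exact (f k).2

/-! ### Support functions -/

variable {K : Set (Vec n)}

lemma continuous_supportFn (hK : IsCompact K) : Continuous (supportFn K) :=
  hK.continuous_sSup (f := fun v x : Vec n => x ⬝ᵥ v) (by fun_prop)

lemma le_supportFn (hK : IsCompact K) {x : Vec n} (hx : x ∈ K) (v : Vec n) :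
    x ⬝ᵥ v ≤ supportFn K v :=
  le_csSup (hK.image (by fun_prop)).bddAbove (mem_image_of_mem _ hx)

lemma supportFn_nonneg (hK : IsSymBody K) (v : Vec n) : 0 ≤ supportFn K v := by
  obtain ⟨x, hx⟩ := hK.2.2.1
  have h1 := le_supportFn hK.1 (interior_subset hx) v
  have h2 := le_supportFn hK.1 (hK.2.2.2 x (interior_subset hx)) v
  rw [neg_dotProduct] at h2
  linarith

lemma abs_le_supportFn (hK : IsSymBody K) {x : Vec n} (hx : x ∈ K) (v : Vec n) :
    |x ⬝ᵥ v| ≤ supportFn K v := by
  have h2 := le_supportFn hK.1 (hK.2.2.2 x hx) v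
  rw [neg_dotProduct] at h2
  exact abs_le.2 ⟨by linarith, le_supportFn hK.1 hx v⟩

lemma supportFn_pos (hK : IsSymBody K) {v : Vec n} (hv : v ≠ 0) : 0 < supportFn K v := by
  obtain ⟨x, hx⟩ := hK.2.2.1
  have hv0 : 0 < v ⬝ᵥ v :=
    lt_of_le_of_ne (Finset.sum_nonneg fun i _ => mul_self_nonneg _)
      (fun h => hv (dotProduct_self_eq_zero.1 h.symm))
  have hlim : Tendsto (fun s : ℝ => x + s • v) (𝓝 0) (𝓝 x) := by
    have : Continuous fun s : ℝ => x + s • v := by fun_prop
    simpa using this.tendsto 0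
  obtain ⟨s, hs, hs0⟩ := (Eventually.and
    ((hlim.eventually (mem_interior_iff_mem_nhds.1 hx)).filter_mono nhdsWithin_le_nhds)
    (self_mem_nhdsWithin : ∀ᶠ s in 𝓝[>] (0 : ℝ), 0 < s)).exists
  have h1 := le_supportFn hK.1 (show x + s • v ∈ K from hs) v
  have h2 := le_supportFn hK.1 (hK.2.2.2 x (interior_subset hx)) v
  rw [add_dotProduct, smul_dotProduct, smul_eq_mul] at h1
  rw [neg_dotProduct] at h2
  nlinarith [mul_pos (show 0 < s from hs0) hv0]

lemma isClosed_body (u : Fin N → Vec n) (b : Sd N → ℝ) : IsClosed (body u b) := by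
  simp only [body, Set.ofPred_forall]
  exact isClosed_iInter fun i => isClosed_le (by fun_prop) continuous_const

lemma mem_body {u : Fin N → Vec n} {h : Fin N → ℝ} {x : Vec n} :
    x ∈ body u (dbl h) ↔ ∀ i, |x ⬝ᵥ u i| ≤ h i := by
  constructor
  · intro hx i
    have h1 := hx (i, true)
    have h2 := hx (i, false)
    simp [nrm, sgn, dbl] at h1 h2
    exact abs_le.2 ⟨by linarith, h1⟩
  · rintro hx ⟨i, s⟩
    obtain ⟨h1, h2⟩ := abs_le.1 (hx i)
    cases s <;> simp [nrm, sgn, dbl] <;> linarith

lemma isBounded_lpSum (p t : ℝ) (K L : Set (Vec n)) : Bornology.IsBounded (lpSum p t K L) := by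
  set f : Vec n → ℝ := fun v => |((1 - t) * supportFn K v ^ p + t * supportFn L v ^ p) ^ (1 / p)|
  refine isBounded_iff_forall_norm_le.2
    ⟨∑ i : Fin n, (f (Pi.single i 1) + f (-Pi.single i 1)), fun x hx => ?_⟩
  have hf : ∀ v, 0 ≤ f v := fun v => abs_nonneg _
  refine (pi_norm_le_iff_of_nonneg (Finset.sum_nonneg fun i _ => add_nonneg (hf _) (hf _))).2
    fun i => ?_
  refine le_trans ?_ (Finset.single_le_sum (f := fun i => f (Pi.single i 1) + f (-Pi.single i 1))
    (fun j _ => add_nonneg (hf _) (hf _)) (Finset.mem_univ i))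
  have h1 := (hx (Pi.single i 1) (by simp)).trans (le_abs_self _)
  have h2 := (hx (-Pi.single i 1) (by simp)).trans (le_abs_self _)
  simp only [dotProduct_neg, dotProduct_single_one] at h1 h2
  rw [Real.norm_eq_abs, abs_le]
  have := hf (Pi.single i 1)
  have := hf (-Pi.single i 1)
  constructor <;> simp only [f] at * <;> linarith

end Global

open Global in
/-- The `L_p` inequality for bodies from the local inequality at polytopes. -/
theorem mainSpec (hG : SymSpec) (hLow : LowerSpec) : MainSpec := by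
  intro n hn K L hK hL p t hp hp1 ht0 ht1
  have : NeZero n := ⟨by omega⟩
  have hn4 : (4 : ℝ) ≤ n := by exact_mod_cast hn
  have hp0 : 0 < p := lt_of_lt_of_le (div_pos (by linarith) (by linarith)) hp
  have hpτ : 1 - p ≤ 1 / ((n : ℝ) - 1) := by
    have e : ((n : ℝ) - 2) / ((n : ℝ) - 1) = 1 - 1 / ((n : ℝ) - 1) := by
      field_simp [show (n : ℝ) - 1 ≠ 0 by linarith]
      ring
    linarith
  obtain ⟨e, he, hgood⟩ := exists_normals (n := n)
  set m : Vec n → ℝ := fun v => ((1 - t) * supportFn K v ^ p + t * supportFn L v ^ p) ^ (1 / p)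
    with hm
  have hmc : Continuous m :=
    ((continuous_const.mul ((continuous_supportFn hK.1).rpow_const fun _ => Or.inr hp0.le)).add
      (continuous_const.mul ((continuous_supportFn hL.1).rpow_const fun _ => Or.inr hp0.le))).rpow_const
      fun _ => Or.inr (by positivity)
  set S : ℕ → Set (Vec n) := fun k => body (fun i : Fin (k + (n + 1)) => e i) (dbl fun i => m (e i))
    with hS
  set c := (1 - t) * (volume K).toReal ^ (p / (n : ℝ)) + t * (volume L).toReal ^ (p / (n : ℝ))
  have hgp : ∀ k, GenPos (fun i : Fin (k + (n + 1)) => e i) := fun k =>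
    (hgood (k + (n + 1))).genPos (by omega)
  have hpos : ∀ k, Pos (fun i : Fin (k + (n + 1)) => m (e i)) := fun k i => by
    have h1 := Real.rpow_pos_of_pos (supportFn_pos hK ((hgood (k + (n + 1))).ne_zero i)) p
    have h2 := Real.rpow_pos_of_pos (supportFn_pos hL ((hgood (k + (n + 1))).ne_zero i)) p
    refine Real.rpow_pos_of_pos ?_ _
    rcases eq_or_lt_of_le ht1 with h | h
    · simp [h, h2]
    · exact add_pos_of_pos_of_nonneg (mul_pos (by linarith) h1) (mul_nonneg ht0 h2.le)
  have hfin : ∀ {k} (h : Fin (k + (n + 1)) → ℝ), Pos h →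
      volume (body (fun i : Fin (k + (n + 1)) => e i) (dbl h)) ≠ ⊤ := fun {k} h hh htop => by
    have := (hG n _ _ hn (hgp k)).vol_pos h hh
    rw [svol, vol, htop] at this
    simp at this
  have hineq : ∀ k, c ≤ (volume (S k)).toReal ^ (p / (n : ℝ)) := by
    intro k
    set u : Fin (k + (n + 1)) → Vec n := fun i => e i
    have ha : Pos (fun i => supportFn K (u i)) := fun i => supportFn_pos hK ((hgood _).ne_zero i)
    have hb : Pos (fun i => supportFn L (u i)) := fun i => supportFn_pos hL ((hgood _).ne_zero i)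
    refine le_trans ?_ (segment_ineq (hG n _ u hn (hgp k)) (hLow n _ u hn (hgp k)) hp0 hpτ ha hb ht0 ht1)
    have hsub : ∀ {M : Set (Vec n)}, IsSymBody M → Pos (fun i => supportFn M (u i)) →
        (volume M).toReal ≤ svol u (fun i => supportFn M (u i)) := fun {M} hM hP =>
      ENNReal.toReal_mono (hfin _ hP)
        (measure_mono fun x hx => mem_body.2 fun i => abs_le_supportFn hM hx (u i))
    exact add_le_add
      (mul_le_mul_of_nonneg_left
        (Real.rpow_le_rpow ENNReal.toReal_nonneg (hsub hK ha) (by positivity)) (sub_nonneg.2 ht1))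
      (mul_le_mul_of_nonneg_left
        (Real.rpow_le_rpow ENNReal.toReal_nonneg (hsub hL hb) (by positivity)) ht0)
  have hanti : Antitone S := fun j k hjk x hx =>
    mem_body.2 fun i => mem_body.1 hx ⟨i, by omega⟩
  have hfinI : volume (⋂ k, S k) ≠ ⊤ := ne_top_of_le_ne_top (hfin _ (hpos 0))
    (measure_mono (iInter_subset _ 0))
  have hlim : Tendsto (fun k => (volume (S k)).toReal ^ (p / (n : ℝ))) atTop
      (𝓝 ((volume (⋂ k, S k)).toReal ^ (p / (n : ℝ)))) :=
    ((ENNReal.tendsto_toReal hfinI).comp (tendsto_measure_iInter_atTop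
      (fun k => (isClosed_body _ _).measurableSet.nullMeasurableSet) hanti
      ⟨0, hfin _ (hpos 0)⟩)).rpow_const (Or.inr (by positivity))
  refine (ge_of_tendsto' hlim hineq).trans (Real.rpow_le_rpow ENNReal.toReal_nonneg ?_
    (by positivity))
  refine ENNReal.toReal_mono (isBounded_lpSum p t K L).measure_lt_top.ne (measure_mono ?_)
  intro x hx v _
  refine he.induction_on v (isClosed_le (by fun_prop) hmc) fun k => ?_
  exact (le_abs_self _).trans (mem_body.1 (Set.mem_iInter.1 hx k) ⟨k, by omega⟩)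

end Vale.Agent.P227.LpN
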