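import Vale.Agent.P227.LpN.Spec

/-!
# P227 `LpN`: the Hodge–Riemann inequality in degree two

Induction on the dimension and a path from an empty body. Along the path the inequality is open and
closed on each chamber. At a wall it passes between the two polynomials, which differ by a multiple
of the `n`-th power of the linear form of the wall.
-/

namespace Vale.Agent.P227.LpN

open Set Filter Finset MvPolynomial
open scoped Topology

section Algebra

variable {ι : Type} [Fintype ι]

lemma dq_add (q : ι → ι → ℝ) (P Q : Poly ι) : dq q (P + Q) = dq q P + dq q Q := by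
  simp only [dq, map_add, smul_add, Finset.sum_add_distrib]

lemma dq_smul (q : ι → ι → ℝ) (c : ℝ) (P : Poly ι) : dq q (c • P) = c • dq q P := by
  simp only [dq, Derivation.map_smul, Finset.smul_sum, smul_smul, mul_comm c]

lemma dq_zero (q : ι → ι → ℝ) : dq q (0 : Poly ι) = 0 := by
  simp [dq]

lemma dq_correct [DecidableEq ι] (q : ι → ι → ℝ) (s : ℝ) (a a' : ι) (P : Poly ι) :
    dq (fun σ τ => q σ τ - if σ = a ∧ τ = a' then s else 0) P
      = dq q P - s • pderiv a (pderiv a' P) := by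
  simp only [dq, sub_smul, Finset.sum_sub_distrib, ite_smul, zero_smul, ite_and,
    Finset.sum_ite_irrel, Finset.sum_const_zero, Finset.sum_ite_eq', Finset.mem_univ, if_true]

/-- The value of a two tensor on the form of the wall. -/
noncomputable def tval (lam : ι → ℝ) (q : ι → ι → ℝ) : ℝ := ∑ σ, ∑ τ, q σ τ * (lam σ * lam τ)

lemma pderiv_lamPoly [DecidableEq ι] (lam : ι → ℝ) (σ : ι) :
    pderiv σ (lamPoly lam) = lam σ • (1 : Poly ι) := by
  rw [lamPoly, map_sum, Finset.sum_eq_single σ]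
  · simp
  · intro τ _ h
    simp [pderiv_X_of_ne h]
  · simp

lemma pderiv_lamPow [DecidableEq ι] (lam : ι → ℝ) (σ : ι) (m : ℕ) :
    pderiv σ (lamPoly lam ^ m) = ((m : ℝ) * lam σ) • lamPoly lam ^ (m - 1) := by
  rw [Derivation.leibniz_pow, pderiv_lamPoly, smul_eq_mul, mul_smul_comm, mul_one,
    ← Nat.cast_smul_eq_nsmul ℝ, smul_smul]

lemma dq_lamPow [DecidableEq ι] (lam : ι → ℝ) (q : ι → ι → ℝ) (m : ℕ) :
    dq q (lamPoly lam ^ m)
      = (((m * (m - 1) : ℕ) : ℝ) * tval lam q) • lamPoly lam ^ (m - 2) := by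
  simp only [dq, tval, Finset.mul_sum, Finset.sum_smul]
  refine Finset.sum_congr rfl fun σ _ => Finset.sum_congr rfl fun τ _ => ?_
  rw [pderiv_lamPow, Derivation.map_smul, pderiv_lamPow, smul_smul, smul_smul,
    show m - 1 - 1 = m - 2 by omega]
  congr 1
  push_cast
  ring

lemma ev_lamPow (lam : ι → ℝ) (y : ι → ℝ) (m : ℕ) :
    ev y (lamPoly lam ^ m) = (∑ σ, lam σ * y σ) ^ m := by
  simp [ev, lamPoly, map_pow, map_sum, smul_eval]

/-- The third derivatives on the two sides of a wall. -/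
lemma third_eq [DecidableEq ι] (lam : ι → ℝ) (q : ι → ι → ℝ) (c : ℝ) (PA : Poly ι) (n : ℕ)
    (y : ι → ℝ) (σ : ι) :
    ev y (pderiv σ (dq q (PA + c • lamPoly lam ^ n))) = ev y (pderiv σ (dq q PA))
      + c * ((n * (n - 1) * (n - 2) : ℕ) : ℝ) * tval lam q * lam σ
          * (∑ ρ, lam ρ * y ρ) ^ (n - 3) := by
  rw [dq_add, dq_smul, dq_lamPow, map_add, Derivation.map_smul, Derivation.map_smul, pderiv_lamPow,
    show n - 2 - 1 = n - 3 by omega]
  simp only [ev, map_add, smul_eval]
  have := ev_lamPow lam y (n - 3)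
  simp only [ev] at this
  rw [this]
  push_cast
  ring

/-- The fourth derivatives on the two sides of a wall. -/
lemma fourth_eq [DecidableEq ι] (lam : ι → ℝ) (q r : ι → ι → ℝ) (c : ℝ) (PA : Poly ι) (n : ℕ)
    (y : ι → ℝ) :
    qForm y (PA + c • lamPoly lam ^ n) q r = qForm y PA q r
      + c * ((n * (n - 1) * ((n - 2) * (n - 3)) : ℕ) : ℝ) * tval lam q * tval lam r
          * (∑ ρ, lam ρ * y ρ) ^ (n - 4) := by
  rw [qForm, qForm, dq_add, dq_smul, dq_lamPow, dq_add, dq_smul, dq_smul, dq_lamPow,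
    show n - 2 - 2 = n - 4 by omega, show n - 2 - 1 = n - 3 by omega]
  simp only [ev, map_add, smul_eval]
  have := ev_lamPow lam y (n - 4)
  simp only [ev] at this
  rw [this]
  push_cast
  ring

omit [Fintype ι] in
lemma continuous_ev (P : Poly ι) : Continuous fun y : ι → ℝ => ev y P := continuous_eval P

end Algebra

variable {n N : ℕ}

lemma continuous_Lam (lam : Sd N → ℝ) : Continuous (Lam lam) :=
  continuous_finsetSum _ fun σ _ => continuous_const.mul (continuous_apply σ)

lemma Lam_neg (lam y : Sd N → ℝ) : Lam (-lam) y = -Lam lam y := by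
  simp [Lam]

lemma pderiv_dq (hP : PolySpec) (q : Sd N → Sd N → ℝ) (σ : Sd N) (P : Poly (Sd N)) :
    pderiv σ (dq q P) = dq q (pderiv σ P) := by
  obtain ⟨-, -, hc, -⟩ := hP (Sd N) inferInstance inferInstance
  simp only [dq, map_sum, Derivation.map_smul]
  refine Finset.sum_congr rfl fun ρ _ => Finset.sum_congr rfl fun τ _ => ?_
  rw [hc (pderiv τ P) σ ρ, hc P σ τ]

lemma localPoly_eq (hP : PolySpec) {u : Fin N → Vec n} {b : Sd N → ℝ} {P Q : Poly (Sd N)}
    (h1 : LocalPoly u b P) (h2 : LocalPoly u b Q) : P = Q := by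
  obtain ⟨-, hu, -⟩ := hP (Sd N) inferInstance inferInstance
  obtain ⟨U, hU, hUo, hbU⟩ := eventually_nhds_iff.1 (h1.2.and h2.2)
  exact hu P Q U hUo ⟨b, hbU⟩ fun y hy => (hU y hy).1.symm.trans (hU y hy).2

/-- `HR` holds at `y` for the volume. -/
def Good (u : Fin N → Vec n) (y : Sd N → ℝ) : Prop := ∀ P, LocalPoly u y P → HR y P

lemma good_iff (hP : PolySpec) {u : Fin N → Vec n} {y : Sd N → ℝ} {P : Poly (Sd N)}
    (h : LocalPoly u y P) : Good u y ↔ HR y P :=
  ⟨fun g => g P h, fun g _ hQ => localPoly_eq hP h hQ ▸ g⟩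

lemma eventually_good_iff (hP : PolySpec) {u : Fin N → Vec n} {b : Sd N → ℝ} {P : Poly (Sd N)}
    (h : LocalPoly u b P) : ∀ᶠ y in 𝓝 b, (Good u y ↔ HR y P) := by
  filter_upwards [h.2.eventually_nhds] with y hy
  exact good_iff hP ⟨h.1, hy⟩

lemma eventually_side_iff (hP : PolySpec) {u : Fin N → Vec n} {b lam : Sd N → ℝ}
    {P : Poly (Sd N)} (h : AtSide u b lam P) :
    ∀ᶠ y in 𝓝 b, 0 < Lam lam y → (Good u y ↔ HR y P) := by
  filter_upwards [h.2.eventually_nhds] with y hy hpos
  refine good_iff hP ⟨h.1, ?_⟩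
  filter_upwards [hy, (continuous_Lam lam).continuousAt.eventually (lt_mem_nhds hpos)] with z hz hz'
  exact hz hz'

lemma hr_of_frequently (hX : ApproxSpec) (hn : 4 ≤ n) {P : Poly (Sd N)} {b : Sd N → ℝ}
    (hom : Hom n P) (h1 : Strict1 b P) (hf : ∃ᶠ y in 𝓝 b, HR y P) : HR b P := by
  obtain ⟨C, hC⟩ := hX N n P b hn hom h1
  intro q hq
  by_contra hneg
  have hlt : ∀ᶠ y in 𝓝 b,
      qForm y P q q + C * ∑ σ, ev y (pderiv σ (dq q P)) ^ 2 < 0 := by
    have hc : Continuous fun y : Sd N → ℝ =>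
        qForm y P q q + C * ∑ σ, ev y (pderiv σ (dq q P)) ^ 2 :=
      (continuous_ev _).add (continuous_const.mul
        (continuous_finsetSum _ fun σ _ => (continuous_ev _).pow 2))
    refine hc.continuousAt.eventually (gt_mem_nhds ?_)
    have hz : ∑ σ, ev b (pderiv σ (dq q P)) ^ 2 = 0 :=
      Finset.sum_eq_zero fun σ _ => by rw [hq σ]; norm_num
    simp only [hz, mul_zero, add_zero]
    exact not_le.1 hneg
  obtain ⟨y, hy, hy1, hy2⟩ := (hf.and_eventually (hC.and hlt)).exists
  have := hy1 hy q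
  linarith

/-- The correction by a tensor killing one side. -/
lemma hr_back (hP : PolySpec) {lam y : Sd N → ℝ} {PA : Poly (Sd N)} {c : ℝ} {a a' : Sd N}
    (hk : pderiv a (pderiv a' PA) = 0) (hl : lam a * lam a' ≠ 0)
    (h : HR y (PA + c • lamPoly lam ^ n)) : HR y PA := by
  intro q hq
  obtain ⟨q', hq'⟩ : ∃ q' : Sd N → Sd N → ℝ, q' = fun σ τ =>
      q σ τ - if σ = a ∧ τ = a' then tval lam q / (lam a * lam a') else 0 := ⟨_, rfl⟩
  have h1 : dq q' PA = dq q PA := by rw [hq', dq_correct, hk, smul_zero, sub_zero]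
  have h2 : tval lam q' = 0 := by
    have : tval lam q' = tval lam q - tval lam q / (lam a * lam a') * (lam a * lam a') := by
      simp only [hq', tval, sub_mul, Finset.sum_sub_distrib, ite_mul, zero_mul, ite_and,
        Finset.sum_ite_irrel, Finset.sum_const_zero, Finset.sum_ite_eq', Finset.mem_univ, if_true]
    rw [this, div_mul_cancel₀ _ hl, sub_self]
  have hprim : Prim y (PA + c • lamPoly lam ^ n) q' := fun σ => by
    rw [third_eq, h1, h2, hq σ]; ring
  have := h q' hprim
  rw [fourth_eq, h2] at this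
  simp only [mul_zero, zero_mul, add_zero, qForm, h1] at this
  rwa [hq', dq_correct, pderiv_dq hP, pderiv_dq hP, hk, dq_zero, smul_zero, sub_zero] at this

lemma wall_facts {u : Fin N → Vec n} {b lam : Sd N → ℝ} (hw : Wall u b lam) :
    (posSet lam).card + (posSet (-lam)).card = n + 1 ∧ (∃ σ, lam σ ≠ 0) ∧
      Set.InjOn Prod.fst {σ | lam σ ≠ 0} := by
  classical
  obtain ⟨-, ⟨hcard, hinj, -⟩, -⟩ := hw
  have hset : (↑(supp lam) : Set (Sd N)) = {σ | lam σ ≠ 0} := by ext σ; simp [supp]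
  refine ⟨?_, ?_, hset ▸ hinj⟩
  · rw [← hcard, ← Finset.card_union_of_disjoint]
    · congr 1
      ext σ
      simp only [Finset.mem_union, posSet, supp, Finset.mem_filter, Finset.mem_univ, true_and,
        Pi.neg_apply, Left.neg_pos_iff]
      exact ⟨fun h => h.elim (fun h => h.ne') (fun h => h.ne), fun h => h.lt_or_gt.symm⟩
    · rw [Finset.disjoint_left]
      intro σ h h'
      simp only [posSet, Finset.mem_filter, Finset.mem_univ, true_and, Pi.neg_apply] at h h'
      linarith
  · obtain ⟨σ, hσ⟩ := Finset.card_pos.1 (show 0 < (supp lam).card by omega)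
    exact ⟨σ, by simpa [supp] using hσ⟩

/-- Simple points: the inequality is locally constant. -/
lemma simple_dichotomy (hP : PolySpec) (hC : CellSpec) (hT : StrictSpec) (hX : ApproxSpec)
    (hO : OpenSpec) (hn : 4 ≤ n) (ih : ∀ m, 4 ≤ m → m < n → HRAt m) {u : Fin N → Vec n}
    (hu : GenPos u) {b : Sd N → ℝ} (hb : Simple u b) :
    (∀ᶠ y in 𝓝 b, Good u y) ∨ ∀ᶠ y in 𝓝 b, ¬ Good u y := by
  obtain ⟨P, hPb⟩ := ((hC.1 n N u (by omega) hu).1 b hb).2
  obtain ⟨hs1, -, hs3⟩ := hT n N u (by omega) hu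
  have he := eventually_good_iff hP hPb
  by_cases hf : ∃ᶠ y in 𝓝 b, Good u y
  · left
    have hb' : HR b P := hr_of_frequently hX hn hPb.1 (hs1 b P hb hPb)
      ((hf.and_eventually he).mono fun y hy => hy.2.1 hy.1)
    filter_upwards [hO N P b ((hs3 hn ih).1 b P hb hPb hb'), he] with y hy hy'
    exact hy'.2 hy.1
  · exact Or.inr (not_frequently.1 hf)

/-- Walls with at most two positive sides or at least three of each sign. -/
lemma wall_dichotomy_le (hP : PolySpec) (hC : CellSpec) (hT : StrictSpec) (hX : ApproxSpec)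
    (hO : OpenSpec) (hn : 4 ≤ n) (ih : ∀ m, 4 ≤ m → m < n → HRAt m) {u : Fin N → Vec n}
    (hu : GenPos u) {b lam : Sd N → ℝ} (hw : Wall u b lam)
    (hkm : (posSet lam).card ≤ (posSet (-lam)).card) :
    (∀ᶠ y in 𝓝 b, Lam lam y ≠ 0 → Good u y) ∨ ∀ᶠ y in 𝓝 b, Lam lam y ≠ 0 → ¬ Good u y := by
  classical
  obtain ⟨-, hwall, -, -, hkill, -, -⟩ := hC.1 n N u (by omega) hu
  obtain ⟨hLb, hw', -, -, PA, PB, c, hA, hB, hAB⟩ := hwall b lam hw
  obtain ⟨-, hs2, hs3⟩ := hT n N u (by omega) hu
  obtain ⟨hcard, ⟨σ₀, hσ₀⟩, hinj⟩ := wall_facts hw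
  have eA := eventually_side_iff hP hA
  have eB := eventually_side_iff hP hB
  subst hAB
  by_cases hk0 : posSet lam = ∅
  · left
    have hPA := (hkill b lam PA hw hA).1 hk0
    filter_upwards [eA, eB] with y hyA hyB hy
    rcases lt_or_gt_of_ne hy with h | h
    · refine (hyB (by rw [Lam_neg]; linarith)).2 fun q hq => ?_
      have h3 := hq σ₀
      rw [third_eq, hPA, dq_zero] at h3
      simp only [map_zero, ev, zero_add] at h3
      have hK : ((n * (n - 1) * (n - 2) : ℕ) : ℝ) ≠ 0 := by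
        simp only [ne_eq, Nat.cast_eq_zero, mul_eq_zero]; omega
      have : c * tval lam q = 0 := by
        simp only [mul_eq_zero, pow_eq_zero_iff', hK, hσ₀, or_false] at h3
        rcases h3 with (h3 | h3) | h3
        · rw [h3, zero_mul]
        · rw [h3, mul_zero]
        · exact absurd h3.1 hy
      rw [fourth_eq, hPA, show ∀ K T L : ℝ, c * K * tval lam q * T * L
        = c * tval lam q * (K * T * L) from fun K T L => by ring, this]
      simp [qForm, dq_zero, ev]
    · exact (hyA h).2 fun q _ => by simp [hPA, qForm, dq_zero, ev]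
  have hk1 : 1 ≤ (posSet lam).card := Finset.card_pos.2 (Finset.nonempty_iff_ne_empty.2 hk0)
  have h1A : Strict1 b PA := hs2 b lam PA hw hA hk1 (by omega)
  have hopA : HR b PA → ∀ᶠ y in 𝓝 b, HR y PA := fun h =>
    (hO N PA b ((hs3 hn ih).2 b lam PA hw hA hk1 (by omega) h)).mono fun y hy => hy.1
  by_cases hf : ∃ᶠ y in 𝓝 b, Lam lam y ≠ 0 ∧ Good u y
  swap
  · exact Or.inr ((not_frequently.1 hf).mono fun y hy h hg => hy ⟨h, hg⟩)
  left
  have hsides : (∃ᶠ y in 𝓝 b, HR y PA) ∨ ∃ᶠ y in 𝓝 b, HR y (PA + c • lamPoly lam ^ n) := by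
    refine frequently_or_distrib.1 ((hf.and_eventually (eA.and eB)).mono ?_)
    rintro y ⟨⟨hy, hg⟩, hyA, hyB⟩
    rcases lt_or_gt_of_ne hy with h | h
    · exact Or.inr ((hyB (by rw [Lam_neg]; linarith)).1 hg)
    · exact Or.inl ((hyA h).1 hg)
  have hgood : HR b PA → (∀ᶠ y in 𝓝 b, Lam lam y < 0 → HR y PA →
      HR y (PA + c • lamPoly lam ^ n)) → ∀ᶠ y in 𝓝 b, Lam lam y ≠ 0 → Good u y := fun h hpass => by
    filter_upwards [hopA h, hpass, eA, eB] with y hy hyp hyA hyB hne
    rcases lt_or_gt_of_ne hne with h' | h'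
    · exact (hyB (by rw [Lam_neg]; linarith)).2 (hyp h' hy)
    · exact (hyA h').2 hy
  by_cases hk3 : 3 ≤ (posSet lam).card
  · -- both sides are strict and agree at the wall
    have hsum : (∑ ρ, lam ρ * b ρ) = 0 := hLb
    have heq : HR b PA ↔ HR b (PA + c • lamPoly lam ^ n) := by
      have e3 : ∀ q, Prim b (PA + c • lamPoly lam ^ n) q ↔ Prim b PA q := fun q => by
        simp only [Prim, third_eq, hsum, zero_pow (show n - 3 ≠ 0 by omega), mul_zero, add_zero]
      have e4 : ∀ q, qForm b (PA + c • lamPoly lam ^ n) q q = qForm b PA q q := fun q => by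
        rw [fourth_eq, hsum, zero_pow (show n - 4 ≠ 0 by omega), mul_zero, add_zero]
      simp only [HR, e3, e4]
    have h1B : Strict1 b (PA + c • lamPoly lam ^ n) :=
      hs2 b (-lam) _ hw' hB (by omega) (by rw [neg_neg]; omega)
    have hA' : HR b PA := by
      rcases hsides with h | h
      · exact hr_of_frequently hX hn hA.1 h1A h
      · exact heq.2 (hr_of_frequently hX hn hB.1 h1B h)
    refine hgood hA' ?_
    filter_upwards [hO N _ b ((hs3 hn ih).2 b (-lam) _ hw' hB (by omega)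
      (by rw [neg_neg]; omega) (heq.1 hA'))] with y hy _ _
    exact hy.1
  have hA' : HR b PA := by
    rcases hsides with h | h
    · exact hr_of_frequently hX hn hA.1 h1A h
    · refine hr_of_frequently hX hn hA.1 h1A (h.mono fun y hy => ?_)
      rcases (show (posSet lam).card = 1 ∨ (posSet lam).card = 2 by omega) with e | e
      · obtain ⟨a, ha⟩ := Finset.card_eq_one.1 e
        have hpos : 0 < lam a := by simpa [posSet] using ha.ge (Finset.mem_singleton_self a)
        refine hr_back hP (a := a) (a' := a) ?_ (mul_ne_zero hpos.ne' hpos.ne') hy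
        rw [(hkill b lam PA hw hA).2.1 a ha, map_zero]
      · obtain ⟨a, a', hne, ha⟩ := Finset.card_eq_two.1 e
        have hpos : 0 < lam a := by simpa [posSet] using ha.ge (show a ∈ ({a, a'} : Finset _) by simp)
        have hpos' : 0 < lam a' := by
          simpa [posSet] using ha.ge (show a' ∈ ({a, a'} : Finset _) by simp)
        exact hr_back hP ((hkill b lam PA hw hA).2.2.1 a a' hne ha)
          (mul_ne_zero hpos.ne' hpos'.ne') hy
  refine hgood hA' ?_
  rcases (show (posSet lam).card = 1 ∨ (posSet lam).card = 2 by omega) with e | e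
  · refine Eventually.of_forall fun y hy h q hq => ?_
    obtain ⟨a, ha⟩ := Finset.card_eq_one.1 e
    have hpos : 0 < lam a := by simpa [posSet] using ha.ge (Finset.mem_singleton_self a)
    have h3 := hq a
    rw [third_eq, pderiv_dq hP, (hkill b lam PA hw hA).2.1 a ha, dq_zero] at h3
    simp only [map_zero, ev, zero_add] at h3
    have hK : ((n * (n - 1) * (n - 2) : ℕ) : ℝ) ≠ 0 := by
      simp only [ne_eq, Nat.cast_eq_zero, mul_eq_zero]; omega
    have hct : c * tval lam q = 0 := by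
      simp only [mul_eq_zero, pow_eq_zero_iff', hK, hpos.ne', or_false] at h3
      rcases h3 with (h3 | h3) | h3
      · rw [h3, zero_mul]
      · rw [h3, mul_zero]
      · exact absurd h3.1 hy.ne
    have hprim : Prim y PA q := fun σ => by
      have := hq σ
      rw [third_eq, show ∀ K T L : ℝ, c * K * tval lam q * T * L
        = c * tval lam q * (K * T * L) from fun K T L => by ring, hct, zero_mul, add_zero] at this
      exact this
    rw [fourth_eq, show ∀ K T L : ℝ, c * K * tval lam q * T * L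
        = c * tval lam q * (K * T * L) from fun K T L => by ring, hct, zero_mul, add_zero]
    exact h q hprim
  · obtain ⟨a, a', hne, ha⟩ := Finset.card_eq_two.1 e
    have hpos : 0 < lam a := by simpa [posSet] using ha.ge (show a ∈ ({a, a'} : Finset _) by simp)
    have hpos' : 0 < lam a' := by
      simpa [posSet] using ha.ge (show a' ∈ ({a, a'} : Finset _) by simp)
    have hfst : a.1 ≠ a'.1 := fun h => hne (hinj hpos.ne' hpos'.ne' h)
    have hridge := (hkill b (-lam) _ hw' hB).2.2.2 (by omega) a a' hfst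
    obtain ⟨C, hC'⟩ := hX N n PA b hn hA.1 h1A
    have hsmall : ∀ᶠ y in 𝓝 b, C * c * ((n * (n - 1) * (n - 2) : ℕ) : ℝ) ^ 2
        * (∑ ρ, lam ρ ^ 2) * Lam lam y ^ (n - 2)
          < ((n * (n - 1) * ((n - 2) * (n - 3)) : ℕ) : ℝ) := by
      refine (continuous_const.mul ((continuous_Lam lam).pow (n - 2))).continuousAt.eventually
        (gt_mem_nhds ?_)
      simp only [Pi.mul_apply, Pi.pow_apply, hLb, zero_pow (show n - 2 ≠ 0 by omega), mul_zero,
        Nat.cast_pos]
      have h2 : 0 < n - 1 := by omega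
      have h3 : 0 < n - 2 := by omega
      have h4 : 0 < n - 3 := by omega
      positivity
    filter_upwards [hridge, hC', hsmall] with y hr hy' hsm hL h q hq
    have hsign : 0 ≤ c * Lam lam y ^ (n - 4) := by
      have hr' := hr (by rw [Lam_neg]; linarith)
      rw [map_add, map_add, (hkill b lam PA hw hA).2.2.1 a a' hne ha, Derivation.map_smul,
        pderiv_lamPow, smul_smul, Derivation.map_smul, pderiv_lamPow, smul_smul, zero_add,
        show n - 1 - 1 = n - 4 + 2 by omega] at hr'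
      simp only [ev, smul_eval] at hr'
      have e' := ev_lamPow lam y (n - 4 + 2)
      simp only [ev] at e'
      rw [e'] at hr'
      have hp : 0 < (n : ℝ) * ((n - 1 : ℕ) : ℝ) * lam a' * lam a * (∑ ρ, lam ρ * y ρ) ^ 2 := by
        have : (∑ ρ, lam ρ * y ρ) ≠ 0 := hL.ne
        have h1 : (0 : ℝ) < n := by exact_mod_cast (show 0 < n by omega)
        have h2 : (0 : ℝ) < ((n - 1 : ℕ) : ℝ) := by exact_mod_cast (show 0 < n - 1 by omega)
        positivity
      refine nonneg_of_mul_nonneg_left (le_of_le_of_eq hr' ?_) hp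
      simp only [Lam, pow_add]
      ring
    have hbd := hy' h q
    have h3 : ∀ σ, ev y (pderiv σ (dq q PA)) = -(c * ((n * (n - 1) * (n - 2) : ℕ) : ℝ)
        * tval lam q * Lam lam y ^ (n - 3)) * lam σ := fun σ => by
      have := hq σ
      rw [third_eq] at this
      simp only [Lam]
      linarith
    simp only [h3, mul_pow, ← Finset.mul_sum] at hbd
    rw [fourth_eq]
    have key : 0 ≤ (c * Lam lam y ^ (n - 4)) * tval lam q ^ 2 *
        (((n * (n - 1) * ((n - 2) * (n - 3)) : ℕ) : ℝ) - C * c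
          * ((n * (n - 1) * (n - 2) : ℕ) : ℝ) ^ 2 * (∑ ρ, lam ρ ^ 2) * Lam lam y ^ (n - 2)) :=
      mul_nonneg (mul_nonneg hsign (sq_nonneg _)) (sub_nonneg.2 hsm.le)
    have hpow : (Lam lam y ^ (n - 3)) ^ 2 = Lam lam y ^ (n - 4) * Lam lam y ^ (n - 2) := by
      rw [← pow_mul, ← pow_add]; congr 1; omega
    show 0 ≤ qForm y PA q q + c * _ * tval lam q * tval lam q * Lam lam y ^ (n - 4)
    rw [neg_sq, mul_pow, mul_pow, mul_pow, hpow] at hbd
    linear_combination key + hbd

/-- Walls: the inequality is the same on both sides. -/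
lemma wall_dichotomy (hP : PolySpec) (hC : CellSpec) (hT : StrictSpec) (hX : ApproxSpec)
    (hO : OpenSpec) (hn : 4 ≤ n) (ih : ∀ m, 4 ≤ m → m < n → HRAt m) {u : Fin N → Vec n}
    (hu : GenPos u) {b lam : Sd N → ℝ} (hw : Wall u b lam) :
    (∀ᶠ y in 𝓝 b, Lam lam y ≠ 0 → Good u y) ∨ ∀ᶠ y in 𝓝 b, Lam lam y ≠ 0 → ¬ Good u y := by
  rcases le_total (posSet lam).card (posSet (-lam)).card with h | h
  · exact wall_dichotomy_le hP hC hT hX hO hn ih hu hw h
  · have hw' := ((hC.1 n N u (by omega) hu).2.1 b lam hw).2.1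
    have := wall_dichotomy_le hP hC hT hX hO hn ih hu hw' (by rwa [neg_neg])
    simpa only [Lam_neg, ne_eq, neg_eq_zero] using this

/-- A point of the unit interval near, and distinct from, a given one. -/
lemma exists_punctured {t : ℝ} (ht : t ∈ Icc (0 : ℝ) 1) {p : ℝ → Prop} (h : ∀ᶠ s in 𝓝 t, p s) :
    ∃ s ∈ Icc (0 : ℝ) 1, s ≠ t ∧ p s := by
  obtain ⟨δ, hδ, hball⟩ := Metric.eventually_nhds_iff.1 h
  obtain ⟨ht0, ht1⟩ := ht
  have he : (0 : ℝ) < min (δ / 2) (1 / 2) := lt_min (by linarith) (by norm_num)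
  have h1 : min (δ / 2) (1 / 2) ≤ δ / 2 := min_le_left _ _
  have h2 : min (δ / 2) (1 / 2) ≤ (1 / 2 : ℝ) := min_le_right _ _
  rcases le_total t (1 / 2) with hm | hm
  · refine ⟨t + min (δ / 2) (1 / 2), ⟨by linarith, by linarith⟩, by linarith, hball ?_⟩
    rw [Real.dist_eq, add_sub_cancel_left, abs_of_pos he]; linarith
  · refine ⟨t - min (δ / 2) (1 / 2), ⟨by linarith, by linarith⟩, by linarith, hball ?_⟩
    rw [Real.dist_eq, sub_sub_cancel_left, abs_neg, abs_of_pos he]; linarith

/-- A property which is constant near every point of the interval, the point itself excepted. -/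
lemma interval_induction {good : ℝ → Prop}
    (hloc : ∀ x ∈ Icc (0 : ℝ) 1, (∀ᶠ s in 𝓝 x, s ∈ Icc (0 : ℝ) 1 → s ≠ x → good s) ∨
      ∀ᶠ s in 𝓝 x, s ∈ Icc (0 : ℝ) 1 → s ≠ x → ¬ good s)
    (h0 : ∀ᶠ s in 𝓝 (0 : ℝ), good s) :
    ∀ᶠ s in 𝓝 (1 : ℝ), s ∈ Icc (0 : ℝ) 1 → s ≠ 1 → good s := by
  obtain ⟨G, hG⟩ : ∃ G : ℝ → Prop,
      ∀ x, G x ↔ ∀ᶠ s in 𝓝 x, s ∈ Icc (0 : ℝ) 1 → s ≠ x → good s :=
    ⟨_, fun _ => Iff.rfl⟩
  refine (hG 1).1 ((isPreconnected_Icc.induction₂ (fun x y => G x ↔ G y) (fun x hx => ?_)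
    (fun _ _ _ _ _ _ h h' => h.trans h') (fun _ _ _ _ h => h.symm) (left_mem_Icc.2 zero_le_one)
    (right_mem_Icc.2 zero_le_one)).1 ((hG 0).2 (h0.mono fun s hs _ _ => hs)))
  have spread : ∀ p : ℝ → Prop, (∀ᶠ s in 𝓝 x, s ∈ Icc (0 : ℝ) 1 → s ≠ x → p s) →
      ∀ᶠ z in 𝓝 x, ∀ᶠ s in 𝓝 z, s ∈ Icc (0 : ℝ) 1 → s ≠ z → p s := by
    intro p hp
    filter_upwards [hp.eventually_nhds] with z hz
    rcases eq_or_ne z x with rfl | hzx
    · exact hz
    · filter_upwards [hz, isOpen_ne.mem_nhds hzx] with s hs hsx hI _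
      exact hs hI hsx
  rcases hloc x hx with h | h
  · refine eventually_nhdsWithin_of_eventually_nhds ((spread good h).mono fun z hz => ?_)
    exact iff_of_true ((hG x).2 h) ((hG z).2 hz)
  · have no : ∀ z ∈ Icc (0 : ℝ) 1,
        (∀ᶠ s in 𝓝 z, s ∈ Icc (0 : ℝ) 1 → s ≠ z → ¬ good s) → ¬ G z := fun z hz h1 h2 => by
      obtain ⟨s, hs, hsz, h3, h4⟩ := exists_punctured hz (h1.and ((hG z).1 h2))
      exact h3 hs hsz (h4 hs hsz)
    filter_upwards [eventually_nhdsWithin_of_eventually_nhds (spread (fun s => ¬ good s) h),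
      self_mem_nhdsWithin] with z hz hzI
    exact iff_of_false (no x hx h) (no z hzI hz)

lemma good_of_empty (hP : PolySpec) {u : Fin N → Vec n} {y : Sd N → ℝ}
    (h : ∀ᶠ z in 𝓝 y, body u z = ∅) : Good u y := by
  intro P hPy q _
  obtain ⟨-, huniq, -⟩ := hP (Sd N) inferInstance inferInstance
  obtain ⟨U, hU, hUo, hyU⟩ := eventually_nhds_iff.1 (hPy.2.and h)
  have : P = 0 := huniq P 0 U hUo ⟨y, hyU⟩ fun z hz => by
    rw [← (hU z hz).1, vol, (hU z hz).2]; simp [ev]
  simp [this, qForm, dq_zero, ev]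

/-- The Hodge–Riemann inequality in degree two for all simple bodies, in every dimension. -/
theorem hrSpec (_hS : SlabSpec) (hP : PolySpec) (hC : CellSpec) (hT : StrictSpec)
    (hX : ApproxSpec) (hO : OpenSpec) : HRSpec := by
  intro n
  induction n using Nat.strong_induction_on with
  | _ n IH =>
    intro hn N u hu b P hb hPb
    have ih : ∀ m, 4 ≤ m → m < n → HRAt m := fun m h4 hm => IH m hm h4
    obtain ⟨-, hwall, -, hempty, -, hpath, a, ha, hae⟩ := hC.1 n N u (by omega) hu
    rcases simple_dichotomy hP hC hT hX hO hn ih hu hb with hd | hd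
    · exact hd.self_of_nhds P hPb
    · exfalso
      obtain ⟨ε₁, hε₁, hball₁⟩ := Metric.eventually_nhds_iff.1 (hempty a ha hae)
      obtain ⟨ε₂, hε₂, hball₂⟩ := Metric.eventually_nhds_iff.1 hd
      obtain ⟨a', b', ha', hb', T, hT'⟩ := hpath a b ha hb (min ε₁ ε₂) (lt_min hε₁ hε₂)
      have hcont : Continuous fun t : ℝ => (1 - t) • a' + t • b' := by fun_prop
      have hloc : ∀ x ∈ Icc (0 : ℝ) 1,
          (∀ᶠ s in 𝓝 x, s ∈ Icc (0 : ℝ) 1 → s ≠ x → Good u ((1 - s) • a' + s • b')) ∨
          ∀ᶠ s in 𝓝 x, s ∈ Icc (0 : ℝ) 1 → s ≠ x → ¬ Good u ((1 - s) • a' + s • b') := by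
        intro x hx
        obtain ⟨-, hnT, hT''⟩ := hT' x hx
        have hcase : Simple u ((1 - x) • a' + x • b') ∨ ∃ lam,
            Wall u ((1 - x) • a' + x • b') lam ∧ 0 < x ∧ x < 1 ∧ Lam lam (b' - a') ≠ 0 := by
          by_cases hxT : x ∈ T
          · exact hT'' hxT
          · exact Or.inl (hnT hxT)
        rcases hcase with hs | ⟨lam, hw, -, -, hslope⟩
        · rcases simple_dichotomy hP hC hT hX hO hn ih hu hs with h | h
          · exact Or.inl ((hcont.continuousAt.eventually h).mono fun s hs _ _ => hs)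
          · exact Or.inr ((hcont.continuousAt.eventually h).mono fun s hs _ _ => hs)
        · have hne : ∀ s, s ≠ x → Lam lam ((1 - s) • a' + s • b') ≠ 0 := by
            intro s hsx
            have e : Lam lam ((1 - s) • a' + s • b')
                = Lam lam ((1 - x) • a' + x • b') + (s - x) * Lam lam (b' - a') := by
              simp only [Lam, Pi.add_apply, Pi.smul_apply, smul_eq_mul, Pi.sub_apply,
                Finset.mul_sum, ← Finset.sum_add_distrib]
              exact Finset.sum_congr rfl fun σ _ => by ring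
            rw [e, (hwall _ lam hw).1, zero_add]
            exact mul_ne_zero (sub_ne_zero.2 hsx) hslope
          rcases wall_dichotomy hP hC hT hX hO hn ih hu hw with h | h
          · exact Or.inl ((hcont.continuousAt.eventually h).mono fun s hs _ hsx => hs (hne s hsx))
          · exact Or.inr ((hcont.continuousAt.eventually h).mono fun s hs _ hsx => hs (hne s hsx))
      have h0 : ∀ᶠ s in 𝓝 (0 : ℝ), Good u ((1 - s) • a' + s • b') := by
        refine hcont.continuousAt.eventually (?_ : ∀ᶠ y in 𝓝 _, Good u y)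
        have : a' ∈ Metric.ball a ε₁ := lt_of_lt_of_le ha' (min_le_left _ _)
        simp only [sub_zero, one_smul, zero_smul, add_zero]
        filter_upwards [Metric.isOpen_ball.mem_nhds this] with y hy
        exact good_of_empty hP ((Metric.isOpen_ball.eventually_mem hy).mono fun z hz => hball₁ hz)
      have h1 := interval_induction hloc h0
      have hnear : ∀ᶠ s in 𝓝 (1 : ℝ), ¬ Good u ((1 - s) • a' + s • b') := by
        refine hcont.continuousAt.eventually (?_ : ∀ᶠ y in 𝓝 _, ¬ Good u y)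
        have : b' ∈ Metric.ball b ε₂ := lt_of_lt_of_le hb' (min_le_right _ _)
        simp only [sub_self, zero_smul, one_smul, zero_add]
        filter_upwards [Metric.isOpen_ball.mem_nhds this] with y hy
        exact hball₂ hy
      obtain ⟨s, hs, hs1, hg, hng⟩ :=
        exists_punctured (right_mem_Icc.2 zero_le_one) (h1.and hnear)
      exact hng (hg hs hs1)

end Vale.Agent.P227.LpN
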