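import Vale.Agent.P227.LpN.Spec

/-!
# P227 `LpN`: calculus of polynomials in the bounds
-/

namespace Vale.Agent.P227.LpN

open MeasureTheory Set Filter Finset MvPolynomial
open scoped Topology

namespace PolyCalc

variable {ι : Type}

@[simp] theorem ev_add (y : ι → ℝ) (P Q : Poly ι) : ev y (P + Q) = ev y P + ev y Q := map_add _ _ _

@[simp] theorem ev_sub (y : ι → ℝ) (P Q : Poly ι) : ev y (P - Q) = ev y P - ev y Q := map_sub _ _ _

@[simp] theorem ev_mul (y : ι → ℝ) (P Q : Poly ι) : ev y (P * Q) = ev y P * ev y Q := map_mul _ _ _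

@[simp] theorem ev_pow (y : ι → ℝ) (P : Poly ι) (k : ℕ) : ev y (P ^ k) = ev y P ^ k := map_pow _ _ _

@[simp] theorem ev_zero (y : ι → ℝ) : ev y (0 : Poly ι) = 0 := map_zero _

@[simp] theorem ev_sum {κ : Type*} (y : ι → ℝ) (s : Finset κ) (f : κ → Poly ι) :
    ev y (∑ k ∈ s, f k) = ∑ k ∈ s, ev y (f k) := map_sum _ _ _

@[simp] theorem ev_smul (y : ι → ℝ) (c : ℝ) (P : Poly ι) : ev y (c • P) = c * ev y P :=
  smul_eval y P c

@[simp] theorem ev_X (y : ι → ℝ) (σ : ι) : ev y (X σ : Poly ι) = y σ := eval_X σ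

@[simp] theorem ev_C (y : ι → ℝ) (c : ℝ) : ev y (C c : Poly ι) = c := eval_C c

variable [Fintype ι]

theorem ev_hasFDerivAt (P : Poly ι) (y : ι → ℝ) : HasFDerivAt (fun x => ev x P)
    (∑ σ, ev y (pderiv σ P) • ContinuousLinearMap.proj (R := ℝ) (φ := fun _ : ι => ℝ) σ) y := by
  classical
  induction P using MvPolynomial.induction_on with
  | C a => simpa [ev] using hasFDerivAt_const a y
  | add p q hp hq =>
    simp only [ev_add, map_add, add_smul, Finset.sum_add_distrib]
    exact hp.add hq
  | mul_X p i hp =>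
    simp only [ev_mul, ev_X]
    refine (hp.mul (hasFDerivAt_apply i y)).congr_fderiv ?_
    ext v
    simp only [pderiv_mul, pderiv_X, Pi.single_apply, ev_add, ev_mul, ev_X, Finset.sum_add_distrib,
      ContinuousLinearMap.add_apply, ContinuousLinearMap.smul_apply, ContinuousLinearMap.proj_apply,
      ContinuousLinearMap.sum_apply, smul_eq_mul, add_mul, mul_ite, apply_ite (ev y)]
    simp [Finset.mul_sum, mul_comm, mul_left_comm, ev]
    ring

theorem poly_ext_open {P Q : Poly ι} {U : Set (ι → ℝ)} (hU : IsOpen U) (hne : U.Nonempty)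
    (h : ∀ y ∈ U, ev y P = ev y Q) : P = Q := by
  obtain ⟨y, hy⟩ := hne
  obtain ⟨r, hr, hball⟩ := Metric.isOpen_iff.1 hU y hy
  refine funext_set (fun σ => Ioo (y σ - r) (y σ + r))
    (fun σ => Set.Ioo_infinite (by linarith)) fun x hx => h x (hball ?_)
  rw [ball_pi y hr, Set.mem_univ_pi]
  intro σ
  rw [Real.ball_eq_Ioo]
  exact hx σ trivial

omit [Fintype ι] in
theorem pderiv_comm' (P : Poly ι) (σ τ : ι) :
    pderiv σ (pderiv τ P) = pderiv τ (pderiv σ P) := by
  classical
  induction P using MvPolynomial.induction_on with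
  | C a => simp
  | add p q hp hq => simp [hp, hq]
  | mul_X p i hp =>
    simp only [pderiv_mul, map_add, hp, pderiv_X, Pi.single_apply]
    split_ifs <;> simp <;> ring

theorem hom_pderiv {m : ℕ} {P : Poly ι} (hP : Hom (m + 1) P) (σ : ι) :
    Hom m (pderiv σ P) := by
  classical
  have h := congrArg (pderiv σ) (hP : ∑ τ, X τ * pderiv τ P = _)
  simp only [map_sum, pderiv_mul, Finset.sum_add_distrib, pderiv_X, Pi.single_apply, ite_mul,
    one_mul, zero_mul, Finset.sum_ite_eq', Finset.mem_univ, if_true, pderiv_comm' P σ,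
    Nat.cast_add, Nat.cast_one, add_smul, one_smul, map_add, Derivation.map_smul] at h
  exact add_left_cancel (h.trans (add_comm _ _))

theorem hom_eq_zero {m : ℕ} {P : Poly ι} (hP : Hom (m + 1) P) (h : ∀ σ, pderiv σ P = 0) :
    P = 0 := by
  have h0 : ((m + 1 : ℕ) : ℝ) • P = 0 := by
    rw [← (hP : ∑ τ, X τ * pderiv τ P = _)]; simp [h]
  exact (smul_eq_zero.1 h0).resolve_left (by exact_mod_cast m.succ_ne_zero)

variable {κ : Type} [Fintype κ] [DecidableEq κ]

omit [Fintype ι] in
theorem subst_sum {α : Type*} (L : (κ → ℝ) →ₗ[ℝ] (ι → ℝ)) (s : Finset α) (f : α → Poly ι) :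
    subst L (∑ k ∈ s, f k) = ∑ k ∈ s, subst L (f k) := map_sum _ _ _

omit [Fintype ι] in
theorem ev_subst (L : (κ → ℝ) →ₗ[ℝ] (ι → ℝ)) (P : Poly ι) (y : κ → ℝ) :
    ev y (subst L P) = ev (L y) P := by
  have hL : ∀ τ, L y τ = ∑ σ, L (Pi.single σ 1) τ * y σ := fun τ => by
    conv_lhs => rw [show y = ∑ σ, y σ • Pi.single σ (1 : ℝ) from pi_eq_sum_univ' y]
    simp [map_sum, map_smul, mul_comm]
  induction P using MvPolynomial.induction_on with
  | C a => simp [subst, ev]
  | add p q hp hq =>
    rw [show subst L (p + q) = subst L p + subst L q from map_add _ _ _, ev_add, ev_add, hp, hq]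
  | mul_X p i hp =>
    rw [show subst L (p * X i) = subst L p * subst L (X i) from map_mul _ _ _, ev_mul, ev_mul, hp,
      ev_X, hL]
    simp [subst]

theorem pderiv_subst (L : (κ → ℝ) →ₗ[ℝ] (ι → ℝ)) (P : Poly ι) (σ : κ) :
    pderiv σ (subst L P) = subst L (dv (L (Pi.single σ 1)) P) := by
  classical
  have key : ∀ Q : Poly ι, pderiv σ (subst L Q)
      = ∑ τ, L (Pi.single σ 1) τ • subst L (pderiv τ Q) := by
    intro Q
    induction Q using MvPolynomial.induction_on with
    | C a => simp [subst]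
    | add p q hp hq =>
      simp only [show ∀ a b : Poly ι, subst L (a + b) = subst L a + subst L b from
        fun a b => map_add _ _ _, map_add, smul_add, Finset.sum_add_distrib, hp, hq]
    | mul_X p i hp =>
      simp only [show ∀ a b : Poly ι, subst L (a * b) = subst L a * subst L b from
        fun a b => map_mul _ _ _, pderiv_mul, hp,
        show ∀ a b : Poly ι, subst L (a + b) = subst L a + subst L b from fun a b => map_add _ _ _,
        smul_add, Finset.sum_add_distrib, Finset.sum_mul, smul_mul_assoc]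
      congr 1
      rw [Finset.sum_eq_single i]
      · have : pderiv σ (subst L (X i)) = C (L (Pi.single σ 1) i) := by
          simp only [subst, bind₁_X_right, map_sum, map_smul, pderiv_X, Pi.single_apply]
          simp [smul_eq_C_mul, Pi.single_apply]
        rw [this, pderiv_X_self]
        simp [subst, smul_eq_C_mul, mul_comm]
      · intro τ _ hτ
        simp [pderiv_X_of_ne hτ.symm, subst]
      · simp
  rw [key]
  simp [dv, subst, map_sum]

theorem hom_subst (L : (κ → ℝ) →ₗ[ℝ] (ι → ℝ)) {m : ℕ} {P : Poly ι} (hP : Hom m P) :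
    Hom m (subst L P) := by
  have h := congrArg (subst L) (hP : ∑ τ, X τ * pderiv τ P = _)
  simp only [subst, map_sum, map_mul, bind₁_X_right, map_smul] at h
  show ∑ σ, X σ * pderiv σ (subst L P) = _
  simp only [pderiv_subst, dv, subst_sum, Finset.mul_sum]
  rw [Finset.sum_comm]
  simp only [subst, map_smul] at h ⊢
  rw [← h]
  refine Finset.sum_congr rfl fun τ _ => ?_
  rw [Finset.sum_mul]
  exact Finset.sum_congr rfl fun σ _ => by rw [smul_mul_assoc, mul_smul_comm]

end PolyCalc

open PolyCalc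

/-- The calculus of polynomials in the bounds. -/
theorem polySpec : PolySpec := fun ι _ _ =>
  ⟨ev_hasFDerivAt, fun _ _ _ hU hne h => poly_ext_open hU hne h, pderiv_comm',
    fun _ _ σ h => hom_pderiv h σ, fun _ _ => hom_eq_zero,
    fun κ _ _ L P => ⟨ev_subst L P, pderiv_subst L P, fun _ h => hom_subst L h⟩⟩

end Vale.Agent.P227.LpN
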