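import Vale.Agent.P227.LpN.Spec
import Vale.Agent.P227.LpN.Slab.Deriv

/-!
# P227 `LpN`: the calculus of slab bodies
-/

namespace Vale.Agent.P227.LpN

open Slab in
/-- `slabSpec`. -/
theorem slabSpec : SlabSpec := by
  intro n N u hn hu
  refine ⟨genPos_fNormals hu, fun b hb => ⟨fun σ => width_fMap σ hb,
    fun σ => area_eq hu hn σ hb, hasFDerivAt_vol hu hn hb, fun σ => area_nonneg hu hn σ hb,
    fun σ => continuousAt_area hu hn σ hb, euler_vol hu hn hb, vol_transl b, vol_flipB b,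
    vol_pos hu, fun h2 => ⟨fun σ => hasFDerivAt_area hu h2 σ hb,
      fun σ τ => continuousAt_hess hu h2 σ τ hb, fun σ τ => hess_symm hu h2 σ τ hb,
      fun σ τ hne => hess_nonneg hu h2 hne hb⟩,
    fun h3 => ⟨fun σ τ => hasFDerivAt_hess hu h3 σ τ hb,
      fun σ τ ρ => continuousAt_d3 hu h3 σ τ ρ hb⟩⟩⟩

end Vale.Agent.P227.LpN
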