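import Vale.Agent.P227.LpN.StrictKernel

/-!
# P227 `LpN`: the module `Strict`

`approxSpec` and `openSpec` live in `StrictApprox`, `strictSpec` in `StrictKernel`.
-/

namespace Vale.Agent.P227.LpN

/-- The uniform lower bound. -/
theorem approxSpec (hP : PolySpec) : ApproxSpec := Strict.approxSpec hP

/-- The strict inequality is open. -/
theorem openSpec : OpenSpec := Strict.openSpec

/-- The kernels in degree one and two. -/
theorem strictSpec (hS : SlabSpec) (hP : PolySpec) (hC : CellSpec) (hA : AFSpec) : StrictSpec :=
  Strict.strictSpec hS hP hC hA

end Vale.Agent.P227.LpN
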