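import Vale.Agent.P227.LpN.SymFacet

/-!
# P227 `LpN`: the analytic facts about symmetric slab bodies
-/

namespace Vale.Agent.P227.LpN

open MeasureTheory Set Filter Finset Matrix
open scoped Topology

variable {n N : ℕ}

namespace Sym

/-- The derivative with the given partials. -/
noncomputable abbrev grad {ι : Type} [Fintype ι] (d : ι → ℝ) : (ι → ℝ) →L[ℝ] ℝ :=
  ∑ i, d i • ContinuousLinearMap.proj (R := ℝ) i

lemma grad_apply {ι : Type} [Fintype ι] (d x : ι → ℝ) : grad d x = ∑ i, d i * x i := by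
  simp

/-- `dbl` as a linear map. -/
def dblL : (Fin N → ℝ) →L[ℝ] (Sd N → ℝ) :=
  ContinuousLinearMap.pi fun σ => ContinuousLinearMap.proj σ.1

lemma dblL_apply (h : Fin N → ℝ) : dblL h = dbl h := rfl

lemma dbl_add (h g : Fin N → ℝ) : dbl (h + g) = dbl h + dbl g := rfl

lemma dbl_smul (c : ℝ) (h : Fin N → ℝ) : dbl (c • h) = c • dbl h := rfl

lemma continuous_dbl : Continuous (dbl : (Fin N → ℝ) → Sd N → ℝ) := (dblL (N := N)).continuous

lemma width_dbl {h : Fin N → ℝ} (hh : Pos h) : Width (dbl h) := fun i => by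
  simp only [dbl]; linarith [hh i]

lemma hasInt_dbl (u : Fin N → Vec n) {h : Fin N → ℝ} (hh : Pos h) : HasInt u (dbl h) :=
  ⟨0, fun σ => by simpa [dbl] using hh σ.1⟩

lemma comp_dbl {F : (Sd N → ℝ) → ℝ} {h : Fin N → ℝ} {D : Sd N → ℝ}
    (hF : HasFDerivAt F (grad D) (dbl h)) :
    HasFDerivAt (fun g => F (dbl g)) (grad fun i => D (i, true) + D (i, false)) h := by
  have hb : HasFDerivAt F (grad D) (dblL h) := hF
  refine (hb.comp h dblL.hasFDerivAt).congr_fderiv (ContinuousLinearMap.ext fun x => ?_)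
  rw [ContinuousLinearMap.comp_apply, grad_apply, grad_apply, dblL_apply,
    Fintype.sum_prod_type]
  refine Finset.sum_congr rfl fun i _ => ?_
  simp [dbl]
  ring

lemma deriv_update {F : (Fin N → ℝ) → ℝ} {d h : Fin N → ℝ} (hF : HasFDerivAt F (grad d) h)
    (i : Fin N) : deriv (fun s => F (Function.update h i s)) (h i) = d i := by
  have h1 : HasDerivAt (fun s => F (Function.update h i s)) (grad d (Pi.single i 1)) (h i) :=
    hF.comp_hasDerivAt_of_eq (h i) (hasDerivAt_update h i (h i)) (Function.update_eq_self i h).symm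
  rw [h1.deriv, grad_apply]
  simp [Pi.single_apply]

lemma line_deriv {F : (Fin N → ℝ) → ℝ} {d h : Fin N → ℝ} (hF : HasFDerivAt F (grad d) h)
    (z : Fin N → ℝ) : HasDerivAt (fun t : ℝ => F (h + t • z)) (∑ i, d i * z i) 0 := by
  have := hF.comp_hasDerivAt_of_eq (0 : ℝ) (Kernel.hasDerivAt_line h z 0) (by simp)
  rwa [grad_apply] at this

lemma euler {F : (Fin N → ℝ) → ℝ} {d : (Fin N → ℝ) → Fin N → ℝ} {m : ℕ}
    (hd : ∀ h, Pos h → HasFDerivAt F (grad (d h)) h)
    (hhom : ∀ h, Pos h → ∀ c : ℝ, 0 < c → F (c • h) = c ^ m * F h) {h : Fin N → ℝ}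
    (hh : Pos h) : ∑ i, d h i * h i = m * F h := by
  have h1 := line_deriv (hd h hh) h
  have h2 : HasDerivAt (fun t : ℝ => (1 + t) ^ m * F h) (m * F h) 0 := by
    simpa using (((hasDerivAt_id (0 : ℝ)).const_add (1 : ℝ)).fun_pow m).mul_const (F h)
  refine h1.unique (h2.congr_of_eventuallyEq ?_)
  filter_upwards [lt_mem_nhds (show (-1 : ℝ) < 0 by norm_num)] with t ht
  rw [← hhom h hh _ (by linarith), show h + t • h = (1 + t) • h by module]

lemma hom_deriv {F : (Fin N → ℝ) → ℝ} {d : (Fin N → ℝ) → Fin N → ℝ} {m : ℕ} (hm : m ≠ 0)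
    (hd : ∀ h, Pos h → HasFDerivAt F (grad (d h)) h)
    (hhom : ∀ h, Pos h → ∀ c : ℝ, 0 < c → F (c • h) = c ^ m * F h) {h : Fin N → ℝ}
    (hh : Pos h) {c : ℝ} (hc : 0 < c) (i : Fin N) : d (c • h) i = c ^ (m - 1) * d h i := by
  have hch : Pos (c • h) := fun l => mul_pos hc (hh l)
  obtain ⟨e, he⟩ : ∃ e : Fin N → ℝ, e = Pi.single i 1 := ⟨_, rfl⟩
  have h1 := line_deriv (hd _ hch) (c • e)
  have h2 := (line_deriv (hd h hh) e).const_mul (c ^ m)
  have h3 := h1.unique (h2.congr_of_eventuallyEq ?_)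
  · simp [he, Pi.single_apply] at h3
    obtain ⟨k, rfl⟩ := Nat.exists_eq_succ_of_ne_zero hm
    rw [pow_succ] at h3
    simp only [Nat.succ_sub_one]
    exact mul_right_cancel₀ hc.ne' (by linarith)
  · have ht : Tendsto (fun t : ℝ => h + t • e) (𝓝 0) (𝓝 h) :=
      (show Continuous fun t : ℝ => h + t • e by fun_prop).tendsto' 0 h (by simp)
    filter_upwards [ht.eventually (Kernel.pos_mem_nhds hh)] with t hp
    rw [← hhom _ hp c hc, smul_add, smul_comm]

lemma concave_le_tangent {E : Type*} [AddCommGroup E] [Module ℝ E] {S : Set E} {F : E → ℝ}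
    (hF : ConcaveOn ℝ S F) {x y : E} (hx : x ∈ S) (hy : y ∈ S) {D : ℝ}
    (hd : HasDerivAt (fun t : ℝ => F (x + t • (y - x))) D 0) : F y - F x ≤ D := by
  have ht := (hasDerivAt_iff_tendsto_slope.1 hd).mono_left (nhdsGT_le_nhdsNE (0 : ℝ))
  refine ge_of_tendsto ht ?_
  filter_upwards [Ioo_mem_nhdsGT (show (0 : ℝ) < 1 by norm_num)] with t ht'
  have h := hF.2 hx hy (show 0 ≤ 1 - t by linarith [ht'.2]) ht'.1.le (by ring)
  rw [show (1 - t) • x + t • y = x + t • (y - x) by module] at h
  simp only [smul_eq_mul] at h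
  rw [slope_def_field, sub_zero, zero_smul, add_zero, le_div_iff₀ ht'.1]
  linarith

lemma ballSupp_nonneg (u : Fin N → Vec n) (l : Fin N) : 0 ≤ ballSupp u l := Real.sqrt_nonneg _

lemma self_dot_nonneg (x : Vec n) : 0 ≤ x ⬝ᵥ x :=
  Finset.sum_nonneg fun _ _ => mul_self_nonneg _

lemma ballSupp_sq (u : Fin N → Vec n) (l : Fin N) : ballSupp u l ^ 2 = u l ⬝ᵥ u l :=
  Real.sq_sqrt (self_dot_nonneg _)

lemma abs_dot_le (u : Fin N → Vec n) (i l : Fin N) :
    |u i ⬝ᵥ u l| ≤ ballSupp u i * ballSupp u l := by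
  rw [ballSupp, ballSupp, ← Real.sqrt_mul (self_dot_nonneg (u i))]
  refine Real.abs_le_sqrt ?_
  simpa [dotProduct, sq] using Finset.sum_mul_sq_le_sq_mul_sq Finset.univ (u i) (u l)

section main

variable {u : Fin (N + 1) → Vec (n + 1)} {h : Fin (N + 1) → ℝ}

/-- The facet of `(i, true)` as a function of the support numbers. -/
noncomputable def facetB (u : Fin (N + 1) → Vec (n + 1)) (i : Fin (N + 1)) :
    (Fin (N + 1) → ℝ) →ₗ[ℝ] (Sd N → ℝ) :=
  (fMap u (i, true)).comp dblL.toLinearMap

lemma facetB_apply (i : Fin (N + 1)) (h : Fin (N + 1) → ℝ) :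
    facetB u i h = fMap u (i, true) (dbl h) := rfl

lemma continuous_facetB (i : Fin (N + 1)) : Continuous (facetB u i) :=
  (facetB u i).continuous_of_finiteDimensional

variable (hS : SlabSpec) (hn : 3 ≤ n) (hu : GenPos u)
include hS hn hu

lemma fNormals_genPos (l : Fin (N + 1)) : GenPos (fNormals u l) :=
  (hS n N u (by omega) hu).1 l

lemma facetB_width (hh : Pos h) (i : Fin (N + 1)) : Width (facetB u i h) :=
  ((hS n N u (by omega) hu).2 _ (width_dbl hh)).1 _

lemma area_eq (hh : Pos h) (σ : Sd (N + 1)) :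
    area u (dbl h) σ = fJac u σ.1 * vol (fNormals u σ.1) (fMap u σ (dbl h)) :=
  ((hS n N u (by omega) hu).2 _ (width_dbl hh)).2.1 σ

lemma vol_deriv (hh : Pos h) :
    HasFDerivAt (svol u) (grad fun i => area u (dbl h) (i, true) + area u (dbl h) (i, false)) h :=
  comp_dbl (F := vol u) ((hS n N u (by omega) hu).2 _ (width_dbl hh)).2.2.1

lemma sarea_eq (hh : Pos h) (i : Fin (N + 1)) :
    sarea u h i = area u (dbl h) (i, true) + area u (dbl h) (i, false) :=
  deriv_update (vol_deriv hS hn hu hh) i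

lemma area_side (hh : Pos h) (i : Fin (N + 1)) :
    area u (dbl h) (i, false) = area u (dbl h) (i, true) := by
  refine Filter.EventuallyEq.deriv_eq ?_
  have e0 : dbl h (i, false) = dbl h (i, true) := rfl
  rw [e0]
  filter_upwards [lt_mem_nhds (show 0 < dbl h (i, true) from hh i)] with s hs
  have hw : Width (Function.update (dbl h) (i, false) s) := fun l => by
    have := hh l
    rcases eq_or_ne l i with rfl | hl
    · simp [dbl]; linarith
    · simp [hl, dbl]; linarith
  have e : flipB (Function.update (dbl h) (i, false) s) = Function.update (dbl h) (i, true) s := by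
    funext ⟨l, t⟩
    rcases eq_or_ne l i with rfl | hl
    · cases t <;> simp [flipB, dbl]
    · simp [flipB, dbl, hl]
  rw [← e, ((hS n N u (by omega) hu).2 _ hw).2.2.2.2.2.2.2.1]

lemma sarea_facet (hh : Pos h) (i : Fin (N + 1)) :
    sarea u h i = 2 * fJac u i * vol (fNormals u i) (facetB u i h) := by
  rw [sarea_eq hS hn hu hh, area_side hS hn hu hh, area_eq hS hn hu hh, facetB_apply]
  ring

lemma vol_fderiv (hh : Pos h) : HasFDerivAt (svol u) (grad (sarea u h)) h := by
  rw [show sarea u h = fun i => area u (dbl h) (i, true) + area u (dbl h) (i, false) from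
    funext (sarea_eq hS hn hu hh)]
  exact vol_deriv hS hn hu hh

lemma area_deriv (hh : Pos h) (i : Fin (N + 1)) :
    HasFDerivAt (fun g => sarea u g i)
      (grad fun j => hess u (dbl h) (i, true) (j, true) + hess u (dbl h) (i, true) (j, false) +
        (hess u (dbl h) (i, false) (j, true) + hess u (dbl h) (i, false) (j, false))) h := by
  have S := (((hS n N u (by omega) hu).2 _ (width_dbl hh)).2.2.2.2.2.2.2.2.2.1 (by omega)).1
  have := (comp_dbl (F := fun y => area u y (i, true)) (S (i, true))).fun_add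
    (comp_dbl (F := fun y => area u y (i, false)) (S (i, false)))
  refine (this.congr_of_eventuallyEq ?_).congr_fderiv (ContinuousLinearMap.ext fun x => ?_)
  · filter_upwards [Kernel.pos_mem_nhds hh] with g hg using sarea_eq hS hn hu hg i
  · rw [_root_.add_apply, grad_apply, grad_apply, grad_apply,
      ← Finset.sum_add_distrib]
    exact Finset.sum_congr rfl fun j _ => by ring

lemma shess_eq (hh : Pos h) (i j : Fin (N + 1)) :
    shess u h i j = hess u (dbl h) (i, true) (j, true) + hess u (dbl h) (i, true) (j, false) +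
        (hess u (dbl h) (i, false) (j, true) + hess u (dbl h) (i, false) (j, false)) :=
  deriv_update (area_deriv hS hn hu hh i) j

lemma area_fderiv (hh : Pos h) (i : Fin (N + 1)) :
    HasFDerivAt (fun g => sarea u g i) (grad (shess u h i)) h := by
  rw [show shess u h i = _ from funext (shess_eq hS hn hu hh i)]
  exact area_deriv hS hn hu hh i

lemma hess_deriv (hh : Pos h) (i j : Fin (N + 1)) :
    HasFDerivAt (fun g => shess u g i j)
      (grad fun k => ∑ s : Bool, ∑ t : Bool,
        (d3 u (dbl h) (i, s) (j, t) (k, true) + d3 u (dbl h) (i, s) (j, t) (k, false))) h := by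
  have S := (((hS n N u (by omega) hu).2 _ (width_dbl hh)).2.2.2.2.2.2.2.2.2.2 hn).1
  have c := fun s t => comp_dbl (F := fun y => hess u y (i, s) (j, t)) (S (i, s) (j, t))
  have := ((c true true).fun_add (c true false)).fun_add ((c false true).fun_add (c false false))
  refine (this.congr_of_eventuallyEq ?_).congr_fderiv (ContinuousLinearMap.ext fun x => ?_)
  · filter_upwards [Kernel.pos_mem_nhds hh] with g hg using shess_eq hS hn hu hg i j
  · rw [_root_.add_apply, _root_.add_apply,
      _root_.add_apply]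
    simp only [grad_apply]
    simp only [← Finset.sum_add_distrib, Fintype.sum_bool]
    exact Finset.sum_congr rfl fun k _ => by ring

lemma sd3_eq (hh : Pos h) (i j k : Fin (N + 1)) :
    sd3 u h i j k = ∑ s : Bool, ∑ t : Bool,
      (d3 u (dbl h) (i, s) (j, t) (k, true) + d3 u (dbl h) (i, s) (j, t) (k, false)) :=
  deriv_update (hess_deriv hS hn hu hh i j) k

lemma hess_fderiv (hh : Pos h) (i j : Fin (N + 1)) :
    HasFDerivAt (fun g => shess u g i j) (grad (sd3 u h i j)) h := by
  rw [show sd3 u h i j = _ from funext (sd3_eq hS hn hu hh i j)]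
  exact hess_deriv hS hn hu hh i j

lemma d3_cont (i j k : Fin (N + 1)) :
    ContinuousOn (fun h => sd3 u h i j k) {h | Pos h} := by
  refine ContinuousOn.congr (fun g hg => ?_) fun g hg => sd3_eq hS hn hu hg i j k
  have hc := (((hS n N u (by omega) hu).2 _ (width_dbl hg)).2.2.2.2.2.2.2.2.2.2 hn).2
  have c : ∀ σ τ ρ, ContinuousAt (fun g => d3 u (dbl g) σ τ ρ) g := fun σ τ ρ =>
    (hc σ τ ρ).comp (f := dbl) continuous_dbl.continuousAt
  simp only [Fintype.sum_bool]
  exact (((c _ _ _).add (c _ _ _)).add ((c _ _ _).add (c _ _ _))).add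
    (((c _ _ _).add (c _ _ _)).add ((c _ _ _).add (c _ _ _))) |>.continuousWithinAt

lemma sarea_nonneg (hh : Pos h) (i : Fin (N + 1)) : 0 ≤ sarea u h i := by
  rw [sarea_facet hS hn hu hh]
  exact mul_nonneg (by linarith [BM.fJac_pos hu i]) (BM.vol_nonneg _ _)

lemma vol_hom (h : Fin (N + 1) → ℝ) {c : ℝ} (hc : 0 < c) :
    svol u (c • h) = c ^ (n + 1) * svol u h := by
  rw [svol, svol, dbl_smul, BM.vol_smul u _ hc]

lemma area_hom (hh : Pos h) {c : ℝ} (hc : 0 < c) (i : Fin (N + 1)) :
    sarea u (c • h) i = c ^ n * sarea u h i := by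
  have := hom_deriv (F := svol u) (d := sarea u) (m := n + 1) n.succ_ne_zero
    (fun g hg => vol_fderiv hS hn hu hg) (fun g _ c hc => vol_hom hS hn hu g hc) hh hc i
  simpa using this

lemma area_zero_of_slack (hh : Pos h) {i : Fin (N + 1)} (hs : Slack u h i) : sarea u h i = 0 := by
  have hup : Tendsto (fun s => Function.update h i s) (𝓝 (h i)) (𝓝 h) :=
    (Continuous.update continuous_const i continuous_id).tendsto' _ _ (Function.update_eq_self i h)
  have hev : (fun s => svol u (Function.update h i s)) =ᶠ[𝓝 (h i)] fun _ => svol u h := by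
    filter_upwards [hup.eventually (Kernel.pos_mem_nhds hh),
      hup.eventually (Kernel.slack_near hh (Kernel.isCompact_body hu _) hs)] with s hp hsl
    simp only [svol, vol]
    rcases le_total (h i) s with hle | hle
    · rw [Kernel.body_raise hh fun k => ?_]
      rcases eq_or_ne k i with rfl | hk
      · exact Or.inr ⟨by simpa using hle, hs⟩
      · exact Or.inl (Function.update_of_ne hk _ _)
    · rw [← Kernel.body_raise hp fun k => ?_]
      rcases eq_or_ne k i with rfl | hk
      · exact Or.inr ⟨by simpa using hle, hsl⟩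
      · exact Or.inl (Function.update_of_ne hk _ _).symm
  rw [sarea, hev.deriv_eq, deriv_const]

lemma vol_le_surf :
    ∃ C : ℝ, 0 < C ∧ ∀ h, Pos h → ∀ i, svol u h ≤ C * h i * surf u h := by
  obtain ⟨M, hM⟩ : ∃ M : ℕ, M = 2 ^ (n + 1) := ⟨_, rfl⟩
  have hβ : ∀ l, 0 < ballSupp u l := fun l => Real.sqrt_pos.2 <| lt_of_le_of_ne
    (self_dot_nonneg _) (Ne.symm fun h =>
      BM.ne_zero_of_genPos hu n.succ_pos l (dotProduct_self_eq_zero.1 h))
  have hc0 : ∀ l, 0 ≤ 3 * (M : ℝ) / ballSupp u l := fun l =>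
    div_nonneg (by positivity) (hβ l).le
  refine ⟨1 + ∑ l, 3 * (M : ℝ) / ballSupp u l,
    by linarith [Finset.sum_nonneg fun l (_ : l ∈ Finset.univ) => hc0 l], fun h hh i => ?_⟩
  obtain ⟨β, hβd⟩ : ∃ β, β = ballSupp u := ⟨_, rfl⟩
  obtain ⟨T, hT⟩ : ∃ T : ℝ, T = M * (3 * h i / β i) := ⟨_, rfl⟩
  obtain ⟨a, ha⟩ : ∃ a : Vec (n + 1), a = (3 * h i / β i ^ 2) • u i := ⟨_, rfl⟩
  have hβi : 0 < β i := hβd ▸ hβ i
  have hhi := hh i
  have hai : a ⬝ᵥ u i = 3 * h i := by
    rw [ha, smul_dotProduct, smul_eq_mul, ← ballSupp_sq, ← hβd]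
    field_simp
  have hal : ∀ l, |a ⬝ᵥ u l| ≤ 3 * h i / β i * β l := fun l => by
    rw [ha, smul_dotProduct, smul_eq_mul, abs_mul, abs_of_pos (by positivity)]
    calc 3 * h i / β i ^ 2 * |u i ⬝ᵥ u l| ≤ 3 * h i / β i ^ 2 * (β i * β l) := by
          rw [hβd]; exact mul_le_mul_of_nonneg_left (abs_dot_le u i l) (hβd ▸ by positivity)
      _ = _ := by field_simp
  have hT0 : 0 ≤ T := by rw [hT]; positivity
  have hp : Pos (h + T • β) := fun l =>
    add_pos_of_pos_of_nonneg (hh l) (mul_nonneg hT0 (hβd ▸ ballSupp_nonneg u l))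
  -- disjoint translates
  obtain ⟨K, hK⟩ : ∃ K : ℕ → Set (Vec (n + 1)),
      K = fun (k : ℕ) => (fun x => x + -((k : ℝ) • a)) ⁻¹' body u (dbl h) := ⟨_, rfl⟩
  have hsub : (⋃ k ∈ Finset.range M, K k) ⊆ body u (dbl (h + T • β)) := by
    intro x hx
    obtain ⟨k, hk, hx⟩ := Set.mem_iUnion₂.1 hx
    rw [hK] at hx
    rw [Kernel.mem_body_dbl]
    intro l
    have h1 : |(x + -((k : ℝ) • a)) ⬝ᵥ u l| ≤ h l := Kernel.mem_body_dbl.1 hx l
    have h2 : (k : ℝ) * |a ⬝ᵥ u l| ≤ T * β l := by
      refine (mul_le_mul (Nat.cast_le.2 (Finset.mem_range.1 hk).le) (hal l) (abs_nonneg _)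
        (Nat.cast_nonneg M)).trans_eq ?_
      rw [hT]; ring
    rw [add_dotProduct, neg_dotProduct, smul_dotProduct, smul_eq_mul] at h1
    simp only [Pi.add_apply, Pi.smul_apply, smul_eq_mul]
    calc |x ⬝ᵥ u l| = |(x ⬝ᵥ u l + -((k : ℝ) * (a ⬝ᵥ u l))) + (k : ℝ) * (a ⬝ᵥ u l)| := by
          congr 1; ring
      _ ≤ _ := (abs_add_le _ _).trans (add_le_add h1 (by
          rwa [abs_mul, Nat.abs_cast]))
  have hdisj : Set.PairwiseDisjoint (↑(Finset.range M) : Set ℕ) K := by
    intro k _ m _ hkm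
    rw [Function.onFun, Set.disjoint_left]
    intro x hx hx'
    rw [hK] at hx hx'
    have h1 := abs_le.1 (Kernel.mem_body_dbl.1 hx i)
    have h2 := abs_le.1 (Kernel.mem_body_dbl.1 hx' i)
    simp only [add_dotProduct, neg_dotProduct, smul_dotProduct, smul_eq_mul, hai] at h1 h2
    rcases lt_or_gt_of_ne hkm with hlt | hlt
    · have : (k : ℝ) + 1 ≤ m := by exact_mod_cast hlt
      nlinarith
    · have : (m : ℝ) + 1 ≤ k := by exact_mod_cast hlt
      nlinarith
  have hKm : ∀ k, MeasurableSet (K k) := fun k => by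
    rw [hK]
    exact ((BM.isClosed_body u _).preimage (by fun_prop)).measurableSet
  have hbig : (M : ℝ) * svol u h ≤ svol u (h + T • β) := by
    have := measure_mono (μ := volume) hsub
    rw [measure_biUnion_finset hdisj fun k _ => hKm k] at this
    simp only [hK, measure_preimage_add_right, Finset.sum_const, Finset.card_range,
      nsmul_eq_mul] at this
    have h2 := ENNReal.toReal_mono (BM.vol_ne_top hu _) this
    rw [ENNReal.toReal_mul, ENNReal.toReal_natCast] at h2
    exact h2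
  have hV : 0 < svol u h := BM.vol_pos_of_hasInt hu (hasInt_dbl u hh)
  obtain ⟨G, hG⟩ : ∃ G : ℝ, G = svol u h ^ ((1 : ℝ) / (n + 1 : ℕ)) := ⟨_, rfl⟩
  have hG0 : 0 < G := hG ▸ Real.rpow_pos_of_pos hV _
  have htan := concave_le_tangent (BM.vol_root_concave hu n.succ_ne_zero)
    (x := dbl h) (y := dbl (h + T • β)) hV
    (BM.vol_pos_of_hasInt hu (hasInt_dbl u hp))
    (D := (∑ l, sarea u h l * (T * β l)) * (1 / (n + 1 : ℕ)) *
      svol u h ^ ((1 : ℝ) / (n + 1 : ℕ) - 1)) ?_
  · have hroot : 2 * G ≤ vol u (dbl (h + T • β)) ^ ((1 : ℝ) / (n + 1 : ℕ)) := by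
      refine le_trans (le_of_eq ?_) (Real.rpow_le_rpow (by positivity) hbig (by positivity))
      rw [Real.mul_rpow (by positivity) hV.le, hG, hM, Nat.cast_pow, Nat.cast_ofNat, one_div,
        Real.pow_rpow_inv_natCast zero_le_two n.succ_ne_zero]
    have hS0 : 0 ≤ surf u h := by
      unfold surf form1
      exact Finset.sum_nonneg fun l _ => mul_nonneg (sarea_nonneg hS hn hu hh l) (hβ l).le
    have hsum : ∑ l, sarea u h l * (T * β l) = T * surf u h := by
      rw [surf, form1, Finset.mul_sum, hβd]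
      exact Finset.sum_congr rfl fun l _ => by ring
    rw [show vol u (dbl h) = svol u h from rfl, ← hG, hsum, Real.rpow_sub_one hV.ne',
      ← hG] at htan
    have hkey : svol u h ≤ T * surf u h := by
      have h1 : G ≤ T * surf u h * (1 / (n + 1 : ℕ)) * (G / svol u h) := by linarith
      have h2 : (1 : ℝ) / (n + 1 : ℕ) ≤ 1 :=
        div_le_one_of_le₀ (by exact_mod_cast n.succ_pos) (by positivity)
      have h3 : G ≤ T * surf u h * (G / svol u h) := h1.trans
        (mul_le_mul_of_nonneg_right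
          (mul_le_of_le_one_right (mul_nonneg hT0 hS0) h2) (by positivity))
      rw [← mul_div_assoc, le_div_iff₀ hV] at h3
      exact le_of_mul_le_mul_left (by linarith) hG0
    refine hkey.trans (mul_le_mul_of_nonneg_right ?_ hS0)
    calc T = 3 * (M : ℝ) / ballSupp u i * h i := by rw [hT, hβd]; ring
      _ ≤ _ := mul_le_mul_of_nonneg_right (by
          linarith [Finset.single_le_sum (fun l _ => hc0 l) (Finset.mem_univ i)]) (hh i).le
  · have hd := (line_deriv (vol_fderiv hS hn hu hh) (T • β)).rpow_const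
      (p := (1 : ℝ) / (n + 1 : ℕ)) (Or.inl (by simpa using hV.ne'))
    have e : ∀ t : ℝ, dbl h + t • (dbl (h + T • β) - dbl h) = dbl (h + t • (T • β)) := fun t => by
      simp [dbl_add, dbl_smul]
    simp only [zero_smul, add_zero, Pi.smul_apply, smul_eq_mul] at hd
    simp only [e]
    exact hd

lemma area_concave (i : Fin (N + 1)) :
    ConcaveOn ℝ {h | Pos h ∧ 0 < sarea u h i} (fun h => sarea u h i ^ ((1 : ℝ) / n)) := by
  have hk : 0 < 2 * fJac u i := by linarith [BM.fJac_pos hu i]
  refine BM.concaveOn_root (by omega) (fun h hh => hh.2)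
    (fun g hg c hc => ⟨fun l => mul_pos hc (hg.1 l), by
      rw [area_hom hS hn hu hg.1 hc]; exact mul_pos (pow_pos hc n) hg.2⟩)
    (fun g hg c hc => area_hom hS hn hu hg.1 hc i) fun g hg g' hg' a b ha hb hab => ?_
  have hp : Pos (a • g + b • g') := fun l => add_pos (mul_pos ha (hg.1 l)) (mul_pos hb (hg'.1 l))
  have hm : sarea u g i ^ a * sarea u g' i ^ b ≤ sarea u (a • g + b • g') i := by
    rw [sarea_facet hS hn hu hg.1, sarea_facet hS hn hu hg'.1, sarea_facet hS hn hu hp, map_add,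
      map_smul, map_smul, Real.mul_rpow hk.le (BM.vol_nonneg _ _),
      Real.mul_rpow hk.le (BM.vol_nonneg _ _)]
    calc _ = (2 * fJac u i) ^ (a + b) *
          (vol (fNormals u i) (facetB u i g) ^ a * vol (fNormals u i) (facetB u i g') ^ b) := by
          rw [Real.rpow_add hk]; ring
      _ ≤ _ := by
          rw [hab, Real.rpow_one]
          exact mul_le_mul_of_nonneg_left
            (BM.vol_mul_le (fNormals_genPos hS hn hu i) _ _ ha hb hab) hk.le
  exact ⟨⟨hp, lt_of_lt_of_le
    (mul_pos (Real.rpow_pos_of_pos hg.2 a) (Real.rpow_pos_of_pos hg'.2 b)) hm⟩, hm⟩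

lemma hess_ball_nonneg (hh : Pos h) (i : Fin (N + 1)) :
    0 ≤ ∑ j, shess u h i j * ballSupp u j := by
  have hd := line_deriv (area_fderiv hS hn hu hh i) (ballSupp u)
  have ht := (hasDerivAt_iff_tendsto_slope.1 hd).mono_left (nhdsGT_le_nhdsNE (0 : ℝ))
  refine ge_of_tendsto ht ?_
  filter_upwards [self_mem_nhdsWithin] with s hs
  have hs0 : (0 : ℝ) < s := hs
  have hp : Pos (h + s • ballSupp u) := fun l =>
    add_pos_of_pos_of_nonneg (hh l) (mul_nonneg hs0.le (ballSupp_nonneg u l))
  rw [slope_def_field, sub_zero, zero_smul, add_zero]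
  refine div_nonneg (sub_nonneg.2 ?_) hs0.le
  rw [sarea_facet hS hn hu hh, sarea_facet hS hn hu hp]
  refine mul_le_mul_of_nonneg_left ?_ (by linarith [BM.fJac_pos hu i])
  obtain ⟨β, hβ⟩ : ∃ β, β = ballSupp u := ⟨_, rfl⟩
  have hβi : 0 < β i := hβ ▸ Real.sqrt_pos.2 (lt_of_le_of_ne (self_dot_nonneg _) (Ne.symm fun h =>
    BM.ne_zero_of_genPos hu n.succ_pos i (dotProduct_self_eq_zero.1 h)))
  obtain ⟨v, hv⟩ : ∃ v : Vec (n + 1), v = (s / β i) • u i := ⟨_, rfl⟩
  obtain ⟨c, hc⟩ : ∃ c, c = s • dbl β - transl u v := ⟨_, rfl⟩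
  have hvl : ∀ σ, transl u v σ ≤ s * β σ.1 := fun ⟨l, t⟩ => by
    simp only [transl, BM.nrm_pair, hv, smul_dotProduct, smul_eq_mul]
    calc s / β i * (sgn t * (u i ⬝ᵥ u l)) ≤ |s / β i * (sgn t * (u i ⬝ᵥ u l))| := le_abs_self _
      _ = s / β i * |u i ⬝ᵥ u l| := by
          rw [abs_mul, abs_mul, abs_of_pos (div_pos hs0 hβi)]
          cases t <;> simp [sgn]
      _ ≤ s / β i * (β i * β l) := by
          rw [hβ]
          exact mul_le_mul_of_nonneg_left (abs_dot_le u i l) (hβ ▸ (div_pos hs0 hβi).le)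
      _ = s * β l := by field_simp
  have hvi : transl u v (i, true) = s * β i := by
    simp only [transl, BM.nrm_pair, hv, smul_dotProduct, smul_eq_mul, sgn, if_true, one_mul]
    rw [← ballSupp_sq, ← hβ]
    field_simp
  have hcpos : ∀ τ, 0 ≤ fMap u (i, true) c τ := fun τ => by
    have h0 : c (i, true) = 0 := by simp [hc, dbl, hvi]
    have : fMap u (i, true) c τ = c (i.succAbove τ.1, τ.2) := by simp [fMap, h0]
    rw [this, hc]
    simpa [dbl] using hvl (i.succAbove τ.1, τ.2)
  have e : facetB u i (h + s • ballSupp u) =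
      facetB u i h + fMap u (i, true) c + fMap u (i, true) (transl u v) := by
    rw [facetB_apply, facetB_apply, ← map_add, ← map_add, dbl_add, dbl_smul, hc, hβ]
    congr 1; module
  rw [e, BM.fMap_transl hu, BM.vol_transl]
  exact BM.vol_mono (fNormals_genPos hS hn hu i) fun τ => le_add_of_nonneg_right (hcpos τ)

lemma ray_zero (hh : Pos h) (i : Fin (N + 1)) (h0 : sarea u h i = 0) :
    ∀ᶠ g in 𝓝 h, ∑ j, shess u g i j * h j = 0 := by
  rw [sarea_facet hS hn hu hh] at h0
  have hv : vol (fNormals u i) (facetB u i h) = 0 :=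
    (mul_eq_zero.1 h0).resolve_left (by linarith [BM.fJac_pos hu i])
  have hr := BM.ray_const (fNormals_genPos hS hn hu i) (by omega) (facetB_width hS hn hu hh i) hv
  filter_upwards [((continuous_facetB (u := u) i).tendsto h).eventually hr,
    Kernel.pos_mem_nhds hh] with g hg hgp
  refine (line_deriv (area_fderiv hS hn hu hgp i) h).unique ?_
  refine (hasDerivAt_const (0 : ℝ) (sarea u g i)).congr_of_eventuallyEq ?_
  have hline : Tendsto (fun t : ℝ => g + t • h) (𝓝 0) (𝓝 g) :=
    (show Continuous fun t : ℝ => g + t • h by fun_prop).tendsto' 0 g (by simp)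
  filter_upwards [hg, hline.eventually (Kernel.pos_mem_nhds hgp)] with t ht htp
  rw [sarea_facet hS hn hu htp, sarea_facet hS hn hu hgp, map_add, map_smul, ht]

theorem facts : SymFacts u where
  vol_pos _ hh := BM.vol_pos_of_hasInt hu (hasInt_dbl u hh)
  area_nonneg _ hh i := sarea_nonneg hS hn hu hh i
  hess_nonneg h hh i j hij := by
    have S := (((hS n N u (by omega) hu).2 _ (width_dbl hh)).2.2.2.2.2.2.2.2.2.1 (by omega)).2.2.2
    rw [shess_eq hS hn hu hh]
    linarith [S (i, true) (j, true) hij, S (i, true) (j, false) hij, S (i, false) (j, true) hij,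
      S (i, false) (j, false) hij]
  hess_symm h hh i j := by
    have S := (((hS n N u (by omega) hu).2 _ (width_dbl hh)).2.2.2.2.2.2.2.2.2.1 (by omega)).2.2.1
    rw [shess_eq hS hn hu hh, shess_eq hS hn hu hh, S (i, true) (j, true), S (i, true) (j, false),
      S (i, false) (j, true), S (i, false) (j, false)]
    ring
  euler_vol _ hh := euler (fun g hg => vol_fderiv hS hn hu hg)
    (fun g _ c hc => vol_hom hS hn hu g hc) hh
  euler_area h hh i := by
    rw [euler (F := fun g => sarea u g i) (d := fun g => shess u g i) (m := n)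
      (fun g hg => area_fderiv hS hn hu hg i) (fun g hg c hc => area_hom hS hn hu hg hc i) hh]
    push_cast
    ring
  vol_cont _ hh := (vol_fderiv hS hn hu hh).continuousAt.continuousWithinAt
  area_cont i _ hh := (area_fderiv hS hn hu hh i).continuousAt.continuousWithinAt
  hess_cont i j _ hh := (hess_fderiv hS hn hu hh i j).continuousAt.continuousWithinAt
  d3_cont i j k := d3_cont hS hn hu i j k
  vol_fderiv _ hh := vol_fderiv hS hn hu hh
  area_fderiv _ hh i := area_fderiv hS hn hu hh i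
  hess_fderiv _ hh i j := hess_fderiv hS hn hu hh i j
  vol_hom h _ _ hc := vol_hom hS hn hu h hc
  area_hom _ hh _ hc i := area_hom hS hn hu hh hc i
  hess_hom h hh c hc i j := by
    have := hom_deriv (F := fun g => sarea u g i) (d := fun g => shess u g i) (m := n) (by omega)
      (fun g hg => area_fderiv hS hn hu hg i) (fun g hg c hc => area_hom hS hn hu hg hc i) hh hc j
    exact this
  area_zero_of_slack _ hh _ hs := area_zero_of_slack hS hn hu hh hs
  vol_mono h g _ hle := BM.vol_mono hu fun σ => hle σ.1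
  vol_le_surf := vol_le_surf hS hn hu
  vol_concave := by
    refine ((BM.vol_root_concave hu n.succ_ne_zero).comp_linearMap dblL.toLinearMap).subset
      (fun g hg => BM.vol_pos_of_hasInt hu (hasInt_dbl u hg)) ?_
    exact convex_iff_forall_pos.2 fun x hx y hy a b ha hb _ l =>
      add_pos (mul_pos ha (hx l)) (mul_pos hb (hy l))
  area_concave i := by
    have := area_concave hS hn hu i
    simpa using this
  hess_ball_nonneg _ hh i := hess_ball_nonneg hS hn hu hh i
  ray_zero _ hh i h0 := ray_zero hS hn hu hh i h0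

end main

end Sym

/-- The symmetric layer. -/
theorem symSpec (hS : SlabSpec) : SymSpec := by
  intro n N u hn hu
  obtain ⟨m, rfl⟩ : ∃ m, n = m + 1 := ⟨n - 1, by omega⟩
  obtain ⟨M, rfl⟩ : ∃ M, N = M + 1 := ⟨N - 1, by have := hu.1; omega⟩
  exact Sym.facts hS (by omega) hu

end Vale.Agent.P227.LpN
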