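import Vale.Agent.P227.LpN.VarGerm
import Vale.Agent.P227.LpN.Slab.Basic

/-!
The symmetric Hodge–Riemann inequality passes to the closure of a chamber at a proper point where
the Hessian is nondegenerate on the active pairs.
-/

namespace Vale.Agent.P227.LpN.Var

open Filter Finset Set Matrix MvPolynomial
open scoped Topology

variable {n N : ℕ} {u : Fin N → Vec n} {R : Poly (Fin N)} {U : Set (Fin N → ℝ)}

/-- Pairs without area at a proper point of the closure do not occur in the polynomial. -/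
lemma Germ.pderiv_eq_zero (hP : PolySpec) (G : SymFacts u) (hu : GenPos u) (hR : Germ u R U)
    {g : Fin N → ℝ} (hg : Proper u g) (hgU : g ∈ closure U) {i : Fin N}
    (hi : sarea u g i = 0) : pderiv i R = 0 := by
  obtain ⟨-, huniq, -⟩ := hP (Fin N) inferInstance inferInstance
  have hev : ∀ᶠ y in 𝓝 g, Slack u y i :=
    Kernel.slack_near hg.1 (Kernel.isCompact_body hu _) ((hg.2 i).resolve_left (by simp [hi]))
  obtain ⟨V, hV, hVo, hgV⟩ := eventually_nhds_iff.1 hev
  refine huniq _ _ (V ∩ U) (hVo.inter hR.isOpen) (mem_closure_iff.1 hgU V hVo hgV) fun y hy => ?_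
  have hy' := (hR.on y hy.2).1
  rw [← hR.area_on hP G y hy.2 i, G.area_zero_of_slack y hy' i (hV y hy.1)]
  simp [ev]

/-- The inequality at the points of the chamber. -/
lemma hr_on (hP : PolySpec) (hC : CellSpec) (hHR : HRSpec) (hn : 4 ≤ n) (hu : GenPos u)
    (hR : Germ u R U) {y : Fin N → ℝ} (hy : y ∈ U) (hs : Simple u (dbl y)) (z w : Fin N → ℝ)
    (hw : ∀ i, ev y (pderiv i (dv z (dv z R))) = ((n : ℝ) - 2) * ev y (pderiv i (dv w R))) :
    ((n : ℝ) - 3) * ev y (dv w (dv z (dv z R))) ≤ ev y (dv z (dv z (dv z (dv z R)))) := by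
  classical
  obtain ⟨-, huniq, -⟩ := hP (Fin N) inferInstance inferInstance
  obtain ⟨-, huniqS, -, -, -, hsub⟩ := hP (Sd N) inferInstance inferInstance
  obtain ⟨P, hloc⟩ := ((hC.1 n N u (by omega) hu).1 _ hs).2
  obtain ⟨V, hV, hVo, hyV⟩ := eventually_nhds_iff.1 hloc.2
  have hcd : Continuous (dbl : (Fin N → ℝ) → Sd N → ℝ) :=
    continuous_pi fun σ => continuous_apply σ.1
  have hcf : Continuous (flipB : (Sd N → ℝ) → Sd N → ℝ) :=
    continuous_pi fun σ => continuous_apply (σ.1, !σ.2)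
  have hflip : subst (flipL N) P = P := by
    refine huniqS _ _ (V ∩ flipB ⁻¹' V) (hVo.inter (hVo.preimage hcf))
      ⟨dbl y, hyV, show flipB (dbl y) ∈ V from hyV⟩ fun b hb => ?_
    rw [(hsub (Sd N) inferInstance inferInstance (flipL N) P).1]
    show ev (flipB b) P = _
    rw [← hV _ hb.2, Slab.vol_flipB, hV _ hb.1]
  have hRP : subst (dblL N) P = R := by
    refine huniq _ _ (U ∩ dbl ⁻¹' V) (hR.isOpen.inter (hVo.preimage hcd)) ⟨y, hy, hyV⟩
      fun x hx => ?_
    rw [(hsub (Fin N) inferInstance inferInstance (dblL N) P).1]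
    show ev (dbl x) P = _
    rw [← hV _ hx.2, ← (hR.on x hx.1).2]
    rfl
  have := hr_sym hP hn hloc.1 hflip (hHR n hn N u hu _ P hs hloc) z w (by rwa [hRP])
  rwa [hRP] at this

/-- `HRSymSpec`. -/
theorem hrSymSpec (hsym : SymSpec) (_hS : SlabSpec) (hP : PolySpec) (hC : CellSpec)
    (hHR : HRSpec) : HRSymSpec := by
  intro n N u hn hu g hg hker R U hR hsimple hgU z w hzw
  classical
  have G := hsym n N u hn hu
  obtain ⟨-, -, hc, -⟩ := hP (Fin N) inferInstance inferInstance
  have hn2 : (n : ℝ) - 2 ≠ 0 := by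
    have : (4 : ℝ) ≤ n := by exact_mod_cast hn
    linarith
  obtain ⟨X, hX⟩ : ∃ X, X = dv z (dv z R) := ⟨_, rfl⟩
  have hcomm : ∀ i, pderiv i X = dv z (dv z (pderiv i R)) := fun i => by
    rw [hX, ← dv_single, dv_comm hc _ z, dv_comm hc _ z, dv_single]
  have hzero : ∀ i, sarea u g i = 0 → pderiv i R = 0 := fun i hi =>
    hR.pderiv_eq_zero hP G hu hg hgU hi
  have hXz : ∀ i, sarea u g i = 0 → ∀ y, ev y (pderiv i X) = 0 := fun i hi y => by
    rw [hcomm, hzero i hi]; simp [dv, ev]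
  -- the regularised Hessian
  obtain ⟨D, hD⟩ : ∃ D : Fin N → ℝ, D = fun i => if sarea u g i = 0 then 1 else 0 := ⟨_, rfl⟩
  obtain ⟨M, hM⟩ : ∃ M : (Fin N → ℝ) → Matrix (Fin N) (Fin N) ℝ,
      M = fun y => Matrix.of (fun i j => ev y (pderiv j (pderiv i R))) + Matrix.diagonal D :=
    ⟨_, rfl⟩
  have hMv : ∀ y x i, (M y *ᵥ x) i = (∑ j, ev y (pderiv j (pderiv i R)) * x j) + D i * x i :=
    fun y x i => by
      simp only [hM, Matrix.add_mulVec, Pi.add_apply, Matrix.mulVec_diagonal]
      rfl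
  have hMc : Continuous M := by
    rw [hM]
    exact (continuous_matrix fun i j => continuous_ev _).add continuous_const
  have hH : ∀ i j, ev g (pderiv j (pderiv i R)) = shess u g i j := fun i j => by
    have := hR.hess_row hP G hg.1 hgU i (Pi.single j 1)
    simpa [dv_single, Pi.single_apply] using this.symm
  have hdet : (M g).det ≠ 0 := by
    intro h0
    obtain ⟨x, hx0, hx⟩ := Matrix.exists_mulVec_eq_zero_iff.2 h0
    have e := fun i => congrFun hx i
    simp only [hMv, Pi.zero_apply, hD] at e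
    have hxA : ∀ i, sarea u g i = 0 → x i = 0 := fun i hi => by
      simpa [hi, hzero i hi, ev] using e i
    refine hx0 (hker x hxA fun i => ?_)
    simp only [← hH]
    by_cases hi : sarea u g i = 0
    · simp [hzero i hi, ev]
    · simpa [hi] using e i
  obtain ⟨W, hW⟩ : ∃ W : (Fin N → ℝ) → Fin N → ℝ, W = fun y =>
      (M y).det⁻¹ • ((M y).adjugate *ᵥ fun i => ev y (pderiv i X) / ((n : ℝ) - 2)) := ⟨_, rfl⟩
  have hWc : ContinuousAt W g := by
    rw [hW]
    refine (hMc.matrix_det.continuousAt.inv₀ hdet).smul ?_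
    exact (hMc.matrix_adjugate.matrix_mulVec
      (continuous_pi fun i => (continuous_ev _).div_const _)).continuousAt
  have hWeq : ∀ y, (M y).det ≠ 0 → ∀ i,
      ev y (pderiv i X) = ((n : ℝ) - 2) * ∑ j, ev y (pderiv j (pderiv i R)) * W y j := by
    intro y hy i
    have e : M y *ᵥ W y = fun i => ev y (pderiv i X) / ((n : ℝ) - 2) := by
      rw [hW, Matrix.mulVec_smul, Matrix.mulVec_mulVec, Matrix.mul_adjugate, Matrix.smul_mulVec,
        Matrix.one_mulVec, smul_smul, inv_mul_cancel₀ hy, one_smul]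
    have ei := congrFun e i
    rw [hMv] at ei
    by_cases hi : sarea u g i = 0
    · rw [hXz i hi y, hzero i hi]; simp [ev]
    · rw [hD] at ei
      simp only [hi, if_false, zero_mul, add_zero] at ei
      rw [ei]; field_simp
  have hne : (𝓝[U] g).NeBot := mem_closure_iff_nhdsWithin_neBot.1 hgU
  have hnear : ∀ᶠ y in 𝓝[U] g,
      ((n : ℝ) - 3) * ∑ i, W y i * ev y (pderiv i X) ≤ ev y (dv z (dv z X)) := by
    filter_upwards [self_mem_nhdsWithin, nhdsWithin_le_nhds
      (hMc.matrix_det.continuousAt.eventually_ne hdet)] with y hy hdy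
    have := hr_on hP hC hHR hn hu hR hy (hsimple y hy) z (W y) (fun i => ?_)
    · rw [← hX, ev_dv] at this
      exact this
    · rw [← hX, hWeq y hdy i, ← dv_single i (dv (W y) R), dv_comm hc, dv_single, ev_dv]
      exact congrArg _ (sum_congr rfl fun j _ => mul_comm _ _)
  have t1 : Tendsto (fun y => ((n : ℝ) - 3) * ∑ i, W y i * ev y (pderiv i X)) (𝓝[U] g)
      (𝓝 (((n : ℝ) - 3) * ∑ i, W g i * ev g (pderiv i X))) :=
    (Tendsto.const_mul _ (tendsto_finsetSum _ fun i _ =>
      (((continuous_apply i).tendsto _).comp hWc.tendsto).mul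
        ((continuous_ev _).tendsto g))).mono_left nhdsWithin_le_nhds
  have t2 : Tendsto (fun y => ev y (dv z (dv z X))) (𝓝[U] g) (𝓝 (ev g (dv z (dv z X)))) :=
    ((continuous_ev _).tendsto g).mono_left nhdsWithin_le_nhds
  have hlim := le_of_tendsto_of_tendsto t1 t2 hnear
  have hP3 : ∀ i, ∑ j, ∑ k, sd3 u g i j k * z j * z k = ev g (pderiv i X) := fun i => by
    rw [hR.d3_row hP G hg.1 hgU, hcomm]
  have hsum : ∑ i, w i * ev g (pderiv i X) = ∑ i, W g i * ev g (pderiv i X) := by
    have e1 : ∀ i, ev g (pderiv i X) = ((n : ℝ) - 2) * ∑ j, shess u g i j * w j := fun i => by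
      rw [← hP3, hzw i]
    conv_lhs => arg 2; ext i; rw [hWeq g hdet i, Finset.mul_sum, Finset.mul_sum]
    conv_rhs => arg 2; ext i; rw [e1 i, Finset.mul_sum, Finset.mul_sum]
    rw [Finset.sum_comm]
    refine sum_congr rfl fun i _ => sum_congr rfl fun j _ => ?_
    rw [hH, G.hess_symm g hg.1 i j]
    ring
  simp only [hP3, hsum]
  rw [hX] at hlim ⊢
  exact hlim

end Vale.Agent.P227.LpN.Var
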