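import Vale.Agent.P227.LpN.VarBase

/-!
`LowerSpec` from the interfaces: the second variation at a minimiser of the penalised functional
and the Hodge–Riemann inequality in degree two force `τ ≥ 1/(n-1)`.
-/

namespace Vale.Agent.P227.LpN.Var

open Filter Finset Set Matrix MvPolynomial
open scoped Topology

variable {n N : ℕ} {u : Fin N → Vec n}

/-- `z² / g`. -/
noncomputable def guVec (g z : Fin N → ℝ) : Fin N → ℝ := fun i => z i ^ 2 / g i

/-- `D³V[z, z, e i]`. -/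
noncomputable def pVec (u : Fin N → Vec n) (g z : Fin N → ℝ) (i : Fin N) : ℝ :=
  ∑ j, ∑ k, sd3 u g i j k * z j * z k

lemma row_sum (u : Fin N → Vec n) (g f a : Fin N → ℝ) :
    ∑ i, f i * ∑ j, shess u g i j * a j = form2 u g f a := by
  simp only [form2, Finset.mul_sum]
  exact sum_congr rfl fun i _ => sum_congr rfl fun j _ => by ring

lemma form2_comm (G : SymFacts u) {g : Fin N → ℝ} (hg : Pos g) (a b : Fin N → ℝ) :
    form2 u g a b = form2 u g b a := by
  simp only [form2]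
  rw [Finset.sum_comm]
  exact sum_congr rfl fun i _ => sum_congr rfl fun j _ => by rw [G.hess_symm g hg j i]; ring

lemma form2_self (G : SymFacts u) {g : Fin N → ℝ} (hg : Pos g) (a : Fin N → ℝ) :
    form2 u g a g = ((n : ℝ) - 1) * form1 u g a := by
  rw [← row_sum, form1, Finset.mul_sum]
  exact sum_congr rfl fun i _ => by rw [G.euler_area g hg i]; ring

lemma ev_row {ι : Type} [Fintype ι] (y a b c : ι → ℝ) (P : Poly ι) :
    ev y (dv b (dv c (dv a P))) = ∑ i, a i * ev y (dv b (dv c (pderiv i P))) := by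
  have e : dv a P = ∑ i, a i • pderiv i P := rfl
  simp only [e, dv_sum, dv_smul, ev_sum, ev_smul]

lemma hess_row_zero (G : SymFacts u) (hu : GenPos u) {g : Fin N → ℝ} (hg : Proper u g) {i : Fin N}
    (hi : sarea u g i = 0) (j : Fin N) : shess u g i j = 0 := by
  have hs : Slack u g i := (hg.2 i).resolve_left (by simp [hi])
  have he : (fun h => sarea u h i) =ᶠ[𝓝 g] fun _ => (0 : ℝ) := by
    filter_upwards [Kernel.slack_near hg.1 (Kernel.isCompact_body hu _) hs,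
      Kernel.pos_mem_nhds hg.1] with h h1 h2 using G.area_zero_of_slack h h2 i h1
  have h0 : HasFDerivAt (fun _ : Fin N → ℝ => (0 : ℝ))
      (∑ j, shess u g i j • ContinuousLinearMap.proj (R := ℝ) j) g :=
    (G.area_fderiv g hg.1 i).congr_of_eventuallyEq he.symm
  have := congrArg (fun L : (Fin N → ℝ) →L[ℝ] ℝ => L (Pi.single j 1))
    (h0.unique (hasFDerivAt_const (0 : ℝ) g))
  simpa [_root_.sum_apply, Pi.single_apply] using this

lemma cross_alg {m τ K U q Z V S x y : ℝ} (hm : 0 < m) (hτ : 0 ≤ τ) (hτ' : τ ≤ 1) (hK : 0 ≤ K)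
    (hU : 0 ≤ U) (hV : 0 < V) (hS : 0 < S) (hZ : 0 ≤ Z) (hq : q = Z ^ 2 / (m * V))
    (hx : x ^ 2 * V ≤ K * S ^ 2 * Z) (hy : y ^ 2 ≤ Z * U) :
    τ * (1 + τ) * x / S * y ≤ τ * (m * K * q + U) := by
  have hq0 : 0 ≤ q := by rw [hq]; positivity
  have h1 : (x / S * y) ^ 2 ≤ m * K * q * U := by
    have b := mul_le_mul hx hy (sq_nonneg _) (by positivity)
    rw [hq, mul_pow, div_pow, div_mul_eq_mul_div, div_le_iff₀ (by positivity),
      show m * K * (Z ^ 2 / (m * V)) * U * S ^ 2 = K * S ^ 2 * Z * (Z * U) / V by field_simp,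
      le_div_iff₀ hV]
    linarith
  have h2 : ((1 + τ) * (x / S * y)) ^ 2 ≤ (m * K * q + U) ^ 2 := by
    rw [mul_pow]
    refine le_trans (mul_le_mul (show (1 + τ) ^ 2 ≤ 4 by nlinarith) h1 (sq_nonneg _)
      (by norm_num)) ?_
    linear_combination sq_nonneg (m * K * q - U)
  refine le_trans (le_of_eq ?_)
    (mul_le_mul_of_nonneg_left (abs_le_of_sq_le_sq' h2 (by positivity)).2 hτ)
  ring

lemma err_alg {m r τ η K U Q Y q V4 A1 A2 A3 E e : ℝ} (hm : 4 ≤ m) (hτ : 0 < τ) (hη : 0 ≤ η)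
    (hK : 0 ≤ K) (hr0 : 0 ≤ r) (hr1 : r ≤ 1) (hq : 0 ≤ q) (hqU : q ≤ U) (hU : 0 < U)
    (hA1 : 0 ≤ A1) (hA1' : A1 ≤ m * K * q) (hA2 : 0 ≤ A2) (hA3 : A3 ≤ (m - 1) * q)
    (hE : E ≤ τ * (m * K * q + U))
    (hV4 : r * (τ ^ 2 * (Y - 2 * U + Q) + η * τ * (2 * A1 - 2 * A2 + 2 * (m - 2) * q)
      + η ^ 2 * (A3 - (m - 1) * q)) ≤ V4)
    (key : V4 / 2 + τ * (1 + 3 / 2 * τ) * U - τ ^ 2 / 2 * Q - (m - 1 + τ) * τ ^ 2 * q
      - η * ((-τ * A2 + τ * (A1 - A2) + η * (A3 - (m - 1) * q)) / 2 + τ * (m - 1) * q + E) ≤ 0)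
    (hlow : τ * (e * U) ≤ r / 2 * τ ^ 2 * (Y - 2 * U + Q) + τ * (1 + 3 / 2 * τ) * U
      - τ ^ 2 / 2 * Q - (m - 1 + τ) * τ ^ 2 * q)
    (he : e = (1 - (m - 1) * τ) / 2) :
    1 - (m - 1) * τ ≤ 2 * η * (2 * m * K + m) := by
  have hmK : 0 ≤ m * K := mul_nonneg (by linarith) hK
  have w0 : 0 ≤ η * τ := mul_nonneg hη hτ.le
  have e2 := mul_nonneg (mul_nonneg w0 hr0) hA1
  have e3 := mul_nonneg (mul_nonneg w0 (show 0 ≤ 1 - r by linarith)) hA2
  have e4 := mul_nonneg (mul_nonneg (sq_nonneg η) (show 0 ≤ 1 - r by linarith))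
    (show 0 ≤ (m - 1) * q - A3 by linarith)
  have e5 := mul_nonneg (mul_nonneg (mul_nonneg w0 hr0) (show 0 ≤ m - 2 by linarith)) hq
  have e6 := mul_le_mul_of_nonneg_left hA1' w0
  have e7 := mul_le_mul_of_nonneg_left hE hη
  have e8 := mul_le_mul_of_nonneg_left hqU (show 0 ≤ η * τ * (2 * (m * K) + (m - 1)) from
    mul_nonneg w0 (by linarith))
  have e9 : 0 ≤ η * τ * (m * K) * q := mul_nonneg (mul_nonneg w0 hmK) hq
  have hfin : τ * U * e ≤ τ * U * (η * (2 * m * K + m)) := by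
    linear_combination hlow + key + hV4 / 2 + e2 + e3 + e4 / 2 + e5 + e6 / 2 + e7 + e8 + e9 / 2
  have := le_of_mul_le_mul_left hfin (mul_pos hτ hU)
  rw [he] at this
  linarith

lemma bound_alg {m r τ η K U Q Y q V4 A1 A2 A3 E : ℝ} (hm : 4 ≤ m) (hr : r = (m - 3) / (m - 2))
    (hτ : 0 < τ) (hτ' : τ ≤ 1 / (m - 1)) (hη : 0 ≤ η) (hK : 0 ≤ K) (hq : 0 ≤ q) (hqU : q ≤ U)
    (hU : 0 < U) (hQ : Q ≤ -τ * U + (m - 1 + τ) * q) (hY : τ * q / (m - 1) - (U - q) ≤ τ * Y)
    (hA1 : 0 ≤ A1) (hA1' : A1 ≤ m * K * q) (hA2 : 0 ≤ A2) (hA3 : A3 ≤ (m - 1) * q)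
    (hE : E ≤ τ * (m * K * q + U))
    (hV4 : r * (τ ^ 2 * (Y - 2 * U + Q) + η * τ * (2 * A1 - 2 * A2 + 2 * (m - 2) * q)
      + η ^ 2 * (A3 - (m - 1) * q)) ≤ V4)
    (key : V4 / 2 + τ * (1 + 3 / 2 * τ) * U - τ ^ 2 / 2 * Q - (m - 1 + τ) * τ ^ 2 * q
      - η * ((-τ * A2 + τ * (A1 - A2) + η * (A3 - (m - 1) * q)) / 2 + τ * (m - 1) * q + E) ≤ 0) :
    1 - (m - 1) * τ ≤ 2 * η * (2 * m * K + m) := by
  have hm1 : (0 : ℝ) < m - 1 := by linarith
  have hm2 : (0 : ℝ) < m - 2 := by linarith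
  have hr0 : 0 ≤ r := hr ▸ div_nonneg (by linarith) hm2.le
  have hr1 : r ≤ 1 := by rw [hr, div_le_one hm2]; linarith
  have hτm : (m - 1) * τ ≤ 1 := by rw [le_div_iff₀ hm1] at hτ'; linarith
  obtain ⟨E0, hE0⟩ : ∃ E0, E0 = 1 - r / 2 + τ * (3 / 2 - r) + (1 - r) * τ ^ 2 / 2 := ⟨_, rfl⟩
  obtain ⟨E1, hE1⟩ : ∃ E1, E1 = (1 - (m - 1) * τ) * (1 + τ / (m - 1)) := ⟨_, rfl⟩
  obtain ⟨e, he⟩ : ∃ e, e = (1 - (m - 1) * τ) / 2 := ⟨_, rfl⟩
  have b0 : e ≤ E0 := by
    have := mul_nonneg hτ.le (show 0 ≤ 3 / 2 - r by linarith)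
    have := mul_nonneg (show 0 ≤ 1 - r by linarith) (sq_nonneg τ)
    have := mul_nonneg hm1.le hτ.le
    rw [he, hE0]; linarith
  have b1 : e ≤ E1 := by
    have := mul_nonneg (show 0 ≤ 1 - (m - 1) * τ by linarith) (div_nonneg hτ.le hm1.le)
    rw [he, hE1]; linarith
  have hM : τ * (E0 * (U - q) + E1 * q) ≤ r / 2 * τ ^ 2 * (Y - 2 * U + Q)
      + τ * (1 + 3 / 2 * τ) * U - τ ^ 2 / 2 * Q - (m - 1 + τ) * τ ^ 2 * q := by
    have t1 := mul_le_mul_of_nonneg_left hY (show 0 ≤ r / 2 * τ by positivity)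
    have t2 := mul_le_mul_of_nonneg_left hQ
      (show 0 ≤ (1 - r) / 2 * τ ^ 2 from mul_nonneg (by linarith) (sq_nonneg τ))
    have hr2 : r * (m - 2) - (m - 3) = 0 := by rw [hr, div_mul_cancel₀ _ hm2.ne', sub_self]
    have e1 : τ * (E0 * (U - q) + E1 * q) = τ * (1 + 3 / 2 * τ) * U
        + r / 2 * τ * (τ * q / (m - 1) - (U - q)) - r * τ ^ 2 * U
        - (1 - r) / 2 * τ ^ 2 * (-τ * U + (m - 1 + τ) * q) - (m - 1 + τ) * τ ^ 2 * q
        - (m - 2) * τ ^ 2 * q / (2 * (m - 1)) * (r * (m - 2) - (m - 3)) := by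
      rw [hE0, hE1]
      field_simp
      ring
    rw [hr2, mul_zero, sub_zero] at e1
    rw [e1]
    linarith
  have hlow : τ * (e * U) ≤ τ * (E0 * (U - q) + E1 * q) := by
    refine mul_le_mul_of_nonneg_left ?_ hτ.le
    have := mul_le_mul_of_nonneg_right b0 (show 0 ≤ U - q by linarith)
    have := mul_le_mul_of_nonneg_right b1 hq
    linarith
  exact err_alg hm hτ hη hK hr0 hr1 hq hqU hU hA1 hA1' hA2 hA3 hE hV4 key (hlow.trans hM) he


lemma scalar_final {m τ η K Z V S Uu Q Y q V4 X Gw Ww B C3 : ℝ} (hm : 4 ≤ m) (hτ : 0 < τ)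
    (hτ' : τ ≤ 1 / (m - 1)) (hη : 0 ≤ η) (hK : 0 ≤ K) (hV : 0 < V) (hS : 0 < S) (hZ : 0 < Z)
    (hU : 0 < Uu) (hq : q = Z ^ 2 / (m * V)) (hqU : q ≤ Uu)
    (hQ : Q ≤ -τ * Uu + (m - 1 + τ) * q) (hY : τ * q / (m - 1) - (Uu - q) ≤ τ * Y)
    (hX : 0 ≤ X) (hG : 0 ≤ Gw) (hXb : X * V ≤ K * S * Z)
    (hWw : Ww ≤ (m - 1) * S ^ 2 / (m * V)) (hBb : B ^ 2 ≤ S * X) (hC3 : C3 ^ 2 ≤ Z * Uu)
    (hHR : (m - 3) * ((τ * ((τ * (Y - Uu) + η * (X / S - (m - 1) / m * (Z / (m - 1) / V)) * Z)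
          - (τ * (Uu - Q) + η * (Gw / S - (m - 1) / m * (Z / V)) * Z))
        + η * ((τ * (X - Gw) + η * (Ww / S - (m - 1) / m * (S / V)) * Z) / S
          - τ * (Z - (m - 1) * Z) / (m * V)) * Z) / (m - 2)) ≤ V4)
    (key : (-τ * (τ * (Uu - Q) + η * (Gw / S - (m - 1) / m * (Z / V)) * Z)) / 2 + V4 / 2
        - (m - 1 + τ) * ((-τ * Z) ^ 2 / (m * V))
        + τ * ((1 + 3 / 2 * τ) * Uu + (-τ * Q) / 2
          + (τ * (Uu - Q) + η * (Gw / S - (m - 1) / m * (Z / V)) * Z) / 2)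
        - η * (((-τ * Gw + (τ * (X - Gw) + η * (Ww / S - (m - 1) / m * (S / V)) * Z)) / 2 / S
            - (m - 1) / m * (-τ * Z / V - 0 ^ 2 / V ^ 2)) * Z
          + (-τ * B / S - (m - 1) / m * (0 / V)) * (-(1 + τ) * C3)) ≤ 0) :
    1 - (m - 1) * τ ≤ 2 * η * (2 * m * K + m) := by
  have hm0 : m ≠ 0 := by linarith
  have hm1 : m - 1 ≠ 0 := by linarith
  have hm2 : m - 2 ≠ 0 := by linarith
  have hV0 := hV.ne'
  have hS0 := hS.ne'
  obtain ⟨A1, hA1⟩ : ∃ A1, A1 = Z * X / S := ⟨_, rfl⟩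
  obtain ⟨A2, hA2⟩ : ∃ A2, A2 = Z * Gw / S := ⟨_, rfl⟩
  obtain ⟨A3, hA3⟩ : ∃ A3, A3 = Z ^ 2 * Ww / S ^ 2 := ⟨_, rfl⟩
  have eX : X / S * Z = A1 := by rw [hA1]; ring
  have eq1 : Z / V * Z = m * q := by rw [hq]; field_simp
  refine bound_alg (r := (m - 3) / (m - 2)) (Q := Q) (Y := Y) (q := q) (U := Uu) (V4 := V4)
    (A1 := A1) (A2 := A2) (A3 := A3) (E := τ * (1 + τ) * B / S * C3) hm rfl hτ hτ' hη hK
    (hq ▸ div_nonneg (sq_nonneg _) (mul_pos (by linarith) hV).le) hqU hU hQ hY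
    (hA1 ▸ by positivity) ?_ (hA2 ▸ by positivity) ?_ ?_ ?_ ?_
  · rw [hA1, hq, div_le_iff₀ hS]
    have h1 := mul_le_mul_of_nonneg_left hXb hZ.le
    field_simp
    linarith
  · rw [hA3, hq, div_le_iff₀ (by positivity)]
    have h1 := mul_le_mul_of_nonneg_left hWw (sq_nonneg Z)
    refine h1.trans (le_of_eq ?_)
    field_simp
  · refine cross_alg (by linarith) hτ.le ?_ hK hU.le hV hS hZ.le hq ?_ hC3
    · refine hτ'.trans ?_
      rw [div_le_one (by linarith)]; linarith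
    · have := mul_le_mul_of_nonneg_right hBb hV.le
      have := mul_le_mul_of_nonneg_left hXb hS.le
      linarith
  · refine le_of_eq_of_le ?_ hHR
    rw [hA1, hA2, hA3, hq]
    field_simp
    ring
  · refine le_of_eq_of_le ?_ key
    rw [hA1, hA2, hA3, hq]
    field_simp
    ring

namespace Crit

variable {η τ : ℝ} {g z : Fin N → ℝ}

/-- Only zero is in the kernel of the Hessian. -/
lemma kernel_zero (C : Crit u η τ g z) (hτ : 0 < τ) (y : Fin N → ℝ)
    (hy : ∀ i, sarea u g i = 0 → y i = 0) (hk : ∀ i, ∑ j, shess u g i j * y j = 0) : y = 0 := by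
  have G := C.geo
  have hg := C.pos
  have h2 : ∀ f, form2 u g f y = 0 := fun f => by simp [← row_sum, hk]
  have h1 : form1 u g y = 0 := by
    have h := h2 g
    rw [form2_comm G hg, form2_self G hg] at h
    have : (4 : ℝ) ≤ n := by exact_mod_cast C.dim
    exact (mul_eq_zero.1 h).resolve_left (by linarith)
  have h := C.le_all g hg y
  rw [← C.tau, rForm, h2, varForm, h1] at h
  simp only [ne_eq, OfNat.ofNat_ne_zero, not_false_eq_true, zero_pow, mul_zero, zero_div,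
    sub_zero, zero_add] at h
  have hs : ∑ i, sarea u g i * y i ^ 2 / g i = 0 :=
    le_antisymm (nonpos_of_mul_nonpos_right h hτ)
      (sum_nonneg fun i _ => div_nonneg (mul_nonneg (G.area_nonneg g hg i) (sq_nonneg _)) (hg i).le)
  funext i
  have h0 := (sum_eq_zero_iff_of_nonneg fun i _ =>
    div_nonneg (mul_nonneg (G.area_nonneg g hg i) (sq_nonneg _)) (hg i).le).1 hs i
      (Finset.mem_univ i)
  rcases div_eq_zero_iff.1 h0 with h0 | h0
  · rcases mul_eq_zero.1 h0 with h0 | h0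
    · exact hy i h0
    · simpa using h0
  · exact absurd h0 (hg i).ne'

/-- The Hessian reaches every vector supported on the pairs with area. -/
lemma exists_preimage (C : Crit u η τ g z) (hτ : 0 < τ) (b : Fin N → ℝ)
    (hb : ∀ i, sarea u g i = 0 → b i = 0) :
    ∃ y : Fin N → ℝ, ∀ i, ∑ j, shess u g i j * y j = b i := by
  classical
  obtain ⟨M, hM⟩ : ∃ M : Matrix (Fin N) (Fin N) ℝ, M = Matrix.of fun i j =>
      if sarea u g i = 0 then (if i = j then (1 : ℝ) else 0) else shess u g i j := ⟨_, rfl⟩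
  have hrow : ∀ v i, (sarea u g i = 0 → (M *ᵥ v) i = v i) ∧
      (sarea u g i ≠ 0 → (M *ᵥ v) i = ∑ j, shess u g i j * v j) := by
    intro v i
    refine ⟨fun hi => ?_, fun hi => ?_⟩
    · simp [hM, Matrix.mulVec, dotProduct, hi]
    · simp [hM, Matrix.mulVec, dotProduct, hi]
  have hzero : ∀ (v : Fin N → ℝ) i, sarea u g i = 0 → ∑ j, shess u g i j * v j = (0 : ℝ) := fun v i hi => by
    simp [hess_row_zero C.geo C.gen C.prop hi]
  have hinj : Function.Injective M.mulVec := by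
    intro v v' hvv
    rw [← sub_eq_zero]
    refine C.kernel_zero hτ _ (fun i hi => ?_) fun i => ?_
    · have := congrFun hvv i
      rw [(hrow v i).1 hi, (hrow v' i).1 hi] at this
      simp [this]
    · by_cases hi : sarea u g i = 0
      · exact hzero _ i hi
      · have := congrFun hvv i
        rw [(hrow v i).2 hi, (hrow v' i).2 hi] at this
        simp [mul_sub, sum_sub_distrib, this]
  have hu : IsUnit M := Matrix.mulVec_injective_iff_isUnit.1 hinj
  refine ⟨M⁻¹ *ᵥ b, fun i => ?_⟩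
  have e : M *ᵥ (M⁻¹ *ᵥ b) = b := by
    rw [Matrix.mulVec_mulVec, Matrix.mul_nonsing_inv _ ((Matrix.isUnit_iff_isUnit_det M).1 hu),
      Matrix.one_mulVec]
  by_cases hi : sarea u g i = 0
  · rw [hzero _ i hi, hb i hi]
  · rw [← (hrow _ i).2 hi, e]

/-- The first variation in every direction. -/
lemma first_eq (C : Crit u η τ g z) (hP : PolySpec) (hcurve : CurveSpec) (i : Fin N) :
    pVec u g z i = τ * (sarea u g i * z i ^ 2 / g i ^ 2
        - ∑ j, shess u g i j * guVec g z j)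
      + η * ((∑ j, shess u g i j * ballSupp u j) / surf u g
        - ((n : ℝ) - 1) / n * (sarea u g i / svol u g)) * varForm u g z := by
  have G := C.geo
  obtain ⟨-, -, hcm, -⟩ := hP (Fin N) inferInstance inferInstance
  obtain ⟨F, hF⟩ : ∃ F : Fin N → ℝ, F = fun i => pVec u g z i
      - τ * (sarea u g i * z i ^ 2 / g i ^ 2 - ∑ j, shess u g i j * guVec g z j)
      - η * ((∑ j, shess u g i j * ballSupp u j) / surf u g
        - ((n : ℝ) - 1) / n * (sarea u g i / svol u g)) * varForm u g z := ⟨_, rfl⟩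
  have key : ∀ a : Fin N → ℝ, ∑ i, a i * F i ≤ 0 := by
    intro a
    have hn := C.dim
    obtain ⟨R, U, hom, hU, hon, ε, hε, hc⟩ :=
      hcurve n N u (by omega) C.gen g a 0 C.pos
    have hR : Germ u R U := ⟨hom, hU, fun y hy => ⟨(hon y hy).1, (hon y hy).2.2⟩⟩
    have hg0 : g ∈ closure U := by simpa using hc 0 ⟨le_rfl, hε⟩
    refine le_of_eq_of_le ?_ (C.path hP hR hε hc rfl rfl rfl rfl rfl rfl rfl rfl rfl).1
    have e1 : ev g (dv a (dv z (dv z R))) = ∑ i, a i * pVec u g z i := by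
      rw [dv_comm hcm a z, dv_comm hcm a z, ev_row]
      exact sum_congr rfl fun i _ => by rw [pVec, hR.d3_row hP G C.pos hg0]
    have e2 : ev g (dv a R) = ∑ i, a i * sarea u g i := by
      rw [← hR.form1_eq hP G C.pos hg0, form1]
      exact sum_congr rfl fun i _ => mul_comm _ _
    have e3 : ev g (dv a (dv (ballSupp u) R)) =
        ∑ i, a i * ∑ j, shess u g i j * ballSupp u j := by
      rw [← hR.form2_eq hP G C.pos hg0, row_sum, form2_comm G C.pos]
    have e4 : ∑ i, z i ^ 2 * (sarea u g i * (-a i / g i ^ 2)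
        + ev g (dv a (pderiv i R)) * (g i)⁻¹) =
        ∑ i, a i * ((∑ j, shess u g i j * guVec g z j) - sarea u g i * z i ^ 2 / g i ^ 2) := by
      have h1 : ∑ i, z i ^ 2 * (ev g (dv a (pderiv i R)) * (g i)⁻¹) =
          ∑ i, a i * ∑ j, shess u g i j * guVec g z j := by
        rw [row_sum, form2_comm G C.pos, ← row_sum]
        exact sum_congr rfl fun i _ => by rw [← hR.hess_row hP G C.pos hg0, guVec]; ring
      simp only [mul_sub, sum_sub_distrib, ← h1]
      rw [← sum_sub_distrib]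
      exact sum_congr rfl fun i _ => by ring
    rw [e1, e2, e3, e4, Finset.mul_sum, Finset.sum_div, Finset.sum_div, Finset.mul_sum,
      ← sum_add_distrib, ← sum_sub_distrib, Finset.sum_mul, Finset.mul_sum, ← sum_sub_distrib]
    exact sum_congr rfl fun i _ => by rw [hF]; ring
  have h1 := key (Pi.single i 1)
  have h2 := key (-Pi.single i 1)
  simp [Pi.single_apply] at h1 h2
  have : F i = 0 := le_antisymm h1 h2
  rw [hF] at this
  linarith

/-- The lower bound for the form of a preimage of `z² / g²`. -/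
lemma pre_bound (C : Crit u η τ g z) (hτ : 0 < τ) (hn1 : (0 : ℝ) < (n : ℝ) - 1) {Z V Uu q Y : ℝ}
    {b y : Fin N → ℝ} (hnV : (0 : ℝ) < n * V) (_hZd : Z = varForm u g z) (hVd : V = svol u g)
    (hUu : Uu = ∑ i, sarea u g i * z i ^ 4 / g i ^ 3)
    (hb : b = fun i => sarea u g i * z i ^ 2 / g i ^ 2) (hq : q = Z ^ 2 / (n * V))
    (hy : ∀ i, ∑ j, shess u g i j * y j = b i) (hYd : Y = ∑ i, y i * b i)
    (gb : ∑ i, g i * b i = Z) (yA : form1 u g y = Z / ((n : ℝ) - 1)) (hqU : q ≤ Uu) :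
    τ * q / ((n : ℝ) - 1) - (Uu - q) ≤ τ * Y := by
  have G := C.geo
  have hg := C.pos
  have hF := G.area_nonneg g hg
  have rowy : ∀ f, form2 u g f y = ∑ i, f i * b i := fun f => by
    rw [← row_sum]; exact sum_congr rfl fun i _ => by rw [hy i]
  obtain ⟨α, hα⟩ : ∃ α, α = Z / ((n : ℝ) - 1) / (n * V) := ⟨_, rfl⟩
  obtain ⟨β, hβ⟩ : ∃ β, β = Z / (n * V) := ⟨_, rfl⟩
  obtain ⟨y', hy'⟩ : ∃ y' : Fin N → ℝ, y' = fun i => y i - α * g i := ⟨_, rfl⟩
  have h1 : form1 u g y' = 0 := by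
    have : form1 u g y' = form1 u g y - α * ∑ i, sarea u g i * g i := by
      simp only [hy', form1, Finset.mul_sum, ← sum_sub_distrib]
      exact sum_congr rfl fun i _ => by ring
    rw [this, yA, G.euler_vol g hg, ← hVd, hα, div_mul_cancel₀ _ hnV.ne', sub_self]
  obtain ⟨Wy, hWy⟩ : ∃ Wy, Wy = ∑ i, sarea u g i * y' i ^ 2 / g i := ⟨_, rfl⟩
  obtain ⟨mY, hmY⟩ : ∃ mY, mY = ∑ i, y' i * b i := ⟨_, rfl⟩
  have h2 : mY = Y - α * Z := by
    rw [hmY, hYd, ← gb, Finset.mul_sum, ← sum_sub_distrib, hy']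
    exact sum_congr rfl fun i _ => by ring
  have h3 : form2 u g y' y' = mY := by
    have e : form2 u g y' y' = form2 u g y' y - α * form2 u g y' g := by
      simp only [form2, Finset.mul_sum, ← sum_sub_distrib]
      exact sum_congr rfl fun i _ => sum_congr rfl fun j _ => by simp [hy']; ring
    rw [e, rowy, form2_self G hg, h1, hmY]; ring
  have h4 : mY + τ * Wy ≤ 0 := by
    have h := C.le_all g hg y'
    rw [← C.tau, rForm, varForm, h1, h3, ← hWy] at h
    simpa using h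
  have h5 : mY ^ 2 ≤ (Uu - q) * Wy := by
    have := sum_sq_le_sum_mul_sum_of_sq_le_mul (Finset.univ : Finset (Fin N))
      (f := fun i => sarea u g i * g i * (z i ^ 2 / g i ^ 2 - β) ^ 2)
      (g := fun i => sarea u g i * y' i ^ 2 / g i)
      (r := fun i => y' i * b i - β * (sarea u g i * y' i))
      (fun i _ => mul_nonneg (mul_nonneg (hF i) (hg i).le) (sq_nonneg _))
      (fun i _ => div_nonneg (mul_nonneg (hF i) (sq_nonneg _)) (hg i).le)
      (fun i _ => le_of_eq (by rw [hb]; have := (hg i).ne'; field_simp))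
    rw [sum_sub_distrib, ← hmY, ← hWy, ← Finset.mul_sum,
      show ∑ i, sarea u g i * y' i = form1 u g y' from rfl, h1, mul_zero, sub_zero] at this
    refine this.trans (le_of_eq ?_)
    congr 1
    have e : ∀ i, sarea u g i * g i * (z i ^ 2 / g i ^ 2 - β) ^ 2 =
        sarea u g i * z i ^ 4 / g i ^ 3 - 2 * β * (g i * b i)
          + β ^ 2 * (sarea u g i * g i) := by
      intro i
      rw [hb]
      have := (hg i).ne'
      field_simp; ring
    rw [sum_congr rfl fun i _ => e i, sum_add_distrib, sum_sub_distrib, ← Finset.mul_sum,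
      ← Finset.mul_sum, gb, G.euler_vol g hg, ← hUu, ← hVd, hβ, hq]
    field_simp; ring
  have h6 : -(Uu - q) ≤ τ * mY := by
    by_contra hc'
    push Not at hc'
    have hm0 : mY < 0 := neg_of_mul_neg_right (by linarith : τ * mY < 0) hτ.le
    have h7 : τ * mY ^ 2 ≤ (Uu - q) * -mY :=
      calc τ * mY ^ 2 ≤ τ * ((Uu - q) * Wy) := mul_le_mul_of_nonneg_left h5 hτ.le
        _ = (Uu - q) * (τ * Wy) := by ring
        _ ≤ _ := mul_le_mul_of_nonneg_left (by linarith) (by linarith)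
    have h8 := mul_pos (neg_pos.2 hm0) (show 0 < -(τ * mY) - (Uu - q) by linarith)
    linarith
  have e : τ * Y = τ * mY + τ * q / ((n : ℝ) - 1) := by
    rw [h2, hα, hq]; field_simp; ring
  linarith

/-- `τ` is close to `1/(n-1)` at the minimiser. -/
theorem tau_bound (C : Crit u η τ g z) (hP : PolySpec) (hcurve : CurveSpec) (hHR : HRSymSpec)
    (hτ : 0 < τ) (hτ' : τ ≤ 1 / ((n : ℝ) - 1)) (hZ : 0 < varForm u g z) {K : ℝ} (hK : 0 ≤ K)
    (hKb : ∀ i, ballSupp u i * svol u g ≤ K * g i * surf u g) :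
    1 - ((n : ℝ) - 1) * τ ≤ 2 * η * (2 * n * K + n) := by
  have G := C.geo
  have hg := C.pos
  have hn : (4 : ℝ) ≤ n := by exact_mod_cast C.dim
  have hn1 : (0 : ℝ) < (n : ℝ) - 1 := by linarith
  have hn2 : (0 : ℝ) < (n : ℝ) - 2 := by linarith
  obtain ⟨-, -, hcm, -⟩ := hP (Fin N) inferInstance inferInstance
  obtain ⟨w, hw⟩ : ∃ w, w = ballSupp u := ⟨_, rfl⟩
  obtain ⟨v, hv⟩ : ∃ v, v = guVec g z := ⟨_, rfl⟩
  obtain ⟨Z, hZd⟩ : ∃ Z, Z = varForm u g z := ⟨_, rfl⟩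
  obtain ⟨V, hVd⟩ : ∃ V, V = svol u g := ⟨_, rfl⟩
  obtain ⟨S, hSd⟩ : ∃ S, S = surf u g := ⟨_, rfl⟩
  have hV : 0 < V := hVd ▸ G.vol_pos g hg
  have hS : 0 < S := hSd ▸ surf_pos G C.gen hg
  have hnV : (0 : ℝ) < n * V := mul_pos (by linarith) hV
  rw [← hVd, ← hSd] at hKb
  rw [← hZd] at hZ
  have hwi : ∀ i, 0 ≤ w i := fun i => hw ▸ Real.sqrt_nonneg _
  have hF := G.area_nonneg g hg
  -- the sums
  obtain ⟨b, hb⟩ : ∃ b : Fin N → ℝ, b = fun i => sarea u g i * z i ^ 2 / g i ^ 2 := ⟨_, rfl⟩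
  obtain ⟨y, hy⟩ := C.exists_preimage hτ b fun i hi => by simp [hb, hi]
  obtain ⟨Uu, hUu⟩ : ∃ Uu, Uu = ∑ i, sarea u g i * z i ^ 4 / g i ^ 3 := ⟨_, rfl⟩
  obtain ⟨C3, hC3⟩ : ∃ C3, C3 = ∑ i, sarea u g i * z i ^ 3 / g i ^ 2 := ⟨_, rfl⟩
  obtain ⟨B, hB⟩ : ∃ B, B = ∑ i, w i * (sarea u g i * z i / g i) := ⟨_, rfl⟩
  obtain ⟨X, hX⟩ : ∃ X, X = ∑ i, w i * b i := ⟨_, rfl⟩
  obtain ⟨Q, hQd⟩ : ∃ Q, Q = form2 u g v v := ⟨_, rfl⟩
  obtain ⟨Y, hYd⟩ : ∃ Y, Y = ∑ i, y i * b i := ⟨_, rfl⟩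
  obtain ⟨Gw, hGw⟩ : ∃ Gw, Gw = form2 u g w v := ⟨_, rfl⟩
  obtain ⟨Ww, hWw⟩ : ∃ Ww, Ww = form2 u g w w := ⟨_, rfl⟩
  obtain ⟨q, hq⟩ : ∃ q, q = Z ^ 2 / (n * V) := ⟨_, rfl⟩
  have Z_eq : Z = ∑ i, sarea u g i * z i ^ 2 / g i := by rw [hZd, C.var_eq]
  have vA : form1 u g v = Z := by
    rw [Z_eq, form1, hv]; exact sum_congr rfl fun i _ => by simp only [guVec]; ring
  have vb : ∑ i, v i * b i = Uu := by
    rw [hUu, hv, hb]
    exact sum_congr rfl fun i _ => by simp only [guVec]; have := (hg i).ne'; field_simp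
  have gb : ∑ i, g i * b i = Z := by
    rw [Z_eq, hb]; exact sum_congr rfl fun i _ => by have := (hg i).ne'; field_simp
  have wA : form1 u g w = S := by rw [hSd, surf, hw]
  have rowy : ∀ f, form2 u g f y = ∑ i, f i * b i := fun f => by
    rw [← row_sum]; exact sum_congr rfl fun i _ => by rw [hy i]
  have yA : form1 u g y = Z / ((n : ℝ) - 1) := by
    rw [eq_div_iff hn1.ne', mul_comm, ← form2_self G hg, form2_comm G hg, rowy, gb]
  have rowz : ∀ f, form2 u g f z = -τ * ∑ i, f i * (sarea u g i * z i / g i) := fun f => by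
    rw [← row_sum, Finset.mul_sum]; exact sum_congr rfl fun i _ => by rw [C.lin_eq]; ring
  -- first variation
  obtain ⟨P, hPd⟩ : ∃ P : Fin N → ℝ, P = pVec u g z := ⟨_, rfl⟩
  have hPi : ∀ i, P i = τ * (b i - ∑ j, shess u g i j * v j)
      + η * ((∑ j, shess u g i j * w j) / S - ((n : ℝ) - 1) / n * (sarea u g i / V)) * Z :=
    fun i => by rw [hPd, C.first_eq hP hcurve i, hb, hv, hw, hZd, hVd, hSd]
  have dotP : ∀ f, ∑ i, f i * P i = τ * ((∑ i, f i * b i) - form2 u g f v)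
      + η * (form2 u g f w / S - ((n : ℝ) - 1) / n * (form1 u g f / V)) * Z := fun f => by
    have e : ∀ i, f i * P i = τ * (f i * b i - f i * ∑ j, shess u g i j * v j)
        + η * ((f i * ∑ j, shess u g i j * w j) / S
          - ((n : ℝ) - 1) / n * (sarea u g i * f i / V)) * Z := fun i => by rw [hPi]; ring
    simp only [e, sum_add_distrib, ← Finset.mul_sum, sum_sub_distrib, ← Finset.sum_mul,
      ← Finset.sum_div, form1, ← row_sum]
  have wP : ∑ i, w i * P i = τ * (X - Gw)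
      + η * (Ww / S - ((n : ℝ) - 1) / n * (S / V)) * Z := by
    rw [dotP, ← hX, ← hGw, ← hWw, wA]
  have yP : ∑ i, y i * P i = τ * (Y - Uu)
      + η * (X / S - ((n : ℝ) - 1) / n * (Z / ((n : ℝ) - 1) / V)) * Z := by
    rw [dotP, ← hYd, form2_comm G hg y v, rowy, vb, form2_comm G hg y w, rowy, ← hX, yA]
  have vP : ∑ i, v i * P i = τ * (Uu - Q)
      + η * (Gw / S - ((n : ℝ) - 1) / n * (Z / V)) * Z := by
    rw [dotP, vb, ← hQd, form2_comm G hg v w, ← hGw, vA]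
  have gP : ∑ i, g i * P i = τ * (Z - ((n : ℝ) - 1) * Z) := by
    have e1 : form2 u g g v = ((n : ℝ) - 1) * Z := by rw [form2_comm G hg, form2_self G hg, vA]
    have e2 : form2 u g g w = ((n : ℝ) - 1) * S := by rw [form2_comm G hg, form2_self G hg, wA]
    have e3 : form1 u g g = n * V := by
      rw [hVd]; exact (G.euler_vol g hg)
    rw [dotP, gb, e1, e2, e3]
    field_simp
    ring
  -- second variation
  obtain ⟨R, U, hom, hUo, hon, ε, hε, hc⟩ :=
    hcurve n N u (by have := C.dim; omega) C.gen g z ((-τ) • v) hg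
  have hR : Germ u R U := ⟨hom, hUo, fun y hy => ⟨(hon y hy).1, (hon y hy).2.2⟩⟩
  have hg0 : g ∈ closure U := by simpa using hc 0 ⟨le_rfl, hε⟩
  obtain ⟨V4, hV4d⟩ : ∃ V4, V4 = ev g (dv z (dv z (dv z (dv z R)))) := ⟨_, rfl⟩
  obtain ⟨c, hcdef⟩ : ∃ c, c = (-τ) • v := ⟨_, rfl⟩
  rw [← hcdef] at hc
  have eP : ∀ a, ev g (dv z (dv z (dv a R))) = ∑ i, a i * P i := fun a => by
    rw [ev_row, hPd]
    exact sum_congr rfl fun i _ => by rw [pVec, hR.d3_row hP G hg hg0]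
  have cP : ∑ i, c i * P i = -τ * ∑ i, v i * P i := by
    rw [hcdef, Finset.mul_sum]; exact sum_congr rfl fun i _ => by simp; ring
  have cH : ∀ f, form2 u g f c = -τ * form2 u g f v := fun f => by
    simp only [hcdef, form2, Pi.smul_apply, smul_eq_mul, Finset.mul_sum]
    exact sum_congr rfl fun i _ => sum_congr rfl fun j _ => by ring
  have eT4 : (ev g (dv c (dv z (dv z R))) + ev g (dv z (dv z (dv z (dv z R))))) / 2 =
      (-τ * ∑ i, v i * P i) / 2 + V4 / 2 := by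
    rw [dv_comm hcm c z, dv_comm hcm c z, eP, cP, hV4d]; ring
  have eD1 : ev g (dv z (dv z R)) = -τ * Z := by
    rw [← hR.form2_eq hP G hg hg0, C.form2_eq, hZd]
  have eW1 : ∑ i, z i ^ 2 * (sarea u g i * (-z i / g i ^ 2)
      + ev g (dv z (pderiv i R)) * (g i)⁻¹) = -(1 + τ) * C3 := by
    rw [hC3, Finset.mul_sum]
    refine sum_congr rfl fun i _ => ?_
    rw [← hR.hess_row hP G hg hg0, C.lin_eq]
    have := (hg i).ne'
    field_simp; ring
  have eW2 : ∑ i, z i ^ 2 * (sarea u g i * ((z i ^ 2 - g i * (c i / 2)) / g i ^ 3)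
      + ev g (dv z (pderiv i R)) * (-z i / g i ^ 2)
      + (ev g (dv c (pderiv i R)) + ev g (dv z (dv z (pderiv i R)))) / 2 * (g i)⁻¹) =
      (1 + 3 / 2 * τ) * Uu + (-τ * Q) / 2 + (∑ i, v i * P i) / 2 := by
    have e1 : -τ * Q = ∑ i, v i * ∑ j, shess u g i j * c j := by rw [row_sum, cH, hQd]
    rw [e1, hUu, Finset.mul_sum, Finset.sum_div, Finset.sum_div, ← sum_add_distrib,
      ← sum_add_distrib]
    refine sum_congr rfl fun i _ => ?_
    rw [← hR.hess_row hP G hg hg0, ← hR.hess_row hP G hg hg0, C.lin_eq,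
      ← hR.d3_row hP G hg hg0, hPd, pVec]
    generalize ∑ j, shess u g i j * c j = H1
    have := (hg i).ne'
    simp only [hcdef, Pi.smul_apply, smul_eq_mul, hv, guVec]
    field_simp; ring
  have eV1 : ev g (dv z R) = 0 := by rw [← hR.form1_eq hP G hg hg0, C.f1]
  have eV2 : (ev g (dv c R) + ev g (dv z (dv z R))) / 2 = -τ * Z := by
    have e1 : form1 u g c = -τ * form1 u g v := by
      simp only [hcdef, form1, Pi.smul_apply, smul_eq_mul, Finset.mul_sum]
      exact sum_congr rfl fun i _ => by ring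
    rw [eD1, ← hR.form1_eq hP G hg hg0, e1, vA]; ring
  have eS1 : ev g (dv z (dv (ballSupp u) R)) = -τ * B := by
    rw [← hR.form2_eq hP G hg hg0, ← hw, rowz, hB]
  have eS2 : (ev g (dv c (dv (ballSupp u) R)) + ev g (dv z (dv z (dv (ballSupp u) R)))) / 2 =
      (-τ * Gw + ∑ i, w i * P i) / 2 := by
    rw [← hw, ← hR.form2_eq hP G hg hg0, cH, ← hGw, eP]
  obtain ⟨-, p2⟩ := C.path hP hR hε hc (a := z) rfl rfl rfl rfl rfl rfl rfl rfl rfl
  rw [eT4, eS2, eV2, eW2, eW1, eS1, eD1, eV1, ← hZd, ← hVd, ← hSd] at p2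
  have hf1 : ev g (dv z (dv z (dv z R))) + τ * (-(1 + τ) * C3)
      - η * ((-τ * B / S - ((n : ℝ) - 1) / n * (0 / V)) * Z) = 0 := by
    rw [eP, dotP]
    have e1 : ∑ i, z i * b i = C3 := by
      rw [hC3, hb]; exact sum_congr rfl fun i _ => by ring
    have e2 : form2 u g z v = -τ * C3 := by
      rw [form2_comm G hg, rowz, hC3, hv]
      congr 1
      exact sum_congr rfl fun i _ => by simp only [guVec]; have := (hg i).ne'; field_simp
    have e3 : form2 u g z w = -τ * B := by rw [form2_comm G hg, rowz, hB]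
    rw [e1, e2, e3, C.f1]; ring
  have key := p2 hf1
  -- Hodge-Riemann
  obtain ⟨w', hw'⟩ : ∃ w' : Fin N → ℝ, w' = fun i => (τ * (y i - v i)
      + η * (w i / S - g i / (n * V)) * Z) / ((n : ℝ) - 2) := ⟨_, rfl⟩
  have hlin : ∀ i, ∑ j, ∑ k, sd3 u g i j k * z j * z k =
      ((n : ℝ) - 2) * ∑ j, shess u g i j * w' j := by
    intro i
    have e : P i = ∑ j, ∑ k, sd3 u g i j k * z j * z k := by rw [hPd]; rfl
    have e1 : ((n : ℝ) - 2) * ∑ j, shess u g i j * w' j =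
        τ * ((∑ j, shess u g i j * y j) - ∑ j, shess u g i j * v j)
        + η * ((∑ j, shess u g i j * w j) / S - (∑ j, shess u g i j * g j) / (n * V)) * Z := by
      simp only [hw', Finset.mul_sum, Finset.sum_div, ← sum_sub_distrib, ← sum_add_distrib,
        Finset.sum_mul]
      exact sum_congr rfl fun j _ => by field_simp
    rw [e1, hy, G.euler_area g hg i, ← e, hPi]
    field_simp
  have hHR' := hHR n N u C.dim C.gen g C.prop (C.kernel_zero hτ) R U hR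
    (fun y hy => (hon y hy).2.1) hg0 z w' hlin
  rw [← hV4d] at hHR'
  have ew' : ∑ i, w' i * ∑ j, ∑ k, sd3 u g i j k * z j * z k =
      (τ * ((∑ i, y i * P i) - ∑ i, v i * P i)
        + η * ((∑ i, w i * P i) / S - (∑ i, g i * P i) / (n * V)) * Z) / ((n : ℝ) - 2) := by
    simp only [Finset.mul_sum, Finset.sum_div, ← sum_sub_distrib, ← sum_add_distrib,
      Finset.sum_mul]
    refine sum_congr rfl fun i _ => ?_
    simp only [← Finset.mul_sum]
    have e : P i = ∑ j, ∑ k, sd3 u g i j k * z j * z k := by rw [hPd]; rfl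
    rw [← e, hw']; ring
  rw [ew', yP, vP, wP, gP] at hHR'
  rw [wP, vP] at key
  -- the bounds
  have hb0 : ∀ i, 0 ≤ b i := fun i => by
    rw [hb]; exact div_nonneg (mul_nonneg (hF i) (sq_nonneg _)) (sq_nonneg _)
  have hX0 : 0 ≤ X := hX ▸ sum_nonneg fun i _ => mul_nonneg (hwi i) (hb0 i)
  have hXb : X * V ≤ K * S * Z := by
    rw [hX, ← gb, Finset.sum_mul, Finset.mul_sum]
    refine sum_le_sum fun i _ => ?_
    have h1 := mul_le_mul_of_nonneg_left (hKb i) (hb0 i)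
    rw [← hw] at h1
    linarith
  have hU2 : Z ^ 2 ≤ n * V * Uu := by
    have := sum_sq_le_sum_mul_sum_of_sq_le_mul (Finset.univ : Finset (Fin N))
      (f := fun i => sarea u g i * g i) (g := fun i => sarea u g i * z i ^ 4 / g i ^ 3)
      (r := fun i => sarea u g i * z i ^ 2 / g i) (fun i _ => mul_nonneg (hF i) (hg i).le)
      (fun i _ => div_nonneg (mul_nonneg (hF i) (Even.pow_nonneg (by decide) _))
        (pow_nonneg (hg i).le 3))
      (fun i _ => le_of_eq (by have := (hg i).ne'; field_simp))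
    rwa [G.euler_vol g hg, ← hVd, ← hUu, ← Z_eq] at this
  have hqU : q ≤ Uu := by rw [hq, div_le_iff₀ hnV]; linarith
  have hUpos : 0 < Uu := lt_of_lt_of_le (hq ▸ div_pos (pow_pos hZ 2) hnV) hqU
  have hC3b : C3 ^ 2 ≤ Z * Uu := by
    have := sum_sq_le_sum_mul_sum_of_sq_le_mul (Finset.univ : Finset (Fin N))
      (f := fun i => sarea u g i * z i ^ 2 / g i) (g := fun i => sarea u g i * z i ^ 4 / g i ^ 3)
      (r := fun i => sarea u g i * z i ^ 3 / g i ^ 2)
      (fun i _ => div_nonneg (mul_nonneg (hF i) (sq_nonneg _)) (hg i).le)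
      (fun i _ => div_nonneg (mul_nonneg (hF i) (Even.pow_nonneg (by decide) _))
        (pow_nonneg (hg i).le 3))
      (fun i _ => le_of_eq (by have := (hg i).ne'; field_simp))
    rwa [← Z_eq, ← hC3, ← hUu] at this
  have hBb : B ^ 2 ≤ S * X := by
    have := sum_sq_le_sum_mul_sum_of_sq_le_mul (Finset.univ : Finset (Fin N))
      (f := fun i => sarea u g i * w i) (g := fun i => w i * b i)
      (r := fun i => w i * (sarea u g i * z i / g i))
      (fun i _ => mul_nonneg (hF i) (hwi i)) (fun i _ => mul_nonneg (hwi i) (hb0 i))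
      (fun i _ => le_of_eq (by rw [hb]; have := (hg i).ne'; field_simp))
    rwa [← hB, ← hX, show ∑ i, sarea u g i * w i = S by rw [← wA, form1]] at this
  have hGw0 : 0 ≤ Gw := by
    rw [hGw, form2_comm G hg, ← row_sum]
    refine sum_nonneg fun i _ => mul_nonneg ?_ (hw ▸ G.hess_ball_nonneg g hg i)
    rw [hv]; exact div_nonneg (sq_nonneg _) (hg i).le
  have hWwb : Ww ≤ ((n : ℝ) - 1) * S ^ 2 / (n * V) := by
    have h := C.le_all g hg w
    rw [← C.tau, rForm, ← hWw, wA, ← hVd] at h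
    have := mul_nonneg hτ.le (Kernel.varForm_nonneg G (by have := C.dim; omega) hg w)
    linarith
  have hQb : Q ≤ -τ * Uu + ((n : ℝ) - 1 + τ) * q := by
    have h := C.le_all g hg v
    have e : ∑ i, sarea u g i * v i ^ 2 / g i = Uu := by
      rw [hUu, hv]
      exact sum_congr rfl fun i _ => by simp only [guVec]; have := (hg i).ne'; field_simp
    rw [← C.tau, rForm, varForm, ← hQd, vA, e, ← hVd, mul_div_assoc, ← hq] at h
    linarith
  have hYb := C.pre_bound hτ hn1 hnV hZd hVd hUu hb hq hy hYd gb yA hqU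
  refine scalar_final hn hτ hτ' C.eta hK hV hS hZ hUpos hq hqU hQb hYb hX0 hGw0 hXb hWwb hBb hC3b
    hHR' key

end Crit

end Vale.Agent.P227.LpN.Var

namespace Vale.Agent.P227.LpN

open Filter Finset Set Matrix

open Var in
/-- The main local theorem from the interfaces. -/
theorem lowerSpec (hsym : SymSpec) (hP : PolySpec) (hcurve : CurveSpec) (hHR : HRSymSpec)
    (htau : TauSpec) (hpen : PenaltySpec) (hatt : AttainSpec) (hker : KernelSpec) :
    LowerSpec := by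
  intro n N u hn hu h0 hh0 z0
  have G := hsym n N u hn hu
  have hnR : (4 : ℝ) ≤ n := by exact_mod_cast hn
  have hn1 : (0 : ℝ) < (n : ℝ) - 1 := by linarith
  by_contra hpos
  push Not at hpos
  obtain ⟨-, -, hle0, -⟩ := htau n N u hn hu h0 hh0
  have hτ0 : tauVal u h0 < 1 / ((n : ℝ) - 1) := by
    by_contra hge
    push Not at hge
    have h1 := hle0 z0
    have h2 := mul_le_mul_of_nonneg_right hge
      (Kernel.varForm_nonneg G (by omega) hh0 z0)
    simp only [rForm] at h1 hpos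
    linarith
  have hτ0' : ((n : ℝ) - 1) * tauVal u h0 < 1 := by rw [lt_div_iff₀ hn1] at hτ0; linarith
  obtain ⟨m, hm⟩ := hpen n N u hn hu
  obtain ⟨A, hAd⟩ : ∃ A, A = penalty u h0 - m := ⟨_, rfl⟩
  have hA : 0 ≤ A := by linarith [hm h0 hh0]
  obtain ⟨C, hC, hCb⟩ := G.vol_le_surf
  obtain ⟨K, hKd⟩ : ∃ K, K = C * ∑ i, ballSupp u i := ⟨_, rfl⟩
  have hw : ∀ i, 0 ≤ ballSupp u i := fun i => Real.sqrt_nonneg _
  have hK : 0 ≤ K := hKd ▸ mul_nonneg hC.le (sum_nonneg fun i _ => hw i)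
  obtain ⟨L, hL⟩ : ∃ L, L = ((n : ℝ) - 1) * A + 2 * (2 * n * K + n) + 1 := ⟨_, rfl⟩
  have hL0 : 0 < L := by rw [hL]; positivity
  obtain ⟨η, hη, hη1⟩ : ∃ η > 0, η * L = 1 - ((n : ℝ) - 1) * tauVal u h0 :=
    ⟨(1 - ((n : ℝ) - 1) * tauVal u h0) / L, div_pos (by linarith) hL0,
      div_mul_cancel₀ _ hL0.ne'⟩
  obtain ⟨g, hgp, hmin⟩ := hatt n N u hn hu η hη
  obtain ⟨hg0, -, hle, hex⟩ := htau n N u hn hu g hgp.1
  have htg : tauVal u g ≤ tauVal u h0 + η * A := by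
    have h1 := hmin h0 hh0
    have h2 := mul_le_mul_of_nonneg_left (hm g hgp.1) hη.le
    rw [hAd]
    linarith
  have htg' : ((n : ℝ) - 1) * tauVal u g + η * (2 * (2 * n * K + n) + 1) ≤ 1 := by
    have := mul_le_mul_of_nonneg_left htg hn1.le
    rw [hL] at hη1
    linarith
  have hlt : tauVal u g ≤ 1 / ((n : ℝ) - 1) := by
    rw [le_div_iff₀ hn1]
    have : 0 ≤ η * (2 * (2 * n * K + n) + 1) := by positivity
    linarith
  have h1lt : tauVal u g < 1 := lt_of_le_of_lt hlt (by rw [div_lt_one hn1]; linarith)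
  obtain ⟨z, hsupp, hf1, hZ, hzero⟩ := hex h1lt
  have hτ : 0 < tauVal u g := by
    refine hg0.lt_of_ne fun he => ?_
    rw [← he] at hzero
    simp only [rForm, hf1] at hzero
    have := hker n N u hn hu g hgp z hsupp hf1 (by simpa using hzero)
    simp [this, varForm, form1] at hZ
  have Cr : Crit u η (tauVal u g) g z :=
    { dim := hn, gen := hu, geo := G, eta := hη.le, prop := hgp, tau := rfl
      le_all := fun h hh => (htau n N u hn hu h hh).2.2.1
      min := hmin, f1 := hf1, zero := hzero }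
  have hb := Cr.tau_bound hP hcurve hHR hτ hlt hZ hK ?_
  · linarith
  · intro i
    have h1 := hCb g hgp.1 i
    have h2 : ballSupp u i ≤ ∑ j, ballSupp u j :=
      single_le_sum (fun j _ => hw j) (Finset.mem_univ i)
    have h3 := mul_le_mul h2 h1 (G.vol_pos g hgp.1).le (sum_nonneg fun j _ => hw j)
    rw [hKd]
    linarith

end Vale.Agent.P227.LpN
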