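import Vale.Agent.P227.LpN.Attain
import Vale.Agent.P227.LpN.Global
import Vale.Agent.P227.LpN.HR
import Vale.Agent.P227.LpN.Poly
import Vale.Agent.P227.LpN.Strict
import Vale.Agent.P227.LpN.Slab
import Vale.Agent.P227.LpN.Sym
import Vale.Agent.P227.LpN.Concave
import Vale.Agent.P227.LpN.Variation
import Vale.Agent.P227.LpN.VarHR

namespace Vale.Agent.P227.LpN

theorem main_of_cells (hC : CellSpec) (hU : CurveSpec) : MainSpec := by
  have hsym := symSpec slabSpec
  have htau := tauSpec hsym
  have hpen := penaltySpec hsym
  have hHR := hrSpec slabSpec polySpec hC (strictSpec slabSpec polySpec hC afSpec)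
    (approxSpec polySpec) openSpec
  exact mainSpec hsym (lowerSpec hsym polySpec hU
    (Var.hrSymSpec hsym slabSpec polySpec hC hHR) htau hpen (attainSpec hsym htau hpen)
    (kernelSpec hsym htau))

end Vale.Agent.P227.LpN
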