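import Vale.Agent.P227.LpN.Raise
import Vale.Agent.P227.LpN.Lsc

/-!
# The penalised minimum is attained at a proper point

Both `tauVal` and the penalty are scale invariant. At volume one the penalty bounds the areas, so
the support numbers are bounded below and the body above; pairs far outside are clipped.
-/

namespace Vale.Agent.P227.LpN

open MeasureTheory Set Filter Finset Matrix
open scoped Topology

set_option linter.unusedSectionVars false

namespace Port

variable {n N : ℕ} [NeZero n] {u : Fin N → Vec n} {g h : Fin N → ℝ}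

lemma rForm_hom (hg : SymFacts u) (hn : 2 ≤ n) (hh : Pos h) {c : ℝ} (hc : 0 < c) (τ : ℝ)
    (z : Fin N → ℝ) : rForm u τ (c • h) z = c ^ (n - 2) * rForm u τ h z := by
  obtain ⟨m, rfl⟩ : ∃ m, n = m + 2 := ⟨n - 2, by omega⟩
  simp only [Nat.add_sub_cancel]
  have e1 : form1 u (c • h) z = c ^ (m + 1) * form1 u h z := by
    simp only [form1, Finset.mul_sum]
    exact Finset.sum_congr rfl fun i _ => by
      rw [hg.area_hom h hh c hc i, show m + 2 - 1 = m + 1 from rfl]; ring
  have e2 : form2 u (c • h) z z = c ^ m * form2 u h z z := by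
    simp only [form2, Finset.mul_sum]
    exact Finset.sum_congr rfl fun i _ => Finset.sum_congr rfl fun j _ => by
      rw [hg.hess_hom h hh c hc i j, Nat.add_sub_cancel]; ring
  have e3 : ∑ i, sarea u (c • h) i * z i ^ 2 / (c • h) i =
      c ^ m * ∑ i, sarea u h i * z i ^ 2 / h i := by
    simp only [Finset.mul_sum]
    refine Finset.sum_congr rfl fun i _ => ?_
    rw [hg.area_hom h hh c hc i, show m + 2 - 1 = m + 1 from rfl]
    have := (hh i).ne'
    simp only [Pi.smul_apply, smul_eq_mul, pow_succ]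
    field_simp
  have := (hg.vol_pos h hh).ne'
  simp only [rForm, varForm, e1, e2, e3, hg.vol_hom h hh c hc]
  field_simp
  ring

lemma tauVal_hom (hg : SymFacts u) (hn : 2 ≤ n) (hh : Pos h) {c : ℝ} (hc : 0 < c) :
    tauVal u (c • h) = tauVal u h := by
  unfold tauVal
  congr 1
  ext τ
  simp only [Set.mem_ofPred_eq, rForm_hom hg hn hh hc]
  constructor <;> rintro ⟨a, b, f⟩ <;> refine ⟨a, b, fun z => ?_⟩
  · exact nonpos_of_mul_nonpos_right (f z) (pow_pos hc _)
  · exact mul_nonpos_of_nonneg_of_nonpos (pow_pos hc _).le (f z)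

lemma penalty_hom (hg : SymFacts u) (hu : GenPos u) (hn : 1 ≤ n) (hh : Pos h) {c : ℝ}
    (hc : 0 < c) : penalty u (c • h) = penalty u h := by
  have e : surf u (c • h) = c ^ (n - 1) * surf u h := by
    simp only [surf, form1, Finset.mul_sum]
    exact Finset.sum_congr rfl fun i _ => by rw [hg.area_hom h hh c hc i]; ring
  simp only [penalty, e, hg.vol_hom h hh c hc]
  rw [Real.log_mul (pow_ne_zero _ hc.ne') (surf_pos hg hu hn hh).ne',
    Real.log_mul (pow_ne_zero _ hc.ne') (hg.vol_pos h hh).ne', Real.log_pow, Real.log_pow,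
    Nat.cast_sub hn]
  have : (n : ℝ) ≠ 0 := Nat.cast_ne_zero.2 (NeZero.ne n)
  field_simp
  push_cast
  ring

/-- The body contains a small cube, so its volume bounds its coordinates. -/
lemma coord_le_vol (hu : GenPos u) (h : Fin N → ℝ) {ρ : ℝ} (hρ : 0 ≤ ρ)
    (hcube : ∀ i, ρ * ∑ a, |u i a| ≤ h i) {x : Vec n} (hx : x ∈ sbody u h) (a : Fin n) :
    ρ ^ (n - 1) * |x a| ≤ svol u h := by
  classical
  set M : Matrix (Fin n) (Fin n) ℝ :=
    ((ρ / 2) • (1 : Matrix (Fin n) (Fin n) ℝ)).updateCol a fun i => x i / 2 with hM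
  have hdet : M.det = (ρ / 2) ^ (n - 1) * (x a / 2) := by
    rw [hM, ← Matrix.cramer_apply, Matrix.cramer_eq_adjugate_mulVec, Matrix.adjugate_smul,
      Matrix.adjugate_one, Matrix.smul_mulVec, Matrix.one_mulVec, Fintype.card_fin]
    rfl
  set Q : Set (Vec n) := Set.Icc (fun _ => (-1 : ℝ)) (fun _ => 1) with hQ
  have hQv : volume Q = ENNReal.ofReal (2 ^ n) := by
    rw [hQ, Real.volume_Icc_pi, ← ENNReal.ofReal_prod_of_nonneg fun _ _ => by norm_num]
    norm_num
  have hsub : Matrix.toLin' M '' Q ⊆ sbody u h := by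
    rintro _ ⟨y, hy, rfl⟩ i
    have hy' : ∀ b, |y b| ≤ 1 := fun b => abs_le.2 ⟨hy.1 b, hy.2 b⟩
    have e : Matrix.toLin' M y = (y a / 2) • x + (ρ / 2) • Function.update y a 0 := by
      funext j
      simp only [Matrix.toLin'_apply, Matrix.mulVec, dotProduct, hM, Matrix.updateCol_apply,
        Pi.add_apply, Pi.smul_apply, smul_eq_mul, Matrix.smul_apply, Matrix.one_apply]
      rw [← Finset.add_sum_erase _ _ (Finset.mem_univ a)]
      rw [if_pos rfl]
      by_cases hj : j = a
      · subst hj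
        rw [Finset.sum_eq_zero fun b hb => by
          simp [Finset.ne_of_mem_erase hb, (Finset.ne_of_mem_erase hb).symm], Function.update_self]
        ring
      · rw [Finset.sum_eq_single j (fun b hb hbj => by
          simp [Finset.ne_of_mem_erase hb, hbj.symm]) fun h' => absurd (by simp [hj]) h']
        rw [if_neg hj, Function.update_of_ne hj]
        simp
        ring
    rw [e, add_dotProduct, smul_dotProduct, smul_dotProduct, smul_eq_mul, smul_eq_mul]
    refine (abs_add_le _ _).trans ?_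
    have h1 : |y a / 2 * (x ⬝ᵥ u i)| ≤ h i / 2 := by
      rw [div_mul_eq_mul_div, abs_div, abs_mul, abs_two]
      have := mul_le_mul (hy' a) (hx i) (abs_nonneg _) zero_le_one
      linarith
    have h2 : |Function.update y a 0 ⬝ᵥ u i| ≤ ∑ b, |u i b| := by
      refine (Finset.abs_sum_le_sum_abs _ _).trans (Finset.sum_le_sum fun b _ => ?_)
      by_cases hb : b = a
      · simp [hb]
      · rw [Function.update_of_ne hb, abs_mul]
        exact mul_le_of_le_one_left (abs_nonneg _) (hy' b)
    have h3 : |ρ / 2 * (Function.update y a 0 ⬝ᵥ u i)| ≤ h i / 2 := by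
      rw [abs_mul, abs_of_nonneg (by positivity : (0:ℝ) ≤ ρ / 2)]
      calc _ ≤ ρ / 2 * ∑ b, |u i b| := mul_le_mul_of_nonneg_left h2 (by positivity)
        _ = (ρ * ∑ b, |u i b|) / 2 := by ring
        _ ≤ _ := by linarith [hcube i]
    linarith
  have hle := measure_mono (μ := (volume : Measure (Vec n))) hsub
  rw [Measure.addHaar_image_linearMap, LinearMap.det_toLin', hQv,
    ← ENNReal.ofReal_mul (abs_nonneg _)] at hle
  have h4 := ENNReal.toReal_mono (isCompact_body hu h).measure_lt_top.ne hle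
  rw [ENNReal.toReal_ofReal (by positivity)] at h4
  rw [svol_def]
  refine le_trans (le_of_eq ?_) h4
  obtain ⟨m, rfl⟩ : ∃ m, n = m + 1 := ⟨n - 1, by have := NeZero.pos n; omega⟩
  rw [hdet, Nat.add_sub_cancel, abs_mul, abs_pow, abs_div, abs_div, abs_of_nonneg hρ, abs_two,
    pow_succ]
  field_simp
  rw [mul_assoc, ← mul_pow, div_mul_cancel₀ _ (two_ne_zero' ℝ)]
  ring

/-- At volume one and bounded penalty a clipped copy lives in a fixed box. -/
lemma exists_box (hg : SymFacts u) (hu : GenPos u) (hn : 1 ≤ n) (P0 : ℝ) :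
    ∃ r > (0 : ℝ), ∃ R : ℝ, r ≤ R ∧ ∀ h, Pos h → svol u h = 1 → penalty u h ≤ P0 →
      ∃ g : Fin N → ℝ, g ∈ Set.Icc (fun _ => r) (fun _ => R) ∧ Raised u g h := by
  obtain ⟨C, hC, hsurf⟩ := hg.vol_le_surf
  set r₁ := 1 / (C * Real.exp P0) with hr₁
  have hr₁0 : 0 < r₁ := by positivity
  set U := ∑ i, ∑ a, |u i a| with hU
  have hU0 : 0 ≤ U := by positivity
  set ρ := r₁ / (U + 1) with hρ
  have hρ0 : 0 < ρ := by positivity
  set R := U / ρ ^ (n - 1) + 1 with hR
  refine ⟨min r₁ R, lt_min hr₁0 (by positivity), R, min_le_right _ _, fun h hh hV hP => ?_⟩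
  have hs : surf u h ≤ Real.exp P0 := by
    rw [penalty, hV, Real.log_one, mul_zero] at hP
    exact (Real.log_le_iff_le_exp (surf_pos hg hu hn hh)).1 (by linarith)
  have hlow : ∀ i, r₁ ≤ h i := fun i => by
    rw [hr₁, div_le_iff₀ (by positivity)]
    calc (1:ℝ) = svol u h := hV.symm
      _ ≤ C * h i * surf u h := hsurf h hh i
      _ ≤ C * h i * Real.exp P0 := mul_le_mul_of_nonneg_left hs (mul_nonneg hC.le (hh i).le)
      _ = _ := by ring
  have hcube : ∀ i, ρ * ∑ a, |u i a| ≤ h i := fun i => by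
    refine le_trans ?_ (hlow i)
    rw [hρ, div_mul_eq_mul_div, div_le_iff₀ (by positivity)]
    refine mul_le_mul_of_nonneg_left ?_ hr₁0.le
    have := Finset.single_le_sum (f := fun i => ∑ a, |u i a|)
      (fun j _ => Finset.sum_nonneg fun a _ => abs_nonneg _) (mem_univ i)
    linarith
  have hbd : ∀ x ∈ sbody u h, ∀ i, |x ⬝ᵥ u i| < R := fun x hx i => by
    have hxa : ∀ a, |x a| ≤ 1 / ρ ^ (n - 1) := fun a => by
      rw [le_div_iff₀ (by positivity), mul_comm, ← hV]
      exact coord_le_vol hu h hρ0.le hcube hx a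
    calc |x ⬝ᵥ u i| ≤ ∑ a, |x a * u i a| := Finset.abs_sum_le_sum_abs _ _
      _ ≤ ∑ a, 1 / ρ ^ (n - 1) * |u i a| := Finset.sum_le_sum fun a _ => by
          rw [abs_mul]; exact mul_le_mul_of_nonneg_right (hxa a) (abs_nonneg _)
      _ = 1 / ρ ^ (n - 1) * ∑ a, |u i a| := (Finset.mul_sum _ _ _).symm
      _ ≤ 1 / ρ ^ (n - 1) * U := by
          refine mul_le_mul_of_nonneg_left ?_ (by positivity)
          exact Finset.single_le_sum (f := fun i => ∑ a, |u i a|)
            (fun j _ => Finset.sum_nonneg fun a _ => abs_nonneg _) (mem_univ i)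
      _ < R := by rw [hR, one_div_mul_eq_div]; linarith
  set g : Fin N → ℝ := fun i => min (h i) R with hgdef
  have hRpos : 0 < R := by positivity
  have hgp : Pos g := fun i => lt_min (hh i) hRpos
  refine ⟨g, ⟨fun i => ?_, fun i => min_le_right _ _⟩, fun i => ?_⟩
  · exact le_min ((min_le_left _ _).trans (hlow i)) (min_le_right _ _)
  · rcases le_or_gt (h i) R with hi | hi
    · exact Or.inl (min_eq_left hi).symm
    · refine Or.inr ⟨min_le_left _ _, hg.area_zero_of_slack g hgp i fun x hx => ?_⟩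
      rw [body_dbl] at hx
      have := hbd x (body_mono (fun l => min_le_left _ _) hx) i
      simpa [hgdef, min_eq_right hi.le] using this

end Port

open Port

/-- `AttainSpec`. -/
theorem attainSpec (hS : SymSpec) (hT : TauSpec) (hP : PenaltySpec) : AttainSpec := by
  intro n N u hn hu η hη
  have : NeZero n := ⟨by omega⟩
  have hn0 : (n : ℝ) ≠ 0 := Nat.cast_ne_zero.2 (NeZero.ne n)
  have hn1 : 1 ≤ n := by omega
  have hg := hS n N u hn hu
  obtain ⟨m, hm⟩ := hP n N u hn hu
  set Φ : (Fin N → ℝ) → ℝ := fun h => tauVal u h + η * penalty u h with hΦ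
  have h1p : Pos (fun _ : Fin N => (1 : ℝ)) := fun _ => one_pos
  set P0 := Φ (fun _ => 1) / η with hP0
  obtain ⟨r, hr, R, hrR, hbox⟩ := exists_box hg hu hn1 P0
  set B := Set.Icc (fun _ : Fin N => r) (fun _ => R) with hBdef
  have hBpos : B ⊆ {h | Pos h} := fun h hh i => lt_of_lt_of_le hr (hh.1 i)
  -- every good point has a copy in the box
  have hcopy : ∀ h, Pos h → Φ h ≤ Φ (fun _ => 1) → ∃ g ∈ B, Φ g = Φ h := by
    intro h hh hle
    have hV := hg.vol_pos h hh
    set c := svol u h ^ (-(1:ℝ) / n) with hc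
    have hc0 : 0 < c := Real.rpow_pos_of_pos hV _
    have hch : Pos (c • h) := fun i => by
      simp only [Pi.smul_apply, smul_eq_mul]; exact mul_pos hc0 (hh i)
    have hv1 : svol u (c • h) = 1 := by
      rw [hg.vol_hom h hh c hc0, hc, ← Real.rpow_natCast _ n, ← Real.rpow_mul hV.le,
        div_mul_cancel₀ _ hn0, Real.rpow_neg_one, inv_mul_cancel₀ hV.ne']
    have hp : penalty u (c • h) ≤ P0 := by
      rw [penalty_hom hg hu hn1 hh hc0, hP0, le_div_iff₀ hη]
      have h0 := (hT n N u hn hu h hh).1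
      simp only [hΦ] at hle ⊢
      linarith
    obtain ⟨g, hgB, hgr⟩ := hbox _ hch hv1 hp
    refine ⟨g, hgB, ?_⟩
    simp only [hΦ]
    rw [← raised_tauVal_eq hgr hg hu (hBpos hgB), ← (raised_penalty_eq hgr) hg (hBpos hgB),
      tauVal_hom hg (by omega) hh hc0, penalty_hom hg hu hn1 hh hc0]
  obtain ⟨g1, hg1B, hg1⟩ := hcopy _ h1p le_rfl
  have hpc : ContinuousOn (fun h => η * penalty u h) B := by
    have hs : ContinuousOn (fun h => surf u h) B := by
      show ContinuousOn (fun h => ∑ i, sarea u h i * ballSupp u i) B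
      exact continuousOn_finsetSum _ fun i _ =>
        ((hg.area_cont i).mono hBpos).mul continuousOn_const
    refine continuousOn_const.mul ?_
    show ContinuousOn (fun h => Real.log (surf u h) - ((n : ℝ) - 1) / n * Real.log (svol u h)) B
    exact (hs.log fun h hh => (surf_pos hg hu hn1 (hBpos hh)).ne').sub
      (continuousOn_const.mul ((hg.vol_cont.mono hBpos).log fun h hh => (hg.vol_pos h (hBpos hh)).ne'))
  have hτl : LowerSemicontinuousOn (tauVal u) B := fun x hx y hy =>
    ((lowerSemicontinuousOn_tauVal hg hT hn hu) x (hBpos hx) y hy).filter_mono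
      (nhdsWithin_mono x hBpos)
  have hlsc : LowerSemicontinuousOn Φ B := hτl.add hpc.lowerSemicontinuousOn
  obtain ⟨g, hgB, hmin⟩ := hlsc.exists_isMinOn ⟨g1, hg1B⟩ isCompact_Icc
  have hgpos : Pos g := hBpos hgB
  set gR : Fin N → ℝ := fun i => if sarea u g i = 0 then g i + 1 else g i with hgR
  have hra : Raised u g gR := fun i => by
    by_cases hi : sarea u g i = 0
    · exact Or.inr ⟨by simp [hgR, hi], hi⟩
    · exact Or.inl (by simp [hgR, hi])
  refine ⟨gR, ⟨(raised_pos hra) hgpos, fun i => ?_⟩, fun h hh => ?_⟩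
  · by_cases hi : sarea u g i = 0
    · exact Or.inr (raised_slack hra hg hu hgpos (by simp [hgR, hi]))
    · exact Or.inl (by
        rw [(raised_area_eq hra) hg hgpos]
        exact lt_of_le_of_ne (hg.area_nonneg g hgpos i) (Ne.symm hi))
  · rw [raised_tauVal_eq hra hg hu hgpos, (raised_penalty_eq hra) hg hgpos]
    by_cases hle : Φ h ≤ Φ (fun _ => 1)
    · obtain ⟨g', hg'B, hg'⟩ := hcopy h hh hle
      calc tauVal u g + η * penalty u g = Φ g := rfl
        _ ≤ Φ g' := hmin hg'B
        _ = Φ h := hg'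
    · push Not at hle
      have : Φ g ≤ Φ g1 := hmin hg1B
      have e : Φ g = tauVal u g + η * penalty u g := rfl
      have e' : Φ h = tauVal u h + η * penalty u h := rfl
      linarith

end Vale.Agent.P227.LpN
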