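import Vale.Agent.P227.LpN.Cells.Path

/-!
# P227 `LpN`: chambers, walls and parabolas
-/

namespace Vale.Agent.P227.LpN

open Cells

/-- Chambers and walls. -/
theorem cellSpec (hS : SlabSpec) : CellSpec := by
  refine ⟨fun n N u hn hu => ⟨fun b hb => ⟨eventually_simple hu hb, local_poly hS hn hu hb⟩,
    fun b lam hw => ⟨wall_Lam hw, wall_neg hw, wall_eventually_simple hu hw, wall_hasInt hu hw, ?_⟩,
    fun b hb => simple_hasInt hu hb, fun b _ he => eventually_empty hu he,
    fun b lam PA hw hA => ⟨kill_zero hw hA, fun a => kill_one hu hw hA,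
      fun a a' => kill_two hu hw hA, fun h3 => hess_side hS h3 hu hw hA⟩,
    fun a b ha hb ε hε => path hu a b ha hb ε hε, exists_empty hn hu⟩,
    fun n N u _ hu b => ⟨fun hb σ => facet_simple hu hb σ, fun lam hw =>
      ⟨fun σ hσ => facet_off_wall hu hw hσ, fun σ hσ => ⟨facet_wall hu hw hσ,
        Lam_lamF hu hw.2.1 hσ, card_posF hw.2.1 hσ, card_negF hw.2.1 hσ⟩⟩⟩⟩
  obtain ⟨PA, hA⟩ := wall_side hS hn hu hw
  obtain ⟨PB, hB⟩ := wall_side hS hn hu (wall_neg hw)
  obtain ⟨c, hc⟩ := jump hS hn hu hw hA hB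
  exact ⟨PA, PB, c, hA, hB, hc⟩

/-- To the right of the start of a parabola one polynomial serves. -/
theorem curveSpec (hS : SlabSpec) : CurveSpec := fun _ _ _ hn hu h z c hh =>
  curve hS hn hu h z c hh

end Vale.Agent.P227.LpN
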