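import Mathlib

/-!
# P227, `L_p` Brunn–Minkowski in every dimension for `p ≥ (n-2)/(n-1)`: objects

Slab bodies `{x | -b (i,false) ≤ x ⬝ᵥ u i ≤ b (i,true)}` with independent bounds on the two sides:
the class is closed under taking facets. `Sd N` indexes the sides. The symmetric layer uses
`dbl h`. See `notes/P227_N4_helper31/PLAN.md`.
-/

namespace Vale.Agent.P227.LpN

open MeasureTheory Set Filter Finset Matrix
open scoped Topology

/-- Points of `ℝ^n`. -/
abbrev Vec (n : ℕ) := Fin n → ℝ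

/-- Sides of the slabs. -/
abbrev Sd (N : ℕ) := Fin N × Bool

/-- The sign of a side. -/
def sgn (s : Bool) : ℝ := if s then 1 else -1

variable {n N : ℕ}

/-- The outer normal of a side. -/
def nrm (u : Fin N → Vec n) (σ : Sd N) : Vec n := sgn σ.2 • u σ.1

/-- More normals than dimensions, any `n` of them independent. -/
def GenPos (u : Fin N → Vec n) : Prop :=
  n < N ∧ ∀ e : Fin n ↪ Fin N, LinearIndependent ℝ (fun k => u (e k))

/-- Every slab has positive width. -/
def Width (b : Sd N → ℝ) : Prop := ∀ i, 0 < b (i, true) + b (i, false)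

/-- The slab body. -/
def body (u : Fin N → Vec n) (b : Sd N → ℝ) : Set (Vec n) := {x | ∀ σ, x ⬝ᵥ nrm u σ ≤ b σ}

/-- Its volume. -/
noncomputable def vol (u : Fin N → Vec n) (b : Sd N → ℝ) : ℝ := (volume (body u b)).toReal

/-- `∂ vol / ∂ b σ`. -/
noncomputable def area (u : Fin N → Vec n) (b : Sd N → ℝ) (σ : Sd N) : ℝ :=
  deriv (fun s => vol u (Function.update b σ s)) (b σ)

/-- The second derivatives. -/
noncomputable def hess (u : Fin N → Vec n) (b : Sd N → ℝ) (σ τ : Sd N) : ℝ :=
  deriv (fun s => area u (Function.update b τ s) σ) (b τ)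

/-- The third derivatives (used for `4 ≤ n`). -/
noncomputable def d3 (u : Fin N → Vec n) (b : Sd N → ℝ) (σ τ ρ : Sd N) : ℝ :=
  deriv (fun s => hess u (Function.update b ρ s) σ τ) (b ρ)

/-- The effect of translating the body by `a`. -/
def transl (u : Fin N → Vec n) (a : Vec n) (σ : Sd N) : ℝ := a ⬝ᵥ nrm u σ

/-- The effect of the reflection `x ↦ -x`. -/
def flipB (b : Sd N → ℝ) (σ : Sd N) : ℝ := b (σ.1, !σ.2)

/-! ### Facets -/

open Classical in
/-- A coordinate in which `v` does not vanish. -/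
noncomputable def pivot (v : Vec (n + 1)) : Fin (n + 1) :=
  if hv : ∃ j, v j ≠ 0 then hv.choose else 0

/-- `u i` on the hyperplane of `l`, whose coordinates are those other than `pivot (u l)`. -/
noncomputable def fCoef (u : Fin (N + 1) → Vec (n + 1)) (l i : Fin (N + 1)) : ℝ :=
  u i (pivot (u l)) / u l (pivot (u l))

/-- The normals of the facets of the slab `l`. -/
noncomputable def fNormals (u : Fin (N + 1) → Vec (n + 1)) (l : Fin (N + 1)) : Fin N → Vec n :=
  fun i k => u (l.succAbove i) ((pivot (u l)).succAbove k)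
    - fCoef u l (l.succAbove i) * u l ((pivot (u l)).succAbove k)

/-- The bounds of the facet `σ`. -/
noncomputable def fMap (u : Fin (N + 1) → Vec (n + 1)) (σ : Sd (N + 1)) :
    (Sd (N + 1) → ℝ) →ₗ[ℝ] (Sd N → ℝ) where
  toFun b τ := b (σ.1.succAbove τ.1, τ.2)
    - sgn τ.2 * fCoef u σ.1 (σ.1.succAbove τ.1) * (sgn σ.2 * b σ)
  map_add' a b := by funext τ; simp only [Pi.add_apply]; ring
  map_smul' c b := by funext τ; simp only [Pi.smul_apply, smul_eq_mul, RingHom.id_apply]; ring

/-- The Jacobian of the facet coordinates. -/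
noncomputable def fJac (u : Fin (N + 1) → Vec (n + 1)) (l : Fin (N + 1)) : ℝ :=
  |u l (pivot (u l))|⁻¹

/-! ### Simple bodies and walls -/

open Classical in
/-- The sides tight at `x`. -/
noncomputable def tight (u : Fin N → Vec n) (b : Sd N → ℝ) (x : Vec n) : Finset (Sd N) :=
  Finset.univ.filter fun σ => x ⬝ᵥ nrm u σ = b σ

/-- No point of the body has more than `n` tight sides. -/
def Simple (u : Fin N → Vec n) (b : Sd N → ℝ) : Prop :=
  Width b ∧ ∀ x ∈ body u b, (tight u b x).card ≤ n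

/-- The nonempty interior. -/
def HasInt (u : Fin N → Vec n) (b : Sd N → ℝ) : Prop := ∃ x, ∀ σ, x ⬝ᵥ nrm u σ < b σ

/-- The value of a linear form. -/
def Lam (lam b : Sd N → ℝ) : ℝ := ∑ σ, lam σ * b σ

open Classical in
/-- The support. -/
noncomputable def supp (lam : Sd N → ℝ) : Finset (Sd N) := Finset.univ.filter fun σ => lam σ ≠ 0

open Classical in
/-- Where it is positive. -/
noncomputable def posSet (lam : Sd N → ℝ) : Finset (Sd N) := Finset.univ.filter fun σ => 0 < lam σ

/-- A relation among `n + 1` normals from different slabs. -/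
def Circuit (u : Fin N → Vec n) (lam : Sd N → ℝ) : Prop :=
  (supp lam).card = n + 1 ∧ Set.InjOn Prod.fst (↑(supp lam) : Set (Sd N)) ∧
    ∑ σ, lam σ • nrm u σ = 0

/-- The only fault of the body is one point whose tight sides form the circuit. -/
def Wall (u : Fin N → Vec n) (b lam : Sd N → ℝ) : Prop :=
  Width b ∧ Circuit u lam ∧ (∃ x ∈ body u b, tight u b x = supp lam) ∧
    ∀ x ∈ body u b, (tight u b x).card ≤ n ∨ tight u b x = supp lam

/-- The circuit seen in the facet `σ`. -/
def lamF (lam : Sd (N + 1) → ℝ) (σ : Sd (N + 1)) (τ : Sd N) : ℝ :=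
  lam (σ.1.succAbove τ.1, τ.2)

/-! ### Polynomials in the bounds -/

variable {ι : Type} [Fintype ι]

/-- Polynomials in variables `ι`. -/
abbrev Poly (ι : Type) := MvPolynomial ι ℝ

/-- Evaluation. -/
noncomputable def ev (y : ι → ℝ) (P : Poly ι) : ℝ := MvPolynomial.eval y P

/-- A directional derivative. -/
noncomputable def dv (v : ι → ℝ) (P : Poly ι) : Poly ι :=
  ∑ σ, v σ • MvPolynomial.pderiv σ P

/-- The derivative along a two tensor. -/
noncomputable def dq (q : ι → ι → ℝ) (P : Poly ι) : Poly ι :=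
  ∑ σ, ∑ τ, q σ τ • MvPolynomial.pderiv σ (MvPolynomial.pderiv τ P)

/-- Homogeneous of degree `m`, by Euler's identity. -/
def Hom (m : ℕ) (P : Poly ι) : Prop :=
  ∑ σ, MvPolynomial.X σ * MvPolynomial.pderiv σ P = (m : ℝ) • P

/-- The substitution of a linear map. -/
noncomputable def subst {κ : Type} [Fintype κ] [DecidableEq κ] (L : (κ → ℝ) →ₗ[ℝ] (ι → ℝ))
    (P : Poly ι) : Poly κ :=
  MvPolynomial.bind₁ (fun τ => ∑ σ : κ, L (Pi.single σ 1) τ • MvPolynomial.X σ) P

/-- The linear form as a polynomial. -/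
noncomputable def lamPoly (lam : ι → ℝ) : Poly ι := ∑ σ, lam σ • MvPolynomial.X σ

/-- The second derivatives at a point, on two vectors. -/
noncomputable def hForm (y : ι → ℝ) (P : Poly ι) (v w : ι → ℝ) : ℝ := ev y (dv w (dv v P))

/-- A primitive two tensor. -/
def Prim (y : ι → ℝ) (P : Poly ι) (q : ι → ι → ℝ) : Prop :=
  ∀ σ, ev y (MvPolynomial.pderiv σ (dq q P)) = 0

/-- The form in degree two. -/
noncomputable def qForm (y : ι → ℝ) (P : Poly ι) (q r : ι → ι → ℝ) : ℝ := ev y (dq r (dq q P))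

/-- The Hodge–Riemann inequality in degree two. -/
def HR (y : ι → ℝ) (P : Poly ι) : Prop := ∀ q, Prim y P q → 0 ≤ qForm y P q q

/-- With its case of equality. -/
def HRStrict (y : ι → ℝ) (P : Poly ι) : Prop :=
  HR y P ∧ ∀ q, Prim y P q → qForm y P q q = 0 → dq q P = 0

/-- The kernel of the Hessian is trivial. -/
def Strict1 (y : ι → ℝ) (P : Poly ι) : Prop :=
  ∀ v, (∀ σ, ev y (MvPolynomial.pderiv σ (dv v P)) = 0) → dv v P = 0

/-- The polynomial is the volume near `b`. -/
def LocalPoly (u : Fin N → Vec n) (b : Sd N → ℝ) (P : Poly (Sd N)) : Prop :=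
  Hom n P ∧ ∀ᶠ y in 𝓝 b, vol u y = ev y P

/-- The polynomial is the volume near `b` on the positive side of the wall. -/
def AtSide (u : Fin N → Vec n) (b lam : Sd N → ℝ) (P : Poly (Sd N)) : Prop :=
  Hom n P ∧ ∀ᶠ y in 𝓝 b, 0 < Lam lam y → vol u y = ev y P

/-! ### The symmetric layer -/

/-- Equal bounds on both sides. -/
def dbl (h : Fin N → ℝ) (σ : Sd N) : ℝ := h σ.1

/-- Positive support numbers. -/
def Pos (h : Fin N → ℝ) : Prop := ∀ i, 0 < h i

/-- The volume of the symmetric body. -/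
noncomputable def svol (u : Fin N → Vec n) (h : Fin N → ℝ) : ℝ := vol u (dbl h)

/-- `∂ svol / ∂ h i`. -/
noncomputable def sarea (u : Fin N → Vec n) (h : Fin N → ℝ) (i : Fin N) : ℝ :=
  deriv (fun s => svol u (Function.update h i s)) (h i)

/-- The Hessian of `svol`. -/
noncomputable def shess (u : Fin N → Vec n) (h : Fin N → ℝ) (i j : Fin N) : ℝ :=
  deriv (fun s => sarea u (Function.update h j s) i) (h j)

/-- Its derivatives. -/
noncomputable def sd3 (u : Fin N → Vec n) (h : Fin N → ℝ) (i j k : Fin N) : ℝ :=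
  deriv (fun s => shess u (Function.update h k s) i j) (h k)

/-- A pair is strictly slack on the body. -/
def Slack (u : Fin N → Vec n) (h : Fin N → ℝ) (i : Fin N) : Prop :=
  ∀ x ∈ body u (dbl h), |x ⬝ᵥ u i| < h i

/-- Every pair carries area or is strictly slack. -/
def Proper (u : Fin N → Vec n) (h : Fin N → ℝ) : Prop :=
  Pos h ∧ ∀ i, 0 < sarea u h i ∨ Slack u h i

/-- `h'` raises only pairs without area. -/
def Raised (u : Fin N → Vec n) (h h' : Fin N → ℝ) : Prop :=
  ∀ i, h' i = h i ∨ (h i ≤ h' i ∧ sarea u h i = 0)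

/-- `DV(h)[z]`. -/
noncomputable def form1 (u : Fin N → Vec n) (h z : Fin N → ℝ) : ℝ := ∑ i, sarea u h i * z i

/-- `D²V(h)[a, b]`. -/
noncomputable def form2 (u : Fin N → Vec n) (h a b : Fin N → ℝ) : ℝ :=
  ∑ i, ∑ j, shess u h i j * a i * b j

/-- `Var (z / h)`. -/
noncomputable def varForm (u : Fin N → Vec n) (h z : Fin N → ℝ) : ℝ :=
  ∑ i, sarea u h i * z i ^ 2 / h i - form1 u h z ^ 2 / (n * svol u h)

/-- The form `R_τ`; `R_{1-p} ≤ 0` is the local `L_p` inequality. -/
noncomputable def rForm (u : Fin N → Vec n) (τ : ℝ) (h z : Fin N → ℝ) : ℝ :=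
  form2 u h z z - ((n : ℝ) - 1) * form1 u h z ^ 2 / (n * svol u h) + τ * varForm u h z

/-- The best `τ ≤ 1` at `h`. -/
noncomputable def tauVal (u : Fin N → Vec n) (h : Fin N → ℝ) : ℝ :=
  sSup {τ : ℝ | 0 ≤ τ ∧ τ ≤ 1 ∧ ∀ z, rForm u τ h z ≤ 0}

/-- Support numbers of the unit ball. -/
noncomputable def ballSupp (u : Fin N → Vec n) (i : Fin N) : ℝ := Real.sqrt (u i ⬝ᵥ u i)

/-- The surface area. -/
noncomputable def surf (u : Fin N → Vec n) (h : Fin N → ℝ) : ℝ := form1 u h (ballSupp u)

/-- The scale invariant penalty. -/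
noncomputable def penalty (u : Fin N → Vec n) (h : Fin N → ℝ) : ℝ :=
  Real.log (surf u h) - ((n : ℝ) - 1) / n * Real.log (svol u h)

/-! ### The statement -/

/-- An origin-symmetric convex body. -/
def IsSymBody (K : Set (Vec n)) : Prop :=
  IsCompact K ∧ Convex ℝ K ∧ (interior K).Nonempty ∧ ∀ x ∈ K, -x ∈ K

/-- The support function. -/
noncomputable def supportFn (K : Set (Vec n)) (v : Vec n) : ℝ := sSup ((fun x => x ⬝ᵥ v) '' K)

/-- The Wulff body of the `p`-mean of the two support functions on the sphere. -/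
noncomputable def lpSum (p t : ℝ) (K L : Set (Vec n)) : Set (Vec n) :=
  {x | ∀ v : Vec n, v ⬝ᵥ v = 1 →
    x ⬝ᵥ v ≤ ((1 - t) * supportFn K v ^ p + t * supportFn L v ^ p) ^ (1 / p)}

end Vale.Agent.P227.LpN
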