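import Vale.Agent.P227.LpN.Spec

/-!
`KernelSpec`: no nonzero perturbation attains equality in the Brunn–Minkowski second variation.
If `z` did, then along `h + t z` the deficit `∑ g (A - A(t)) ≥ 0` would be bounded by `t` times its
own supremum, so all areas and the volume stay constant until a support number vanishes.
-/

namespace Vale.Agent.P227.LpN

open Filter Finset Set Matrix
open scoped Topology

variable {n N : ℕ} {u : Fin N → Vec n}

namespace Kernel

lemma isOpen_pos : IsOpen {h : Fin N → ℝ | Pos h} := by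
  have e : {h : Fin N → ℝ | Pos h} = ⋂ i, {h | 0 < h i} := by ext; simp [Pos]
  rw [e]
  exact isOpen_iInter_of_finite fun i => isOpen_lt continuous_const (continuous_apply i)

lemma pos_mem_nhds {h : Fin N → ℝ} (hh : Pos h) : {h : Fin N → ℝ | Pos h} ∈ 𝓝 h :=
  isOpen_pos.mem_nhds hh

lemma hasDerivAt_line (h z : Fin N → ℝ) (s : ℝ) : HasDerivAt (fun t : ℝ => h + t • z) z s := by
  simpa using ((hasDerivAt_id s).smul_const z).const_add h

lemma vol_line (G : SymFacts u) {h z : Fin N → ℝ} {s : ℝ} (hs : Pos (h + s • z)) :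
    HasDerivAt (fun t => svol u (h + t • z)) (form1 u (h + s • z) z) s := by
  have := (G.vol_fderiv _ hs).comp_hasDerivAt s (hasDerivAt_line h z s)
  simpa [form1, _root_.sum_apply, Function.comp_def] using this

lemma area_line (G : SymFacts u) {h z : Fin N → ℝ} {s : ℝ} (hs : Pos (h + s • z)) (i : Fin N) :
    HasDerivAt (fun t => sarea u (h + t • z) i) (∑ j, shess u (h + s • z) i j * z j) s := by
  have := (G.area_fderiv _ hs i).comp_hasDerivAt s (hasDerivAt_line h z s)
  simpa [_root_.sum_apply, Function.comp_def] using this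

lemma varForm_nonneg (G : SymFacts u) (hn : 0 < n) {h : Fin N → ℝ} (hh : Pos h) (z : Fin N → ℝ) :
    0 ≤ varForm u h z := by
  have hV := G.vol_pos h hh
  have hs : 0 < (n : ℝ) * svol u h := mul_pos (by exact_mod_cast hn) hV
  have := sum_sq_le_sum_mul_sum_of_sq_le_mul (Finset.univ : Finset (Fin N))
    (f := fun i => sarea u h i * h i) (g := fun i => sarea u h i * z i ^ 2 / h i)
    (r := fun i => sarea u h i * z i) (fun i _ => mul_nonneg (G.area_nonneg h hh i) (hh i).le)
    (fun i _ => div_nonneg (mul_nonneg (G.area_nonneg h hh i) (sq_nonneg _)) (hh i).le)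
    (fun i _ => le_of_eq (by have := (hh i).ne'; field_simp))
  rw [G.euler_vol h hh] at this
  rw [varForm, form1, sub_nonneg, div_le_iff₀ hs]
  linarith

/-- A critical point of a concave function is a maximum. -/
lemma concave_le_of_deriv_zero {E : Type*} [AddCommGroup E] [Module ℝ E] {S : Set E} {F : E → ℝ}
    (hF : ConcaveOn ℝ S F) {x y : E} (hx : x ∈ S) (hy : y ∈ S)
    (hd : HasDerivAt (fun t : ℝ => F (x + t • (y - x))) 0 0) : F y ≤ F x := by
  have ht := (hasDerivAt_iff_tendsto_slope.1 hd).mono_left (nhdsGT_le_nhdsNE (0 : ℝ))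
  have key : F y - F x ≤ 0 := by
    refine ge_of_tendsto ht ?_
    filter_upwards [Ioo_mem_nhdsGT (show (0 : ℝ) < 1 by norm_num)] with t ht'
    have h := hF.2 hx hy (show 0 ≤ 1 - t by linarith [ht'.2]) ht'.1.le (by ring)
    rw [show (1 - t) • x + t • y = x + t • (y - x) by module] at h
    simp only [smul_eq_mul] at h
    rw [slope_def_field, sub_zero, zero_smul, add_zero, le_div_iff₀ ht'.1]
    linarith
  linarith

/-- With a stationary point every area is a maximum on the segment. -/
lemma area_le (G : SymFacts u) (hn : 4 ≤ n) {p z : Fin N → ℝ} (hp : Pos p) {i : Fin N}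
    (hA : 0 < sarea u p i) (hy : ∑ j, shess u p i j * z j = 0) {r : ℝ} (hq : Pos (p + r • z))
    (hqA : 0 < sarea u (p + r • z) i) : sarea u (p + r • z) i ≤ sarea u p i := by
  have hn' : (0 : ℝ) < 1 / ((n : ℝ) - 1) := by
    have : (4 : ℝ) ≤ n := by exact_mod_cast hn
    exact one_div_pos.2 (by linarith)
  refine (Real.rpow_le_rpow_iff hqA.le hA.le hn').1 ?_
  refine concave_le_of_deriv_zero (G.area_concave i) ⟨hp, hA⟩ ⟨hq, hqA⟩ ?_
  have e : ∀ t : ℝ, p + t • (p + r • z - p) = p + t • (r • z) := fun t => by module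
  simp only [e]
  have h0 : Pos (p + (0 : ℝ) • (r • z)) := by simpa using hp
  have hd := area_line G h0 i
  have e0 : ∑ j, shess u (p + (0 : ℝ) • (r • z)) i j * (r • z) j = 0 := by
    simp only [zero_smul, add_zero, Pi.smul_apply, smul_eq_mul]
    calc _ = r * ∑ j, shess u p i j * z j := by
            rw [Finset.mul_sum]; exact Finset.sum_congr rfl fun j _ => by ring
      _ = 0 := by rw [hy, mul_zero]
  rw [e0] at hd
  simpa using hd.rpow_const (Or.inl (by simpa using hA.ne'))

/-- Stationary areas at a proper point stay constant just to the right. -/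
lemma const_right (G : SymFacts u) (hn : 4 ≤ n) {p z : Fin N → ℝ} (hp : Pos p)
    (hy : ∀ i, ∑ j, shess u p i j * z j = 0) (h1 : form1 u p z = 0)
    (hz : ∀ i, sarea u p i = 0 → ∀ᶠ r : ℝ in 𝓝[>] 0, sarea u (p + r • z) i = 0) :
    ∀ᶠ r : ℝ in 𝓝[>] 0, ∀ i, sarea u (p + r • z) i = sarea u p i := by
  have hline : Tendsto (fun r : ℝ => p + r • z) (𝓝 0) (𝓝 p) :=
    (show Continuous fun r : ℝ => p + r • z by fun_prop).tendsto' 0 p (by simp)
  have hpos : ∀ᶠ r : ℝ in 𝓝 0, Pos (p + r • z) := hline.eventually (pos_mem_nhds hp)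
  have hle : ∀ᶠ r : ℝ in 𝓝[>] 0, ∀ i, sarea u (p + r • z) i ≤ sarea u p i := by
    refine eventually_all.2 fun i => ?_
    rcases (G.area_nonneg p hp i).eq_or_lt with hA | hA
    · filter_upwards [hz i hA.symm] with r hr
      rw [hr, ← hA]
    · have hc := ((G.area_cont i).continuousAt (pos_mem_nhds hp)).tendsto.comp hline
      filter_upwards [nhdsWithin_le_nhds hpos,
        nhdsWithin_le_nhds (hc.eventually_const_lt hA)] with r h1 h2 using
        area_le G hn hp hA (hy i) h1 h2
  obtain ⟨C, hC, hCb⟩ : ∃ C : ℝ, 0 ≤ C ∧ ∀ i, |z i| ≤ C * p i :=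
    ⟨∑ i, |z i| / p i, sum_nonneg fun i _ => div_nonneg (abs_nonneg _) (hp i).le, fun i => by
      have := single_le_sum (f := fun i => |z i| / p i)
        (fun j _ => div_nonneg (abs_nonneg _) (hp j).le) (mem_univ i)
      rwa [div_le_iff₀ (hp i)] at this⟩
  obtain ⟨e, he, hev⟩ := mem_nhdsGT_iff_exists_Ioo_subset.1
    (hle.and (nhdsWithin_le_nhds hpos))
  obtain ⟨a, ha, ha'⟩ : ∃ a : ℝ, 0 < a ∧ a < e ∧ a * ((n + 1) * C + 1) < 1 := by
    refine ⟨min (e / 2) (1 / (2 * ((n + 1) * C + 1))), lt_min (half_pos he) (by positivity),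
      (min_le_left _ _).trans_lt (half_lt_self he), ?_⟩
    have h0 : (0 : ℝ) < (n + 1) * C + 1 := by positivity
    refine lt_of_le_of_lt (mul_le_mul_of_nonneg_right (min_le_right _ _) h0.le) ?_
    rw [one_div, inv_mul_lt_iff₀ (by positivity)]
    linarith
  have hseg : ∀ r ∈ Set.Icc (0 : ℝ) a,
      Pos (p + r • z) ∧ ∀ i, sarea u (p + r • z) i ≤ sarea u p i := by
    intro r hr
    rcases hr.1.eq_or_lt with h | h
    · subst h; simp [hp]
    · exact ⟨(hev ⟨h, hr.2.trans_lt ha'.1⟩).2, (hev ⟨h, hr.2.trans_lt ha'.1⟩).1⟩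
  obtain ⟨D, hD⟩ : ∃ D : ℝ → ℝ,
      D = fun r => ∑ i, p i * (sarea u p i - sarea u (p + r • z) i) := ⟨_, rfl⟩
  have hDc : ContinuousOn D (Set.Icc 0 a) := by
    rw [hD]
    refine continuousOn_finsetSum _ fun i _ => continuousOn_const.mul
      (continuousOn_const.sub ((G.area_cont i).comp ?_ fun r hr => (hseg r hr).1))
    fun_prop
  obtain ⟨r₀, hr₀, hmax⟩ := isCompact_Icc.exists_isMaxOn (Set.nonempty_Icc.2 ha.le) hDc
  have hDnn : ∀ r ∈ Set.Icc (0 : ℝ) a, ∀ i, 0 ≤ p i * (sarea u p i - sarea u (p + r • z) i) :=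
    fun r hr i => mul_nonneg (hp i).le (by linarith [(hseg r hr).2 i])
  have hf1 : ∀ r ∈ Set.Icc (0 : ℝ) a, |form1 u (p + r • z) z| ≤ C * D r₀ := by
    intro r hr
    have e1 : form1 u (p + r • z) z = -∑ i, (sarea u p i - sarea u (p + r • z) i) * z i := by
      simp only [sub_mul, sum_sub_distrib, form1] at h1 ⊢
      linarith
    rw [e1, abs_neg]
    refine (abs_sum_le_sum_abs _ _).trans (le_trans ?_
      (mul_le_mul_of_nonneg_left (hmax hr) hC))
    rw [hD, Finset.mul_sum]
    refine sum_le_sum fun i _ => ?_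
    have h0 : 0 ≤ sarea u p i - sarea u (p + r • z) i := by linarith [(hseg r hr).2 i]
    rw [abs_mul, abs_of_nonneg h0]
    refine (mul_le_mul_of_nonneg_left (hCb i) h0).trans (le_of_eq ?_)
    ring
  have hV : |svol u (p + r₀ • z) - svol u p| ≤ C * D r₀ * r₀ := by
    have := (convex_Icc (0 : ℝ) r₀).norm_image_sub_le_of_norm_hasDerivWithin_le
      (f := fun r => svol u (p + r • z)) (C := C * D r₀)
      (fun r hr => (vol_line G (hseg r ⟨hr.1, hr.2.trans hr₀.2⟩).1).hasDerivWithinAt)
      (fun r hr => hf1 r ⟨hr.1, hr.2.trans hr₀.2⟩)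
      (Set.left_mem_Icc.2 hr₀.1) (Set.right_mem_Icc.2 hr₀.1)
    simpa [abs_of_nonneg hr₀.1] using this
  have hEq : D r₀ = -(n * (svol u (p + r₀ • z) - svol u p)) + r₀ * form1 u (p + r₀ • z) z := by
    have e1 := G.euler_vol _ (hseg r₀ hr₀).1
    have e2 : ∑ i, sarea u (p + r₀ • z) i * (p + r₀ • z) i =
        ∑ i, sarea u (p + r₀ • z) i * p i + r₀ * form1 u (p + r₀ • z) z := by
      rw [form1, Finset.mul_sum, ← sum_add_distrib]
      exact sum_congr rfl fun i _ => by simp only [Pi.add_apply, Pi.smul_apply, smul_eq_mul]; ring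
    have e3 : D r₀ = ∑ i, sarea u p i * p i - ∑ i, sarea u (p + r₀ • z) i * p i := by
      rw [hD, ← sum_sub_distrib]
      exact sum_congr rfl fun i _ => by ring
    rw [e3, G.euler_vol p hp]
    linarith
  have hD0 : D r₀ = 0 := by
    have hnn : 0 ≤ D r₀ := by rw [hD]; exact sum_nonneg fun i _ => hDnn r₀ hr₀ i
    have b1 : -(n * (svol u (p + r₀ • z) - svol u p)) ≤ n * (C * D r₀ * r₀) := by
      have := mul_le_mul_of_nonneg_left (abs_le.1 hV).1 (Nat.cast_nonneg (α := ℝ) n)
      linarith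
    have b2 := mul_le_mul_of_nonneg_left (abs_le.1 (hf1 r₀ hr₀)).2 hr₀.1
    have b3 : D r₀ ≤ r₀ * ((n + 1) * C) * D r₀ :=
      le_trans (hEq.le.trans (add_le_add b1 b2)) (le_of_eq (by ring))
    have b4 : r₀ * ((n + 1) * C) ≤ a * ((n + 1) * C) :=
      mul_le_mul_of_nonneg_right hr₀.2 (by positivity)
    nlinarith [mul_le_mul_of_nonneg_right b4 hnn, ha'.2]
  filter_upwards [Ioo_mem_nhdsGT ha] with r hr i
  have hr' : r ∈ Set.Icc (0 : ℝ) a := ⟨hr.1.le, hr.2.le⟩
  have hz0 : D r ≤ 0 := hD0 ▸ hmax hr'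
  rw [hD] at hz0
  have := (sum_eq_zero_iff_of_nonneg fun i _ => hDnn r hr' i).1
    (le_antisymm hz0 (sum_nonneg fun i _ => hDnn r hr' i)) i (mem_univ i)
  have := (mul_eq_zero.1 this).resolve_left (hp i).ne'
  linarith

/-- An extremal perturbation of `R_0` is in the kernel of the Hessian. -/
lemma kernel_of_extremal (G : SymFacts u) {h z : Fin N → ℝ} (hh : Pos h)
    (hR : ∀ v, rForm u 0 h v ≤ 0) (h1 : form1 u h z = 0) (h2 : form2 u h z z = 0) (i : Fin N) :
    ∑ j, shess u h i j * z j = 0 := by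
  obtain ⟨L, hL⟩ : ∃ L, L = ∑ j, shess u h i j * z j := ⟨_, rfl⟩
  obtain ⟨e, he⟩ : ∃ e : Fin N → ℝ, e = Pi.single i 1 := ⟨_, rfl⟩
  obtain ⟨R, hR'⟩ : ∃ R, R = form2 u h e e - ((n : ℝ) - 1) * sarea u h i ^ 2 / (n * svol u h) :=
    ⟨_, rfl⟩
  have key : ∀ s : ℝ, 2 * s * L + s ^ 2 * R ≤ 0 := by
    intro s
    have e1 : form1 u h (z + s • e) = s * sarea u h i := by
      have : form1 u h (z + s • e) = form1 u h z + s * form1 u h e := by
        simp only [form1, Pi.add_apply, Pi.smul_apply, smul_eq_mul, Finset.mul_sum,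
          ← sum_add_distrib]
        exact sum_congr rfl fun j _ => by ring
      rw [this, h1, zero_add, he]
      simp [form1, Pi.single_apply]
    have e2 : form2 u h (z + s • e) (z + s • e) =
        form2 u h z z + s * form2 u h e z + s * form2 u h z e + s ^ 2 * form2 u h e e := by
      simp only [form2, Finset.mul_sum, ← sum_add_distrib]
      exact sum_congr rfl fun a _ => sum_congr rfl fun b _ => by simp; ring
    have e3 : form2 u h e z = L := by simp [form2, he, hL, Pi.single_apply]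
    have e4 : form2 u h z e = form2 u h e z := by
      simp only [form2]
      rw [Finset.sum_comm]
      exact sum_congr rfl fun a _ => sum_congr rfl fun b _ => by rw [G.hess_symm h hh b a]; ring
    have h := hR (z + s • e)
    rw [rForm, e1, e2, h2, e4, e3, zero_mul, add_zero] at h
    rw [hR']
    refine le_of_eq_of_le ?_ h
    ring
  rw [← hL]
  by_contra hne
  have hd : 0 < |R| + 1 := by positivity
  have k := key (L / (|R| + 1))
  have h' : L ^ 2 * (2 * (|R| + 1) + R) / (|R| + 1) ^ 2 ≤ 0 := by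
    refine le_of_eq_of_le ?_ k
    field_simp
  have : 0 < L ^ 2 * (2 * (|R| + 1) + R) / (|R| + 1) ^ 2 := by
    have : 0 < 2 * (|R| + 1) + R := by linarith [neg_abs_le R]
    positivity
  linarith

lemma abs_dot_eq (u : Fin N → Vec n) (x : Vec n) (b : ℝ) (i : Fin N) :
    (∀ s : Bool, x ⬝ᵥ nrm u (i, s) ≤ b) ↔ |x ⬝ᵥ u i| ≤ b := by
  rw [abs_le', Bool.forall_bool]
  simp [nrm, sgn, and_comm]

lemma mem_body_dbl {h : Fin N → ℝ} {x : Vec n} :
    x ∈ body u (dbl h) ↔ ∀ i, |x ⬝ᵥ u i| ≤ h i := by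
  refine ⟨fun hx i => (abs_dot_eq u x _ i).1 fun s => hx (i, s), fun hx σ => ?_⟩
  exact (abs_dot_eq u x _ σ.1).2 (hx σ.1) σ.2

/-- Raising strictly slack pairs does not change the body. -/
lemma body_raise {h g : Fin N → ℝ} (hh : Pos h)
    (hg : ∀ i, g i = h i ∨ (h i ≤ g i ∧ Slack u h i)) : body u (dbl g) = body u (dbl h) := by
  have hle : ∀ i, h i ≤ g i := fun i => (hg i).elim (fun e => e.ge) fun e => e.1
  refine Set.Subset.antisymm (fun x hx => ?_) fun x hx => mem_body_dbl.2 fun i =>
    (mem_body_dbl.1 hx i).trans (hle i)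
  rw [mem_body_dbl] at hx ⊢
  intro l
  by_contra hc
  push Not at hc
  obtain ⟨i, -, hi⟩ := Finset.exists_max_image Finset.univ (fun k => |x ⬝ᵥ u k| / h k)
    ⟨l, mem_univ l⟩
  obtain ⟨M, hM⟩ : ∃ M, M = |x ⬝ᵥ u i| / h i := ⟨_, rfl⟩
  have hM1 : 1 < M := hM ▸ lt_of_lt_of_le ((one_lt_div (hh l)).2 hc) (hi l (mem_univ l))
  have hgi : Slack u h i := by
    rcases hg i with e | e
    · have := hx i
      rw [e] at this
      rw [hM, one_lt_div (hh i)] at hM1
      linarith
    · exact e.2
  have hy : M⁻¹ • x ∈ body u (dbl h) := mem_body_dbl.2 fun k => by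
    rw [smul_dotProduct, smul_eq_mul, abs_mul, abs_of_pos (inv_pos.2 (by linarith)),
      inv_mul_le_iff₀ (by linarith)]
    have := hi k (mem_univ k)
    rw [← hM] at this
    rwa [div_le_iff₀ (hh k)] at this
  have h' := hgi _ hy
  rw [smul_dotProduct, smul_eq_mul, abs_mul, abs_of_pos (inv_pos.2 (by linarith)),
    inv_mul_lt_iff₀ (by linarith), hM, div_mul_cancel₀ _ (hh i).ne'] at h'
  exact lt_irrefl _ h'

/-- Strict slack is an open condition. -/
lemma slack_near {h : Fin N → ℝ} (hh : Pos h) {i : Fin N} (hcomp : IsCompact (body u (dbl h)))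
    (hs : Slack u h i) : ∀ᶠ g in 𝓝 h, Slack u g i := by
  obtain ⟨x₀, hx₀, hmax⟩ := hcomp.exists_isMaxOn
    ⟨0, mem_body_dbl.2 fun l => by simpa using (hh l).le⟩
    (show Continuous fun x : Vec n => |x ⬝ᵥ u i| by
      simp only [dotProduct]; fun_prop).continuousOn
  obtain ⟨M, hM⟩ : ∃ M, M = |x₀ ⬝ᵥ u i| := ⟨_, rfl⟩
  have hMh : M < h i := hM ▸ hs x₀ hx₀
  have hM0 : 0 ≤ M := hM ▸ abs_nonneg _
  obtain ⟨c, hc1, hc2⟩ : ∃ c : ℝ, 1 < c ∧ c * M < h i := by
    rcases hM0.eq_or_lt with e | e
    · exact ⟨2, one_lt_two, by rw [← e]; simpa using hh i⟩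
    · obtain ⟨d, hd1, hd2⟩ := exists_between ((one_lt_div e).2 hMh)
      exact ⟨d, hd1, (lt_div_iff₀ e).1 hd2⟩
  have e1 : ∀ᶠ g in 𝓝 h, c * M < g i :=
    (continuous_apply i).tendsto h (Ioi_mem_nhds hc2)
  have e2 : ∀ᶠ g in 𝓝 h, ∀ k, g k ≤ c * h k := eventually_all.2 fun k =>
    (continuous_apply k).tendsto h (Iic_mem_nhds (lt_mul_of_one_lt_left (hh k) hc1))
  filter_upwards [e1, e2] with g hg1 hg2 x hx
  have hy : c⁻¹ • x ∈ body u (dbl h) := mem_body_dbl.2 fun k => by
    rw [smul_dotProduct, smul_eq_mul, abs_mul, abs_of_pos (inv_pos.2 (by linarith)),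
      inv_mul_le_iff₀ (by linarith)]
    exact (mem_body_dbl.1 hx k).trans (hg2 k)
  have := hmax hy
  simp only [Set.mem_ofPred_eq, smul_dotProduct, smul_eq_mul, abs_mul,
    abs_of_pos (inv_pos.2 (show (0 : ℝ) < c by linarith)), ← hM] at this
  rw [inv_mul_le_iff₀ (by linarith)] at this
  linarith

lemma isCompact_body (hu : GenPos u) (b : Sd N → ℝ) : IsCompact (body u b) := by
  classical
  let e : Fin n ↪ Fin N := Fin.castLEEmb hu.1.le
  have hM : IsUnit (Matrix.of fun k => u (e k)) := by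
    rw [← Matrix.linearIndependent_rows_iff_isUnit]
    exact hu.2 e
  have hinj : Function.Injective (Matrix.of fun k => u (e k)).mulVec :=
    Matrix.mulVec_injective_iff_isUnit.2 hM
  obtain ⟨K, -, hK⟩ := ((Matrix.of fun k => u (e k)).mulVecLin).exists_antilipschitzWith
    (LinearMap.ker_eq_bot.2 hinj)
  have hKle : ∀ x, ‖x‖ ≤ K * ‖(Matrix.of fun k => u (e k)).mulVecLin x‖ := fun x => by
    have := hK.le_mul_dist x 0
    simpa [dist_zero_right] using this
  refine Metric.isCompact_of_isClosed_isBounded ?_ ?_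
  · have : body u b = ⋂ σ, {x | x ⬝ᵥ nrm u σ ≤ b σ} := by ext; simp [body]
    rw [this]
    exact isClosed_iInter fun σ =>
      isClosed_le (by simp only [dotProduct]; fun_prop) continuous_const
  · refine (Metric.isBounded_iff_subset_closedBall 0).2
      ⟨K * ∑ σ : Sd N, |b σ|, fun x hx => ?_⟩
    rw [Metric.mem_closedBall, dist_zero_right]
    refine (hKle x).trans (mul_le_mul_of_nonneg_left ?_ (NNReal.coe_nonneg K))
    refine (pi_norm_le_iff_of_nonneg (sum_nonneg fun _ _ => abs_nonneg _)).2 fun k => ?_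
    have e1 : (Matrix.of fun k => u (e k)).mulVecLin x k = x ⬝ᵥ u (e k) := by
      simp [Matrix.mulVec, dotProduct_comm]
    rw [e1, Real.norm_eq_abs, abs_le]
    have ht : x ⬝ᵥ u (e k) ≤ b (e k, true) := by simpa [nrm, sgn] using hx (e k, true)
    have hf : -(x ⬝ᵥ u (e k)) ≤ b (e k, false) := by simpa [nrm, sgn] using hx (e k, false)
    have t1 := single_le_sum (f := fun σ => |b σ|) (fun _ _ => abs_nonneg _)
      (mem_univ ((e k, true) : Sd N))
    have t2 := single_le_sum (f := fun σ => |b σ|) (fun _ _ => abs_nonneg _)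
      (mem_univ ((e k, false) : Sd N))
    constructor <;> linarith [le_abs_self (b (e k, true)), le_abs_self (b (e k, false))]

end Kernel

open Kernel in
/-- No nonzero extremal perturbation. -/
theorem kernelSpec (hsym : SymSpec) (htau : TauSpec) : KernelSpec := by
  classical
  intro n N u hn hu h hh z hsupp h1 h2
  have G := hsym n N u hn hu
  have hR : ∀ v, rForm u 0 h v ≤ 0 := fun v => by
    obtain ⟨t0, -, t2, -⟩ := htau n N u hn hu h hh.1
    have := t2 v
    have := mul_nonneg t0 (varForm_nonneg G (by omega) hh.1 v)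
    simp only [rForm] at *
    linarith
  have hker := kernel_of_extremal G hh.1 hR h1 h2
  by_contra hz
  obtain ⟨l, hl⟩ : ∃ l, z l ≠ 0 := by
    by_contra hno
    push Not at hno
    exact hz (funext hno)
  have hneg : (Finset.univ.filter fun i => z i < 0).Nonempty := by
    by_contra hno
    rw [Finset.not_nonempty_iff_eq_empty, Finset.filter_eq_empty_iff] at hno
    have h0 := (Finset.sum_eq_zero_iff_of_nonneg fun i _ =>
      mul_nonneg (G.area_nonneg h hh.1 i) (not_lt.1 (hno (Finset.mem_univ i)))).1 h1 l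
        (Finset.mem_univ l)
    exact hl ((mul_eq_zero.1 h0).elim (hsupp l) id)
  obtain ⟨i₀, hi₀, hmin⟩ := Finset.exists_min_image _ (fun i => h i / -z i) hneg
  have hz₀ : z i₀ < 0 := (Finset.mem_filter.1 hi₀).2
  obtain ⟨T, hT⟩ : ∃ T, T = h i₀ / -z i₀ := ⟨_, rfl⟩
  have hT0 : 0 < T := hT ▸ div_pos (hh.1 i₀) (by linarith)
  -- raise the pairs without area out of reach
  obtain ⟨c, hc⟩ : ∃ c, c = 1 + ∑ i, T * |z i| / h i := ⟨_, rfl⟩
  have hc0 : ∀ i, 0 ≤ T * |z i| / h i := fun i => div_nonneg (by positivity) (hh.1 i).le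
  have hc1 : 1 ≤ c := by
    rw [hc]; linarith [Finset.sum_nonneg fun i (_ : i ∈ Finset.univ) => hc0 i]
  obtain ⟨g, hg⟩ : ∃ g : Fin N → ℝ, g = fun i => if sarea u h i = 0 then (c + 1) * h i else h i :=
    ⟨_, rfl⟩
  have hgz : ∀ i, sarea u h i = 0 → g i = (c + 1) * h i := fun i hi => by simp [hg, hi]
  have hgn : ∀ i, sarea u h i ≠ 0 → g i = h i := fun i hi => by simp [hg, hi]
  have hslack0 : ∀ i, sarea u h i = 0 → Slack u h i := fun i hi =>
    (hh.2 i).resolve_left (by simp [hi])
  have hgp : Pos g := fun i => by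
    rcases eq_or_ne (sarea u h i) 0 with hi | hi
    · rw [hgz i hi]; exact mul_pos (by linarith) (hh.1 i)
    · rw [hgn i hi]; exact hh.1 i
  -- near `g` and `h` the bodies agree
  have hev : ∀ᶠ y in 𝓝 (0 : Fin N → ℝ),
      Pos (h + y) ∧ Pos (g + y) ∧ svol u (g + y) = svol u (h + y) := by
    have t : Tendsto (fun y : Fin N → ℝ => h + y) (𝓝 0) (𝓝 h) :=
      (show Continuous fun y : Fin N → ℝ => h + y by fun_prop).tendsto' 0 h (by simp)
    have t' : Tendsto (fun y : Fin N → ℝ => g + y) (𝓝 0) (𝓝 g) :=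
      (show Continuous fun y : Fin N → ℝ => g + y by fun_prop).tendsto' 0 g (by simp)
    have hs : ∀ᶠ p in 𝓝 h, ∀ i, sarea u h i = 0 → Slack u p i := eventually_all.2 fun i => by
      by_cases hi : sarea u h i = 0
      · filter_upwards [slack_near hh.1 (isCompact_body hu _) (hslack0 i hi)] with p hp using
          fun _ => hp
      · exact Filter.Eventually.of_forall fun p h' => absurd h' hi
    filter_upwards [t.eventually (pos_mem_nhds hh.1), t'.eventually (pos_mem_nhds hgp),
      t.eventually hs] with y hp hp' hy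
    refine ⟨hp, hp', ?_⟩
    rw [svol, svol, vol, vol, body_raise hp fun i => ?_]
    rcases eq_or_ne (sarea u h i) 0 with hi | hi
    · refine Or.inr ⟨?_, hy i hi⟩
      have := mul_nonneg (show (0 : ℝ) ≤ c by linarith) (hh.1 i).le
      simp only [Pi.add_apply, hgz i hi]
      linarith
    · exact Or.inl (by simp [hgn i hi])
  have shift : ∀ {F : (Fin N → ℝ) → ℝ} {L : (Fin N → ℝ) →L[ℝ] ℝ} {a y : Fin N → ℝ},
      HasFDerivAt F L (a + y) → HasFDerivAt (fun w => F (a + w)) L y := by
    intro F L a y hF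
    have := hF.comp y ((hasFDerivAt_id y).const_add a)
    exact this
  have coef : ∀ {a b : Fin N → ℝ}, (∑ i, a i • ContinuousLinearMap.proj (R := ℝ)
      (φ := fun _ : Fin N => ℝ) i) = ∑ i, b i • ContinuousLinearMap.proj (R := ℝ) i →
      ∀ k, a k = b k := by
    intro a b e k
    have := congrArg (fun L : (Fin N → ℝ) →L[ℝ] ℝ => L (Pi.single k 1)) e
    simpa [_root_.sum_apply, Pi.single_apply] using this
  have harea : ∀ᶠ y in 𝓝 (0 : Fin N → ℝ), ∀ i, sarea u (g + y) i = sarea u (h + y) i := by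
    filter_upwards [hev.eventually_nhds] with y hy
    have := (shift (G.vol_fderiv _ hy.self_of_nhds.2.1)).congr_of_eventuallyEq
      (hy.mono fun w hw => hw.2.2.symm)
    exact coef (this.unique (shift (G.vol_fderiv _ hy.self_of_nhds.1)))
  have harea0 : ∀ i, sarea u g i = sarea u h i := fun i => by
    simpa using harea.self_of_nhds i
  have hhess : ∀ i j, shess u g i j = shess u h i j := by
    intro i
    have p1 : Pos (g + 0) := by simpa using hgp
    have p2 : Pos (h + 0) := by simpa using hh.1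
    have := (shift (G.area_fderiv _ p1 i)).congr_of_eventuallyEq (harea.mono fun w hw => (hw i).symm)
    intro j
    simpa using coef (this.unique (shift (G.area_fderiv _ p2 i))) j
  have hzg : ∀ i, z i ≠ 0 → g i = h i := fun i hi => hgn i fun h0 => hi (hsupp i h0)
  have hpos : ∀ s ∈ Set.Ico 0 T, Pos (g + s • z) := by
    intro s hs i
    simp only [Pi.add_apply, Pi.smul_apply, smul_eq_mul]
    rcases le_or_gt 0 (z i) with hi | hi
    · linarith [hgp i, mul_nonneg hs.1 hi]
    · have h3 := hmin i (Finset.mem_filter.2 ⟨Finset.mem_univ i, hi⟩)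
      have h4 : s < h i / -z i := lt_of_lt_of_le hs.2 (hT ▸ h3)
      rw [lt_div_iff₀ (by linarith)] at h4
      rw [hzg i hi.ne]
      linarith
  have hslack : ∀ s ∈ Set.Ico 0 T, ∀ i, sarea u h i = 0 → Slack u (g + s • z) i := by
    intro s hs i hi x hx
    obtain ⟨w, hw⟩ : ∃ w : Fin N → ℝ,
        w = fun k => if sarea u h k = 0 then (c + 1) * h k / c else h k := ⟨_, rfl⟩
    have hxw : c⁻¹ • x ∈ body u (dbl w) := mem_body_dbl.2 fun k => by
      rw [smul_dotProduct, smul_eq_mul, abs_mul, abs_of_pos (inv_pos.2 (by linarith : 0 < c)),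
        inv_mul_le_iff₀ (by linarith)]
      refine (mem_body_dbl.1 hx k).trans ?_
      simp only [Pi.add_apply, Pi.smul_apply, smul_eq_mul, hw]
      rcases eq_or_ne (sarea u h k) 0 with hk | hk
      · rw [hsupp k hk, hgz k hk, if_pos hk]
        rw [mul_div_cancel₀ _ (by linarith : c ≠ 0)]
        linarith
      · rw [hgn k hk, if_neg hk]
        have h3 : T * |z k| / h k ≤ ∑ i, T * |z i| / h i :=
          Finset.single_le_sum (fun i _ => hc0 i) (Finset.mem_univ k)
        rw [div_le_iff₀ (hh.1 k)] at h3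
        have h4 : s * z k ≤ T * |z k| :=
          le_trans (mul_le_mul_of_nonneg_left (le_abs_self _) hs.1)
            (mul_le_mul_of_nonneg_right hs.2.le (abs_nonneg _))
        rw [hc]
        linarith
    rw [body_raise hh.1 fun k => ?_] at hxw
    · have := hslack0 i hi _ hxw
      rw [smul_dotProduct, smul_eq_mul, abs_mul, abs_of_pos (inv_pos.2 (by linarith : 0 < c)),
        inv_mul_lt_iff₀ (by linarith)] at this
      simp only [Pi.add_apply, Pi.smul_apply, smul_eq_mul, hsupp i hi, hgz i hi]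
      linarith [hh.1 i]
    · rcases eq_or_ne (sarea u h k) 0 with hk | hk
      · refine Or.inr ⟨?_, hslack0 k hk⟩
        simp only [hw, hk, if_true]
        rw [le_div_iff₀ (by linarith)]
        linarith [hh.1 k]
      · exact Or.inl (by simp [hw, hk])
  -- areas are constant on the segment
  have hconst : ∀ b ∈ Set.Ico 0 T, ∀ i, sarea u (g + b • z) i = sarea u h i := by
    intro b hb
    obtain ⟨K, hK⟩ : ∃ K : ℝ → ℝ, K = fun s => ∑ i,
        ((sarea u (g + s • z) i - sarea u h i) ^ 2
          + (∑ j, shess u (g + s • z) i j * z j) ^ 2) := ⟨_, rfl⟩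
    have hK0 : ∀ s, K s = 0 ↔ ∀ i,
        sarea u (g + s • z) i = sarea u h i ∧ ∑ j, shess u (g + s • z) i j * z j = 0 := by
      intro s
      rw [hK, Finset.sum_eq_zero_iff_of_nonneg (fun i _ => by positivity)]
      refine forall_congr' fun i => ?_
      simp only [Finset.mem_univ, forall_const]
      rw [add_eq_zero_iff_of_nonneg (sq_nonneg _) (sq_nonneg _), sq_eq_zero_iff, sq_eq_zero_iff,
        sub_eq_zero]
    have hmaps : Set.MapsTo (fun s : ℝ => g + s • z) (Set.Icc 0 b) {a | Pos a} :=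
      fun s hs => hpos s ⟨hs.1, hs.2.trans_lt hb.2⟩
    have hline : ContinuousOn (fun s : ℝ => g + s • z) (Set.Icc 0 b) := by fun_prop
    have hKc : ContinuousOn K (Set.Icc 0 b) := by
      rw [hK]
      refine continuousOn_finsetSum _ fun i _ => ?_
      refine ((((G.area_cont i).comp hline hmaps).sub continuousOn_const).pow 2).add ?_
      exact (continuousOn_finsetSum _ fun j _ =>
        ((G.hess_cont i j).comp hline hmaps).mul continuousOn_const).pow 2
    have hsub : Set.Icc 0 b ⊆ K ⁻¹' {0} := by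
      refine IsClosed.Icc_subset_of_forall_mem_nhdsWithin ?_ ?_ ?_
      · rw [Set.inter_comm]
        exact hKc.preimage_isClosed_of_isClosed isClosed_Icc isClosed_singleton
      · simp only [Set.mem_preimage, Set.mem_singleton_iff, hK0, zero_smul, add_zero]
        intro i
        refine ⟨harea0 i, ?_⟩
        simp only [hhess]
        exact hker i
      · rintro s ⟨hs, hs0, hsb⟩
        rw [Set.mem_preimage, Set.mem_singleton_iff, hK0] at hs
        have hsT : s ∈ Set.Ico 0 T := ⟨hs0, hsb.trans hb.2⟩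
        have hf : form1 u (g + s • z) z = 0 := by
          simpa only [form1, fun i => (hs i).1] using h1
        have hin : ∀ i, sarea u (g + s • z) i = 0 →
            ∀ᶠ r : ℝ in 𝓝[>] 0, sarea u (g + s • z + r • z) i = 0 := by
          intro i hi
          rw [(hs i).1] at hi
          have hc' : Tendsto (fun r : ℝ => s + r) (𝓝[>] 0) (𝓝[>] s) := by
            refine tendsto_nhdsWithin_iff.2 ⟨?_, ?_⟩
            · exact ((continuous_const.add continuous_id).tendsto' 0 s (add_zero s)).mono_left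
                nhdsWithin_le_nhds
            · filter_upwards [self_mem_nhdsWithin] with r hr using
                lt_add_of_pos_right s (show (0 : ℝ) < r from hr)
          filter_upwards [hc'.eventually (Ioo_mem_nhdsGT hsT.2)] with r hr
          have hr' : s + r ∈ Set.Ico 0 T := ⟨hs0.trans hr.1.le, hr.2⟩
          rw [show g + s • z + r • z = g + (s + r) • z by module]
          exact G.area_zero_of_slack _ (hpos _ hr') i (hslack _ hr' i hi)
        have hev' := const_right G hn (hpos s hsT) (fun i => (hs i).2) hf hin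
        obtain ⟨e, he, hev''⟩ := mem_nhdsGT_iff_exists_Ioo_subset.1 hev'
        have hlt : s < min (s + e) T := lt_min (lt_add_of_pos_right s he) hsT.2
        filter_upwards [Ioo_mem_nhdsGT hlt] with r hr
        have hre : ∀ w ∈ Set.Ioo s (min (s + e) T), ∀ i,
            sarea u (g + w • z) i = sarea u h i := by
          intro w hw i
          have hwe : w < s + e := hw.2.trans_le (min_le_left _ _)
          have := (hev'' (show w - s ∈ Set.Ioo 0 e from ⟨by linarith [hw.1], by linarith⟩)) i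
          rw [show g + s • z + (w - s) • z = g + w • z by module] at this
          rw [this, (hs i).1]
        rw [Set.mem_preimage, Set.mem_singleton_iff, hK0]
        refine fun i => ⟨hre r hr i, ?_⟩
        have hr' : r ∈ Set.Ico 0 T := ⟨hs0.trans hr.1.le, hr.2.trans_le (min_le_right _ _)⟩
        refine (area_line G (hpos r hr') i).unique ?_
        refine (hasDerivAt_const r (sarea u h i)).congr_of_eventuallyEq ?_
        filter_upwards [Ioo_mem_nhds hr.1 hr.2] with w hw using hre w hw i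
    have := hsub (Set.right_mem_Icc.2 hb.1)
    rw [Set.mem_preimage, Set.mem_singleton_iff, hK0] at this
    exact fun i => (this i).1
  have hvol : ∀ b ∈ Set.Ico 0 T, svol u (g + b • z) = svol u g := by
    intro b hb
    have e := G.euler_vol _ (hpos b hb)
    simp only [hconst b hb, Pi.add_apply, Pi.smul_apply, smul_eq_mul, mul_add, sum_add_distrib] at e
    have h3 : ∑ i, sarea u h i * (b * z i) = b * form1 u h z := by
      rw [form1, Finset.mul_sum]
      exact Finset.sum_congr rfl fun i _ => by ring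
    have h4 : ∑ i, sarea u h i * g i = n * svol u g := by
      rw [← G.euler_vol g hgp]
      exact Finset.sum_congr rfl fun i _ => by rw [harea0]
    rw [h3, h4, h1, mul_zero, add_zero] at e
    exact mul_left_cancel₀ (show (n : ℝ) ≠ 0 by exact_mod_cast (by omega : n ≠ 0)) e.symm
  -- but it tends to zero
  obtain ⟨C, hC, hCb⟩ := G.vol_le_surf
  have hsurf : ∀ b ∈ Set.Ico 0 T, surf u (g + b • z) = surf u h := fun b hb => by
    simp only [surf, form1, hconst b hb]
  have hcn : 0 ≤ surf u h := by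
    unfold surf form1 ballSupp
    exact sum_nonneg fun i _ => mul_nonneg (G.area_nonneg h hh.1 i) (Real.sqrt_nonneg _)
  have hden : 0 < C * h i₀ * surf u h + 1 :=
    add_pos_of_nonneg_of_pos (mul_nonneg (mul_nonneg hC.le (hh.1 i₀).le) hcn) one_pos
  obtain ⟨q, hq⟩ : ∃ q, q = min (1 / 2) (svol u g / (2 * (C * h i₀ * surf u h + 1))) := ⟨_, rfl⟩
  have hq0 : 0 < q := hq ▸ lt_min (by norm_num) (div_pos (G.vol_pos g hgp) (by linarith))
  have hq1 : q ≤ 1 / 2 := hq ▸ min_le_left _ _
  have hq2 : q * (2 * (C * h i₀ * surf u h + 1)) ≤ svol u g := by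
    rw [← le_div_iff₀ (by linarith)]
    exact hq ▸ min_le_right _ _
  have hb : T * (1 - q) ∈ Set.Ico 0 T :=
    ⟨mul_nonneg hT0.le (by linarith), by nlinarith⟩
  have e₀ : (g + (T * (1 - q)) • z) i₀ = h i₀ * q := by
    simp only [Pi.add_apply, Pi.smul_apply, smul_eq_mul, hzg i₀ hz₀.ne, hT]
    have := hz₀.ne
    field_simp
    ring
  have hbox := hCb _ (hpos _ hb) i₀
  rw [hvol _ hb, hsurf _ hb, e₀] at hbox
  linarith [G.vol_pos g hgp]

end Vale.Agent.P227.LpN
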