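import Vale.Agent.P227.LpN.Tau

/-!
# Raising pairs that carry no area

Raising (by any amount) pairs with zero area changes neither the body, the areas, the Hessian,
nor `tauVal` and the penalty, and makes the raised pairs slack.
-/

namespace Vale.Agent.P227.LpN

open MeasureTheory Set Filter Finset Matrix
open scoped Topology

set_option linter.unusedSectionVars false

namespace Port

variable {n N : ℕ} [NeZero n] {u : Fin N → Vec n} {g h : Fin N → ℝ}

/-- The symmetric polytope. -/
def sbody (u : Fin N → Vec n) (h : Fin N → ℝ) : Set (Vec n) := {x | ∀ i, |x ⬝ᵥ u i| ≤ h i}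

lemma body_dbl (h : Fin N → ℝ) : body u (dbl h) = sbody u h :=
  Set.ext fun _ => mem_body_dbl

lemma svol_def (h : Fin N → ℝ) : svol u h = (volume (sbody u h)).toReal := by
  rw [svol, vol, body_dbl]

lemma continuous_dot (v : Vec n) : Continuous fun x : Vec n => x ⬝ᵥ v := by
  simp only [dotProduct]; fun_prop

lemma body_mono (hgh : ∀ i, g i ≤ h i) : sbody u g ⊆ sbody u h := fun _ hx i => (hx i).trans (hgh i)

lemma isClosed_body (h : Fin N → ℝ) : IsClosed (sbody u h) := by
  have e : sbody u h = ⋂ i, {x : Vec n | |x ⬝ᵥ u i| ≤ h i} := by ext; simp [sbody]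
  rw [e]
  exact isClosed_iInter fun i => isClosed_le (continuous_dot _).abs continuous_const

lemma body_smul_mem {c : ℝ} (hc : 0 < c) {x : Vec n} (hx : x ∈ sbody u (c • h)) :
    c⁻¹ • x ∈ sbody u h := fun i => by
  rw [smul_dotProduct, smul_eq_mul, abs_mul, abs_of_pos (inv_pos.2 hc), inv_mul_le_iff₀ hc]
  simpa using hx i

lemma smul_mem_body {c : ℝ} {x : Vec n} (hc : 0 ≤ c) (hx : x ∈ sbody u h) :
    c • x ∈ sbody u (c • h) := fun i => by
  rw [smul_dotProduct, smul_eq_mul, abs_mul, abs_of_nonneg hc, Pi.smul_apply, smul_eq_mul]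
  exact mul_le_mul_of_nonneg_left (hx i) hc

/-- Independent normals bound the body. -/
lemma exists_coord_bound (hu : GenPos u) :
    ∃ C : ℝ, 0 ≤ C ∧ ∀ h : Fin N → ℝ, ∀ x ∈ sbody u h, ∀ a, |x a| ≤ C * ∑ i, |h i| := by
  classical
  set e : Fin n ↪ Fin N := Fin.castLEEmb hu.1.le
  have hspan := (hu.2 e).span_eq_top_of_card_eq_finrank (by simp)
  have hrep : ∀ a : Fin n, ∃ c : Fin n → ℝ, ∑ k, c k • u (e k) = Pi.single a (1 : ℝ) := fun a =>
    (Submodule.mem_span_range_iff_exists_fun ℝ).1 (hspan ▸ Submodule.mem_top)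
  choose c hc using hrep
  refine ⟨∑ a, ∑ k, |c a k|, by positivity, fun h x hx a => ?_⟩
  have hH : ∀ l, |x ⬝ᵥ u l| ≤ ∑ i, |h i| := fun l => ((hx l).trans (le_abs_self _)).trans
    (Finset.single_le_sum (f := fun i => |h i|) (fun _ _ => abs_nonneg _) (mem_univ l))
  have e1 : x a = ∑ k, c a k * (x ⬝ᵥ u (e k)) := by
    calc x a = x ⬝ᵥ Pi.single a (1 : ℝ) := (dotProduct_single_one x a).symm
      _ = _ := by simp [← hc a, dotProduct_sum, dotProduct_smul]
  rw [e1]
  calc |∑ k, c a k * (x ⬝ᵥ u (e k))| ≤ ∑ k, |c a k| * ∑ i, |h i| := by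
        refine (Finset.abs_sum_le_sum_abs _ _).trans (Finset.sum_le_sum fun k _ => ?_)
        rw [abs_mul]
        exact mul_le_mul_of_nonneg_left (hH _) (abs_nonneg _)
    _ = (∑ k, |c a k|) * ∑ i, |h i| := (Finset.sum_mul _ _ _).symm
    _ ≤ _ := by
        refine mul_le_mul_of_nonneg_right ?_ (Finset.sum_nonneg fun _ _ => abs_nonneg _)
        exact Finset.single_le_sum (f := fun a => ∑ k, |c a k|) (fun _ _ => by positivity)
          (mem_univ a)

lemma isCompact_body (hu : GenPos u) (h : Fin N → ℝ) : IsCompact (sbody u h) := by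
  obtain ⟨C, hC, hb⟩ := exists_coord_bound hu
  refine Metric.isCompact_of_isClosed_isBounded (isClosed_body h)
    ((Metric.isBounded_iff_subset_closedBall 0).2 ⟨C * ∑ i, |h i|, fun x hx => ?_⟩)
  rw [Metric.mem_closedBall, dist_zero_right,
    pi_norm_le_iff_of_nonneg (mul_nonneg hC (Finset.sum_nonneg fun _ _ => abs_nonneg _))]
  exact fun a => by simpa using hb h x hx a

/-- Near `h` the body is inside a dilate of the body at `h`. -/
lemma abs_dot_le_near (hh : Pos h) {i : Fin N} {M : ℝ} (hM : ∀ x ∈ sbody u h, |x ⬝ᵥ u i| ≤ M)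
    {M' : ℝ} (hMM : M < M') :
    ∀ᶠ y in 𝓝 (0 : Fin N → ℝ), ∀ x ∈ sbody u (h + y), |x ⬝ᵥ u i| ≤ M' := by
  obtain ⟨ε, hε, hεM⟩ : ∃ ε > (0 : ℝ), (1 + ε) * M ≤ M' := by
    have hM0 : 0 ≤ M := by
      have := hM 0 fun l => by simpa using (hh l).le
      simpa using this
    refine ⟨(M' - M) / (M + 1), div_pos (by linarith) (by linarith), ?_⟩
    have : (M' - M) / (M + 1) * M ≤ M' - M := by
      rw [div_mul_eq_mul_div, div_le_iff₀ (by linarith)]
      nlinarith
    linarith
  have hev : ∀ᶠ y in 𝓝 (0 : Fin N → ℝ), ∀ l, y l < ε * h l :=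
    eventually_all.2 fun l => (continuous_apply l).tendsto' (0 : Fin N → ℝ) 0 rfl
      (Iio_mem_nhds (mul_pos hε (hh l)))
  filter_upwards [hev] with y hy x hx
  have hx' : x ∈ sbody u ((1 + ε) • h) := body_mono (fun l => by
    simp only [Pi.add_apply, Pi.smul_apply, smul_eq_mul]
    linarith [hy l]) hx
  have h2 := hM _ (body_smul_mem (by linarith) hx')
  rw [smul_dotProduct, smul_eq_mul, abs_mul, abs_of_pos (inv_pos.2 (by linarith)),
    inv_mul_le_iff₀ (by linarith)] at h2
  linarith

lemma shift_fderiv {f : (Fin N → ℝ) → ℝ} {L : (Fin N → ℝ) →L[ℝ] ℝ} {a y : Fin N → ℝ}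
    (hf : HasFDerivAt f L (a + y)) : HasFDerivAt (fun w => f (a + w)) L y :=
  (hasFDerivAt_comp_add_left a).2 hf

/-- Equal volumes near two points give equal areas and Hessians. -/
lemma area_hess_eq_of_eventuallyEq (hg : SymFacts u) (hg' : Pos g) (hh : Pos h)
    (e : ∀ᶠ y in 𝓝 (0 : Fin N → ℝ), svol u (g + y) = svol u (h + y)) :
    (∀ i, sarea u g i = sarea u h i) ∧ ∀ i j, shess u g i j = shess u h i j := by
  have hp : ∀ a : Fin N → ℝ, Pos a → ∀ᶠ y in 𝓝 (0 : Fin N → ℝ), Pos (a + y) := fun a ha =>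
    (show Continuous fun y : Fin N → ℝ => a + y by fun_prop).tendsto' 0 a (by simp) (pos_mem_nhds ha)
  have ha : ∀ᶠ y in 𝓝 (0 : Fin N → ℝ), ∀ i, sarea u (g + y) i = sarea u (h + y) i := by
    filter_upwards [e.eventually_nhds, hp g hg', hp h hh] with y hy h1 h2 i
    have d1 := shift_fderiv (hg.vol_fderiv _ h1)
    have d2 := (shift_fderiv (hg.vol_fderiv _ h2)).congr_of_eventuallyEq hy
    simpa [_root_.sum_apply, Pi.single_apply] using
      congrArg (fun L : (Fin N → ℝ) →L[ℝ] ℝ => L (Pi.single i 1)) (d1.unique d2)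
  refine ⟨fun i => by simpa using ha.self_of_nhds i, fun i j => ?_⟩
  have d1 := shift_fderiv (y := 0) (by rw [add_zero]; exact hg.area_fderiv g hg' i)
  have d2 := (shift_fderiv (y := 0) (by rw [add_zero]; exact hg.area_fderiv h hh i)).congr_of_eventuallyEq
    (f₁ := fun w => sarea u (g + w) i) (ha.mono fun y hy => hy i)
  simpa [_root_.sum_apply, Pi.single_apply] using
    congrArg (fun L : (Fin N → ℝ) →L[ℝ] ℝ => L (Pi.single j 1)) (d1.unique d2)

lemma vol_lt_of_gap (hu : GenPos u) (hh : Pos h) (hle : ∀ i, g i ≤ h i) {x : Vec n}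
    (hx : x ∈ sbody u h) {i : Fin N} (hi : g i < |x ⬝ᵥ u i|) : svol u g < svol u h := by
  set O := {y : Vec n | (∀ l, |y ⬝ᵥ u l| < h l) ∧ g i < |y ⬝ᵥ u i|} with hO
  have hOo : IsOpen O := by
    refine IsOpen.inter ?_ (isOpen_lt continuous_const (continuous_dot _).abs)
    have e : {y : Vec n | ∀ l, |y ⬝ᵥ u l| < h l} = ⋂ l, {y | |y ⬝ᵥ u l| < h l} := by ext; simp
    change IsOpen {y : Vec n | ∀ l, |y ⬝ᵥ u l| < h l}
    rw [e]
    exact isOpen_iInter_of_finite fun l => isOpen_lt (continuous_dot _).abs continuous_const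
  have hne : O.Nonempty := by
    obtain ⟨c, hc, hc0, hc1⟩ := (((show Continuous fun c : ℝ => c * |x ⬝ᵥ u i| by fun_prop).tendsto'
      1 |x ⬝ᵥ u i| (one_mul _)).eventually (Ioi_mem_nhds hi) |>.filter_mono
      (nhdsWithin_le_nhds (s := Set.Iio 1)) |>.and
        ((show ∀ᶠ c : ℝ in 𝓝[<] 1, 0 < c from
          (eventually_gt_nhds one_pos).filter_mono nhdsWithin_le_nhds).and self_mem_nhdsWithin)).exists
    refine ⟨c • x, fun l => ?_, ?_⟩
    · rw [smul_dotProduct, smul_eq_mul, abs_mul, abs_of_pos hc0]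
      calc c * |x ⬝ᵥ u l| ≤ c * h l := by gcongr; exact hx l
        _ < h l := mul_lt_of_lt_one_left (hh l) hc1
    · rw [smul_dotProduct, smul_eq_mul, abs_mul, abs_of_pos hc0]; exact hc
  have hdisj : Disjoint (sbody u g) O := Set.disjoint_left.2 fun y hy hyO => not_lt.2 (hy i) hyO.2
  have hsub : sbody u g ∪ O ⊆ sbody u h := Set.union_subset (body_mono hle) fun y hy l => (hy.1 l).le
  have hlt : volume (sbody u g) < volume (sbody u h) :=
    calc volume (sbody u g) < volume (sbody u g) + volume O :=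
          ENNReal.lt_add_right (isCompact_body hu g).measure_lt_top.ne (hOo.measure_pos volume hne).ne'
      _ = volume (sbody u g ∪ O) := (measure_union hdisj hOo.measurableSet).symm
      _ ≤ _ := measure_mono hsub
  rw [svol_def, svol_def]
  exact (ENNReal.toReal_lt_toReal (isCompact_body hu g).measure_lt_top.ne
    (isCompact_body hu h).measure_lt_top.ne).2 hlt

lemma raised_le (hr : Raised u g h) (i : Fin N) : g i ≤ h i := by
  rcases hr i with e | e
  · rw [e]
  · exact e.1

lemma raised_area_zero (hr : Raised u g h) {i : Fin N} (hi : g i < h i) : sarea u g i = 0 := by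
  rcases hr i with e | e
  · linarith
  · exact e.2

lemma raised_pos (hr : Raised u g h) (hg : Pos g) : Pos h := fun i => (hg i).trans_le ((raised_le hr i))

lemma raised_vol_eq (hr : Raised u g h) (hg : SymFacts u) (hg' : Pos g) :
    svol u h = svol u g := by
  have hh := (raised_pos hr hg')
  refine le_antisymm ?_ (hg.vol_mono g h hg' (raised_le hr))
  have hd0 : Pos (g + (0 : ℝ) • (h - g)) := by simpa using hg'
  have hd := (vol_line hg hd0).rpow_const (p := (1 : ℝ) / n) (Or.inl (hg.vol_pos _ hd0).ne')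
  simp only [zero_smul, add_zero] at hd
  have hz : form1 u g (h - g) = 0 := by
    refine Finset.sum_eq_zero fun i _ => ?_
    rcases hr i with e | e
    · simp [e]
    · simp [e.2]
  rw [hz, zero_mul, zero_mul] at hd
  have hle : svol u h ^ ((1 : ℝ) / n) - svol u g ^ ((1 : ℝ) / n) ≤ 0 := by
    refine ge_of_tendsto hd.tendsto_slope_zero_right ?_
    filter_upwards [self_mem_nhdsWithin,
      mem_nhdsWithin_of_mem_nhds (Iio_mem_nhds (show (0:ℝ) < 1 by norm_num))]
      with s (hs : 0 < s) (hs1 : s < 1)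
    have hc := hg.vol_concave.2 hg' hh (show (0:ℝ) ≤ 1 - s by linarith) hs.le (by ring)
    have e : (1 - s) • g + s • h = g + s • (h - g) := by
      ext i; simp; ring
    rw [e] at hc
    simp only [smul_eq_mul] at hc
    simp only [zero_add, zero_smul, add_zero, smul_eq_mul, le_inv_mul_iff₀ hs]
    linarith
  exact (Real.rpow_le_rpow_iff (z := (1 : ℝ) / n) (hg.vol_pos h hh).le (hg.vol_pos g hg').le
    (one_div_pos.2 (Nat.cast_pos.2 (NeZero.pos n)))).1
    (by linarith)

lemma raised_body_eq (hr : Raised u g h) (hg : SymFacts u) (hu : GenPos u)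
    (hg' : Pos g) : sbody u h = sbody u g := by
  refine Set.Subset.antisymm (fun x hx i => ?_) (body_mono (raised_le hr))
  by_contra hc
  push Not at hc
  exact (vol_lt_of_gap hu ((raised_pos hr hg')) (raised_le hr) hx hc).ne ((raised_vol_eq hr hg hg')).symm

lemma raised_slack (hr : Raised u g h) (hg : SymFacts u) (hu : GenPos u)
    (hg' : Pos g) {i : Fin N} (hi : g i < h i) : Slack u h i := fun x hx => by
  rw [body_dbl] at hx
  rw [(raised_body_eq hr hg hu hg')] at hx
  exact (hx i).trans_lt hi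

lemma raised_area_eq (hr : Raised u g h) (hg : SymFacts u) (hg' : Pos g)
    (i : Fin N) : sarea u h i = sarea u g i := by
  have hh := (raised_pos hr hg')
  have d1 : HasFDerivAt (fun y => svol u (h + y))
      (∑ i, sarea u h i • ContinuousLinearMap.proj (R := ℝ) (φ := fun _ : Fin N => ℝ) i) 0 := by
    refine shift_fderiv ?_
    rw [add_zero]
    exact hg.vol_fderiv h hh
  have d2 : HasFDerivAt (fun y => svol u (g + y))
      (∑ i, sarea u g i • ContinuousLinearMap.proj (R := ℝ) (φ := fun _ : Fin N => ℝ) i) 0 := by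
    refine shift_fderiv ?_
    rw [add_zero]
    exact hg.vol_fderiv g hg'
  have hm : IsLocalMin (fun y => svol u (h + y) - svol u (g + y)) 0 := by
    have hp : ∀ᶠ y in 𝓝 (0 : Fin N → ℝ), Pos (g + y) :=
      (show Continuous fun y : Fin N → ℝ => g + y by fun_prop).tendsto' 0 g (by simp)
        (pos_mem_nhds hg')
    filter_upwards [hp] with y hy
    simp only [add_zero, (raised_vol_eq hr hg hg'), sub_self, sub_nonneg]
    exact hg.vol_mono _ _ hy fun l => by simpa using (raised_le hr l)
  have h0 := hm.hasFDerivAt_eq_zero (d1.sub d2)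
  have := congrArg (fun L : (Fin N → ℝ) →L[ℝ] ℝ => L (Pi.single i 1)) h0
  simp [_root_.sum_apply, Pi.single_apply] at this
  linarith

lemma raised_hess_eq (hr : Raised u g h) (hg : SymFacts u) (hu : GenPos u)
    (hg' : Pos g) (i j : Fin N) : shess u h i j = shess u g i j := by
  have hh := (raised_pos hr hg')
  have hmain : ∀ s ∈ Set.Ioc (0 : ℝ) 1, shess u (g + s • (h - g)) i j = shess u h i j := by
    rintro s ⟨hs, hs1⟩
    set a := g + s • (h - g) with ha
    have hle : ∀ l, g l ≤ a l ∧ a l ≤ h l := fun l => by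
      have := (raised_le hr l)
      simp only [ha, Pi.add_apply, Pi.smul_apply, Pi.sub_apply, smul_eq_mul]
      constructor <;> nlinarith
    have hap : Pos a := fun l => (hg' l).trans_le (hle l).1
    have hev : ∀ᶠ y in 𝓝 (0 : Fin N → ℝ), ∀ l, ∀ x ∈ sbody u (h + y),
        |x ⬝ᵥ u l| ≤ a l + y l := by
      refine eventually_all.2 fun l => ?_
      rcases ((raised_le hr l)).eq_or_lt with e | e
      · filter_upwards with y x hx
        have h1 := hx l
        have h2 : a l = h l := by
          simp only [ha, Pi.add_apply, Pi.smul_apply, Pi.sub_apply, smul_eq_mul, e]; ring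
        simpa [h2] using h1
      · have hgl : g l < a l := by
          simp only [ha, Pi.add_apply, Pi.smul_apply, Pi.sub_apply, smul_eq_mul]
          nlinarith
        have hb' : ∀ x ∈ sbody u h, |x ⬝ᵥ u l| ≤ g l := fun x hx => by
          rw [(raised_body_eq hr hg hu hg')] at hx
          exact hx l
        have hyl : ∀ᶠ y in 𝓝 (0 : Fin N → ℝ), (g l - a l) / 2 < y l :=
          (continuous_apply l).tendsto' (0 : Fin N → ℝ) 0 rfl (Ioi_mem_nhds (by linarith))
        filter_upwards [abs_dot_le_near hh hb' (show g l < (g l + a l) / 2 by linarith), hyl]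
          with y hy hy' x hx
        linarith [hy x hx]
    refine (area_hess_eq_of_eventuallyEq hg hap hh ?_).2 i j
    filter_upwards [hev] with y hy
    rw [svol_def, svol_def]
    congr 2
    exact Set.Subset.antisymm (body_mono fun l => by simpa using (hle l).2) fun x hx l => by
      simpa using hy l x hx
  have hc : ContinuousAt (fun a => shess u a i j) g :=
    (hg.hess_cont i j).continuousAt (pos_mem_nhds hg')
  have ht : Tendsto (fun s : ℝ => shess u (g + s • (h - g)) i j) (𝓝[>] 0) (𝓝 (shess u g i j)) := by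
    refine (Tendsto.comp hc ?_).mono_left nhdsWithin_le_nhds
    exact (show Continuous fun s : ℝ => g + s • (h - g) by fun_prop).tendsto' 0 g (by simp)
  refine tendsto_nhds_unique ?_ ht
  refine tendsto_const_nhds.congr' ?_
  filter_upwards [Ioc_mem_nhdsGT zero_lt_one] with s hs using (hmain s hs).symm

lemma raised_rForm_eq (hr : Raised u g h) (hg : SymFacts u) (hu : GenPos u)
    (hg' : Pos g) (τ : ℝ) (z : Fin N → ℝ) : rForm u τ h z = rForm u τ g z := by
  have e1 : form1 u h z = form1 u g z :=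
    Finset.sum_congr rfl fun i _ => by rw [(raised_area_eq hr hg hg')]
  have e2 : form2 u h z z = form2 u g z z :=
    Finset.sum_congr rfl fun i _ => Finset.sum_congr rfl fun j _ => by rw [(raised_hess_eq hr hg hu hg')]
  have e3 : ∑ i, sarea u h i * z i ^ 2 / h i = ∑ i, sarea u g i * z i ^ 2 / g i := by
    refine Finset.sum_congr rfl fun i _ => ?_
    rw [(raised_area_eq hr hg hg')]
    rcases hr i with e | e
    · rw [e]
    · simp [e.2]
  simp only [rForm, varForm, e1, e2, e3, (raised_vol_eq hr hg hg')]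

lemma raised_tauVal_eq (hr : Raised u g h) (hg : SymFacts u) (hu : GenPos u)
    (hg' : Pos g) : tauVal u h = tauVal u g := by
  simp only [tauVal, (raised_rForm_eq hr hg hu hg')]

lemma raised_penalty_eq (hr : Raised u g h) (hg : SymFacts u) (hg' : Pos g) :
    penalty u h = penalty u g := by
  have e : surf u h = surf u g := by
    simp only [surf, form1, (raised_area_eq hr hg hg')]
  simp only [penalty, e, (raised_vol_eq hr hg hg')]

end Port

end Vale.Agent.P227.LpN
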