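import Vale.Agent.P227.LpN.Defs

/-!
# P227 `LpN`: interfaces between the modules

Each `…Spec` is a `Prop`; the module named in the heading proves it as a theorem.
No result may keep one of these as a hypothesis.
-/

namespace Vale.Agent.P227.LpN

open MeasureTheory Set Filter Finset Matrix
open scoped Topology

/-! ### `Slab.lean` (helper54) -/

/-- The calculus of slab bodies, by recursion through the facets. -/
def SlabSpec : Prop :=
  ∀ (n N : ℕ) (u : Fin (N + 1) → Vec (n + 1)), 1 ≤ n → GenPos u →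
    (∀ l, GenPos (fNormals u l)) ∧
    ∀ b, Width b →
      (∀ σ, Width (fMap u σ b)) ∧
      (∀ σ, area u b σ = fJac u σ.1 * vol (fNormals u σ.1) (fMap u σ b)) ∧
      HasFDerivAt (vol u) (∑ σ, area u b σ • ContinuousLinearMap.proj (R := ℝ) σ) b ∧
      (∀ σ, 0 ≤ area u b σ) ∧ (∀ σ, ContinuousAt (fun y => area u y σ) b) ∧
      ∑ σ, area u b σ * b σ = (n + 1) * vol u b ∧
      (∀ a, vol u (b + transl u a) = vol u b) ∧ vol u (flipB b) = vol u b ∧
      (HasInt u b → 0 < vol u b) ∧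
      (2 ≤ n → (∀ σ, HasFDerivAt (fun y => area u y σ)
          (∑ τ, hess u b σ τ • ContinuousLinearMap.proj (R := ℝ) τ) b) ∧
        (∀ σ τ, ContinuousAt (fun y => hess u y σ τ) b) ∧
        (∀ σ τ, hess u b σ τ = hess u b τ σ) ∧ (∀ σ τ, σ.1 ≠ τ.1 → 0 ≤ hess u b σ τ)) ∧
      (3 ≤ n → (∀ σ τ, HasFDerivAt (fun y => hess u y σ τ)
          (∑ ρ, d3 u b σ τ ρ • ContinuousLinearMap.proj (R := ℝ) ρ) b) ∧
        ∀ σ τ ρ, ContinuousAt (fun y => d3 u y σ τ ρ) b)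

/-! ### `Poly.lean`, `Cells.lean` (helper59) -/

/-- Calculus of polynomials in the bounds. -/
def PolySpec : Prop :=
  ∀ (ι : Type) (_ : Fintype ι) (_ : DecidableEq ι),
    (∀ (P : Poly ι) (y : ι → ℝ), HasFDerivAt (fun x => ev x P)
      (∑ σ, ev y (MvPolynomial.pderiv σ P) • ContinuousLinearMap.proj (R := ℝ) σ) y) ∧
    (∀ P Q : Poly ι, ∀ U : Set (ι → ℝ), IsOpen U → U.Nonempty →
      (∀ y ∈ U, ev y P = ev y Q) → P = Q) ∧
    (∀ (P : Poly ι) (σ τ : ι),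
      MvPolynomial.pderiv σ (MvPolynomial.pderiv τ P)
        = MvPolynomial.pderiv τ (MvPolynomial.pderiv σ P)) ∧
    (∀ (m : ℕ) (P : Poly ι) (σ : ι), Hom (m + 1) P → Hom m (MvPolynomial.pderiv σ P)) ∧
    (∀ (m : ℕ) (P : Poly ι), Hom (m + 1) P → (∀ σ, MvPolynomial.pderiv σ P = 0) → P = 0) ∧
    (∀ (κ : Type) (_ : Fintype κ) (_ : DecidableEq κ) (L : (κ → ℝ) →ₗ[ℝ] (ι → ℝ)) (P : Poly ι),
      (∀ y, ev y (subst L P) = ev (L y) P) ∧
      (∀ σ : κ, MvPolynomial.pderiv σ (subst L P)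
        = subst L (dv (L (Pi.single σ 1)) P)) ∧
      ∀ m, Hom m P → Hom m (subst L P))

/-- Chambers and walls. -/
def CellSpec : Prop :=
  (∀ (n N : ℕ) (u : Fin N → Vec n), 1 ≤ n → GenPos u →
    (∀ b, Simple u b → (∀ᶠ y in 𝓝 b, Simple u y) ∧ ∃ P, LocalPoly u b P) ∧
    (∀ b lam, Wall u b lam →
      Lam lam b = 0 ∧ Wall u b (-lam) ∧ (∀ᶠ y in 𝓝 b, Lam lam y ≠ 0 → Simple u y) ∧
      ((posSet lam).Nonempty → (posSet (-lam)).Nonempty → HasInt u b) ∧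
      ∃ (PA PB : Poly (Sd N)) (c : ℝ), AtSide u b lam PA ∧ AtSide u b (-lam) PB ∧
        PB = PA + c • lamPoly lam ^ n) ∧
    (∀ b, Simple u b → (body u b).Nonempty → HasInt u b) ∧
    (∀ b, Simple u b → body u b = ∅ → ∀ᶠ y in 𝓝 b, body u y = ∅) ∧
    (∀ b lam PA, Wall u b lam → AtSide u b lam PA →
      (posSet lam = ∅ → PA = 0) ∧
      (∀ a, posSet lam = {a} → MvPolynomial.pderiv a PA = 0) ∧
      (∀ a a', a ≠ a' → posSet lam = {a, a'} →
        MvPolynomial.pderiv a (MvPolynomial.pderiv a' PA) = 0) ∧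
      (3 ≤ n → ∀ σ τ : Sd N, σ.1 ≠ τ.1 → ∀ᶠ y in 𝓝 b, 0 < Lam lam y →
        0 ≤ ev y (MvPolynomial.pderiv σ (MvPolynomial.pderiv τ PA)))) ∧
    (∀ a b, Simple u a → Simple u b → ∀ ε > (0 : ℝ), ∃ a' b', dist a' a < ε ∧ dist b' b < ε ∧
      ∃ T : Finset ℝ, ∀ t ∈ Set.Icc (0 : ℝ) 1, Width ((1 - t) • a' + t • b') ∧
        (t ∉ T → Simple u ((1 - t) • a' + t • b')) ∧
        (t ∈ T → Simple u ((1 - t) • a' + t • b') ∨
          ∃ lam, Wall u ((1 - t) • a' + t • b') lam ∧ 0 < t ∧ t < 1 ∧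
            Lam lam (b' - a') ≠ 0)) ∧
    (∃ a, Simple u a ∧ body u a = ∅)) ∧
  (∀ (n N : ℕ) (u : Fin (N + 1) → Vec (n + 1)), 1 ≤ n → GenPos u → ∀ b,
    (Simple u b → ∀ σ, Simple (fNormals u σ.1) (fMap u σ b)) ∧
    ∀ lam, Wall u b lam →
      (∀ σ, σ ∉ supp lam → Simple (fNormals u σ.1) (fMap u σ b)) ∧
      ∀ σ ∈ supp lam,
        Wall (fNormals u σ.1) (fMap u σ b) (lamF lam σ) ∧
        (∀ y, Lam (lamF lam σ) (fMap u σ y) = Lam lam y) ∧
        (posSet (lamF lam σ)).card + (if 0 < lam σ then 1 else 0) = (posSet lam).card ∧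
        (posSet (-lamF lam σ)).card + (if lam σ < 0 then 1 else 0) = (posSet (-lam)).card)

/-- To the right of the start of a parabola one polynomial serves. -/
def CurveSpec : Prop :=
  ∀ (n N : ℕ) (u : Fin N → Vec n), 1 ≤ n → GenPos u → ∀ h z c : Fin N → ℝ, Pos h →
    ∃ (R : Poly (Fin N)) (U : Set (Fin N → ℝ)), Hom n R ∧ IsOpen U ∧
      (∀ y ∈ U, Pos y ∧ Simple u (dbl y) ∧ svol u y = ev y R) ∧
      ∃ ε > (0 : ℝ), ∀ t ∈ Set.Ico (0 : ℝ) ε, h + t • z + (t ^ 2 / 2) • c ∈ closure U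

/-! ### `Concave.lean` -/

/-- The second order form of the Brunn–Minkowski inequality, as it survives limits. -/
def AFSpec : Prop :=
  ∀ (n N : ℕ) (u : Fin N → Vec n), 1 ≤ n → GenPos u →
    ∀ (P : Poly (Sd N)) (U : Set (Sd N → ℝ)), IsOpen U → Hom n P →
      (∀ y ∈ U, Width y ∧ vol u y = ev y P) → ∀ y ∈ closure U, ∀ v,
        n * ev y P * hForm y P v v ≤ ((n : ℝ) - 1) * ev y (dv v P) ^ 2

/-! ### `Strict.lean` (helper90): degree one, and the cases of equality -/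

/-- The bound that survives limits: `HR` at nearby points gives it with a uniform constant. -/
def ApproxSpec : Prop :=
  ∀ (N m : ℕ) (P : Poly (Sd N)) (b : Sd N → ℝ), 4 ≤ m → Hom m P → Strict1 b P →
    ∃ C : ℝ, ∀ᶠ y in 𝓝 b, HR y P → ∀ q,
      -(C * ∑ σ, ev y (MvPolynomial.pderiv σ (dq q P)) ^ 2) ≤ qForm y P q q

/-- The strict inequality is open. -/
def OpenSpec : Prop :=
  ∀ (N : ℕ) (P : Poly (Sd N)) (b : Sd N → ℝ), HRStrict b P → ∀ᶠ y in 𝓝 b, HRStrict y P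

/-- `HR` at every simple body of the dimension. -/
def HRAt (n : ℕ) : Prop :=
  ∀ (N : ℕ) (u : Fin N → Vec n), GenPos u → ∀ b P, Simple u b → LocalPoly u b P → HR b P

/-- Kernels in degree one and two. -/
def StrictSpec : Prop :=
  ∀ (n N : ℕ) (u : Fin N → Vec n), 2 ≤ n → GenPos u →
    (∀ b P, Simple u b → LocalPoly u b P → Strict1 b P) ∧
    (∀ b lam PA, Wall u b lam → AtSide u b lam PA →
      1 ≤ (posSet lam).card → 2 ≤ (posSet (-lam)).card → Strict1 b PA) ∧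
    (4 ≤ n → (∀ m, 4 ≤ m → m < n → HRAt m) →
      (∀ b P, Simple u b → LocalPoly u b P → HR b P → HRStrict b P) ∧
      ∀ b lam PA, Wall u b lam → AtSide u b lam PA →
        1 ≤ (posSet lam).card → 3 ≤ (posSet (-lam)).card → HR b PA → HRStrict b PA)

/-! ### `HR.lean` (helper16): transitions and the induction -/

/-- The Hodge–Riemann inequality in every dimension. -/
def HRSpec : Prop := ∀ n, 4 ≤ n → HRAt n

/-! ### `Sym.lean`: the symmetric layer -/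

/-- The analytic facts about the volume of the symmetric polytope, in dimension `n ≥ 4`. -/
structure SymFacts {n N : ℕ} (u : Fin N → Vec n) : Prop where
  vol_pos : ∀ h, Pos h → 0 < svol u h
  area_nonneg : ∀ h, Pos h → ∀ i, 0 ≤ sarea u h i
  hess_nonneg : ∀ h, Pos h → ∀ i j, i ≠ j → 0 ≤ shess u h i j
  hess_symm : ∀ h, Pos h → ∀ i j, shess u h i j = shess u h j i
  euler_vol : ∀ h, Pos h → ∑ i, sarea u h i * h i = n * svol u h
  euler_area : ∀ h, Pos h → ∀ i, ∑ j, shess u h i j * h j = ((n : ℝ) - 1) * sarea u h i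
  vol_cont : ContinuousOn (svol u) {h | Pos h}
  area_cont : ∀ i, ContinuousOn (fun h => sarea u h i) {h | Pos h}
  hess_cont : ∀ i j, ContinuousOn (fun h => shess u h i j) {h | Pos h}
  d3_cont : ∀ i j k, ContinuousOn (fun h => sd3 u h i j k) {h | Pos h}
  vol_fderiv : ∀ h, Pos h →
    HasFDerivAt (svol u) (∑ i, sarea u h i • ContinuousLinearMap.proj (R := ℝ) i) h
  area_fderiv : ∀ h, Pos h → ∀ i, HasFDerivAt (fun g => sarea u g i)
    (∑ j, shess u h i j • ContinuousLinearMap.proj (R := ℝ) j) h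
  hess_fderiv : ∀ h, Pos h → ∀ i j, HasFDerivAt (fun g => shess u g i j)
    (∑ k, sd3 u h i j k • ContinuousLinearMap.proj (R := ℝ) k) h
  vol_hom : ∀ h, Pos h → ∀ c : ℝ, 0 < c → svol u (c • h) = c ^ n * svol u h
  area_hom : ∀ h, Pos h → ∀ c : ℝ, 0 < c → ∀ i, sarea u (c • h) i = c ^ (n - 1) * sarea u h i
  hess_hom : ∀ h, Pos h → ∀ c : ℝ, 0 < c →
    ∀ i j, shess u (c • h) i j = c ^ (n - 2) * shess u h i j
  area_zero_of_slack : ∀ h, Pos h → ∀ i, Slack u h i → sarea u h i = 0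
  vol_mono : ∀ h g, Pos h → (∀ i, h i ≤ g i) → svol u h ≤ svol u g
  vol_le_surf : ∃ C : ℝ, 0 < C ∧ ∀ h, Pos h → ∀ i, svol u h ≤ C * h i * surf u h
  vol_concave : ConcaveOn ℝ {h | Pos h} (fun h => svol u h ^ ((1 : ℝ) / n))
  area_concave : ∀ i, ConcaveOn ℝ {h | Pos h ∧ 0 < sarea u h i}
    (fun h => sarea u h i ^ ((1 : ℝ) / ((n : ℝ) - 1)))
  hess_ball_nonneg : ∀ h, Pos h → ∀ i, 0 ≤ ∑ j, shess u h i j * ballSupp u j
  ray_zero : ∀ hh, Pos hh → ∀ i, sarea u hh i = 0 →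
    ∀ᶠ h in 𝓝 hh, ∑ j, shess u h i j * hh j = 0

/-- `symFacts`. -/
def SymSpec : Prop :=
  ∀ (n N : ℕ) (u : Fin N → Vec n), 4 ≤ n → GenPos u → SymFacts u

/-! ### `Kernel.lean` -/

/-- Equality in the Brunn–Minkowski second variation only for `z = 0`. -/
def KernelSpec : Prop :=
  ∀ (n N : ℕ) (u : Fin N → Vec n), 4 ≤ n → GenPos u → ∀ h : Fin N → ℝ, Proper u h →
    ∀ z : Fin N → ℝ, (∀ i, sarea u h i = 0 → z i = 0) → form1 u h z = 0 →
      form2 u h z z = 0 → z = 0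

/-! ### `Tau.lean`, `Attain.lean` -/

/-- Elementary facts about `tauVal`. -/
def TauSpec : Prop :=
  ∀ (n N : ℕ) (u : Fin N → Vec n), 4 ≤ n → GenPos u → ∀ h : Fin N → ℝ, Pos h →
    0 ≤ tauVal u h ∧ tauVal u h ≤ 1 ∧ (∀ z, rForm u (tauVal u h) h z ≤ 0) ∧
    (tauVal u h < 1 → ∃ z : Fin N → ℝ, (∀ i, sarea u h i = 0 → z i = 0) ∧ form1 u h z = 0 ∧
      0 < varForm u h z ∧ rForm u (tauVal u h) h z = 0)

/-- The penalty is bounded below. -/
def PenaltySpec : Prop :=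
  ∀ (n N : ℕ) (u : Fin N → Vec n), 4 ≤ n → GenPos u → ∃ m : ℝ, ∀ h, Pos h → m ≤ penalty u h

/-- The penalised minimum is attained, at a proper point. -/
def AttainSpec : Prop :=
  ∀ (n N : ℕ) (u : Fin N → Vec n), 4 ≤ n → GenPos u → ∀ η > (0 : ℝ),
    ∃ g, Proper u g ∧
      ∀ h, Pos h → tauVal u g + η * penalty u g ≤ tauVal u h + η * penalty u h

/-! ### `Variation.lean` (helper31) -/

/-- The main local theorem. -/
def LowerSpec : Prop :=
  ∀ (n N : ℕ) (u : Fin N → Vec n), 4 ≤ n → GenPos u → ∀ h : Fin N → ℝ, Pos h →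
    ∀ z, rForm u (1 / ((n : ℝ) - 1)) h z ≤ 0

/-! ### `Global.lean` -/

/-- The `L_p` Brunn–Minkowski inequality for symmetric bodies, `p ≥ (n-2)/(n-1)`. -/
def MainSpec : Prop :=
  ∀ (n : ℕ), 4 ≤ n → ∀ K L : Set (Vec n), IsSymBody K → IsSymBody L →
    ∀ p t : ℝ, ((n : ℝ) - 2) / ((n : ℝ) - 1) ≤ p → p ≤ 1 → 0 ≤ t → t ≤ 1 →
      (1 - t) * (volume K).toReal ^ (p / n) + t * (volume L).toReal ^ (p / n)
        ≤ (volume (lpSum p t K L)).toReal ^ (p / n)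

end Vale.Agent.P227.LpN
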