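import Vale.Agent.P227.LpN.StrictCalc

/-!
# P227 `LpN`: the uniform lower bound, and openness of the strict inequality
-/

namespace Vale.Agent.P227.LpN.Strict

open MvPolynomial Finset Matrix Filter
open scoped Topology

set_option linter.unusedSectionVars false

variable {ι : Type} [Fintype ι]

/-- The tensor product of two vectors. -/
def tens (y w : ι → ℝ) : ι → ι → ℝ := fun σ τ => y σ * w τ

/-- The third derivatives paired with a two tensor. -/
noncomputable def cVec (y : ι → ℝ) (P : Poly ι) (q : ι → ι → ℝ) : ι → ℝ :=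
  fun σ => ev y (pderiv σ (LpN.dq q P))

/-- The Hessian as a matrix. -/
noncomputable def hMat (y : ι → ℝ) (P : Poly ι) : Matrix ι ι ℝ :=
  fun σ τ => ev y (pderiv σ (pderiv τ P))

theorem hMat_mulVec (y : ι → ℝ) (P : Poly ι) (w : ι → ℝ) :
    hMat y P *ᵥ w = fun σ => ev y (pderiv σ (LpN.dv w P)) := by
  funext σ
  rw [pderiv_dv, ev_dv]
  simp [hMat, Matrix.mulVec, dotProduct, pderiv_swap σ, mul_comm]

theorem dot_hVec (y a w : ι → ℝ) (P : Poly ι) (ha : LpN.dv a P = 0) :
    a ⬝ᵥ (fun σ => ev y (pderiv σ (LpN.dv w P))) = 0 := by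
  have h : a ⬝ᵥ (fun σ => ev y (pderiv σ (LpN.dv w P))) = ev y (LpN.dv a (LpN.dv w P)) := by
    rw [ev_dv]; rfl
  rw [h, dv_dv, ha, dv_zero_right, ev_zero]

theorem dot_cVec (y a : ι → ℝ) (P : Poly ι) (q : ι → ι → ℝ) (ha : LpN.dv a P = 0) :
    a ⬝ᵥ cVec y P q = 0 := by
  have h : a ⬝ᵥ cVec y P q = ev y (LpN.dv a (LpN.dq q P)) := by
    rw [ev_dv]; rfl
  rw [h, dv_dq, ha, dq_zero_right, ev_zero]

theorem dq_tens (y w : ι → ℝ) (P : Poly ι) :
    LpN.dq (tens y w) P = LpN.dv y (LpN.dv w P) := by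
  simp only [LpN.dq, tens, LpN.dv, map_sum, Derivation.map_smul, Finset.smul_sum, smul_smul]

theorem _root_.Vale.Agent.P227.LpN.Hom.ev_dq_tens {m : ℕ} {P : Poly ι} (h : Hom m P) (y w : ι → ℝ) :
    ev y (LpN.dq (tens y w) P) = ((m - 1 : ℕ) : ℝ) * ev y (LpN.dv w P) := by
  rw [dq_tens, (h.dv w).euler]

theorem _root_.Vale.Agent.P227.LpN.Hom.cVec_tens {m : ℕ} {P : Poly ι} (h : Hom m P) (y w : ι → ℝ) :
    cVec y P (tens y w) = ((m - 2 : ℕ) : ℝ) • fun σ => ev y (MvPolynomial.pderiv σ (LpN.dv w P)) := by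
  funext σ
  rw [cVec, pderiv_dq, (h.pderiv' σ).ev_dq_tens, ← pderiv_dv]
  simp [Nat.sub_sub]

theorem _root_.Vale.Agent.P227.LpN.Hom.qForm_tens {m : ℕ} {P : Poly ι} (h : Hom m P) (y w : ι → ℝ) (q : ι → ι → ℝ) :
    qForm y P q (tens y w) = ((m - 3 : ℕ) : ℝ) * (w ⬝ᵥ cVec y P q) := by
  rw [qForm, (h.dq q).ev_dq_tens, ev_dv, Nat.sub_sub]
  rfl

theorem qForm_comm (y : ι → ℝ) (P : Poly ι) (q r : ι → ι → ℝ) :
    qForm y P q r = qForm y P r q := by
  rw [qForm, qForm, dq_dq]

theorem qForm_add_left (y : ι → ℝ) (P : Poly ι) (q r s : ι → ι → ℝ) :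
    qForm y P (q + r) s = qForm y P q s + qForm y P r s := by
  rw [qForm_comm, qForm, dq_add_left, ev_add]
  rw [qForm_comm y P q, qForm_comm y P r]
  rfl

theorem qForm_smul_left (y : ι → ℝ) (P : Poly ι) (c : ℝ) (r s : ι → ι → ℝ) :
    qForm y P (c • r) s = c * qForm y P r s := by
  rw [qForm_comm, qForm, dq_smul_left, ev_smul, qForm_comm y P r]
  rfl

theorem qForm_expand (y : ι → ℝ) (P : Poly ι) (q r : ι → ι → ℝ) (c : ℝ) :
    qForm y P (q + c • r) (q + c • r)
      = qForm y P q q + 2 * c * qForm y P q r + c ^ 2 * qForm y P r r := by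
  rw [qForm_add_left, qForm_smul_left, qForm_comm y P q, qForm_comm y P r (q + c • r),
    qForm_add_left, qForm_smul_left, qForm_add_left, qForm_smul_left, qForm_comm y P r q]
  ring

theorem cVec_add (y : ι → ℝ) (P : Poly ι) (q r : ι → ι → ℝ) (c : ℝ) :
    cVec y P (q + c • r) = cVec y P q + c • cVec y P r := by
  funext σ
  simp [cVec, dq_add_left, dq_smul_left, map_add, Derivation.map_smul, ev_add, ev_smul]

theorem prim_iff (y : ι → ℝ) (P : Poly ι) (q : ι → ι → ℝ) :
    Prim y P q ↔ cVec y P q = 0 := by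
  constructor
  · exact fun h => funext h
  · exact fun h σ => congrFun h σ

/-- Correction of a two tensor to a primitive one. -/
theorem prim_correct {m : ℕ} {P : Poly ι} (h : Hom m P) (hm : 3 ≤ m) (y w : ι → ℝ)
    (q : ι → ι → ℝ) (hw : ∀ σ, ev y (MvPolynomial.pderiv σ (LpN.dv w P)) = cVec y P q σ) :
    Prim y P (q + (-(1 / ((m : ℝ) - 2))) • tens y w) ∧
    qForm y P (q + (-(1 / ((m : ℝ) - 2))) • tens y w) (q + (-(1 / ((m : ℝ) - 2))) • tens y w)
      = qForm y P q q - ((m : ℝ) - 3) / ((m : ℝ) - 2) * (w ⬝ᵥ cVec y P q) := by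
  have h2 : ((m - 2 : ℕ) : ℝ) = (m : ℝ) - 2 := by
    rw [Nat.cast_sub (by omega)]; norm_num
  have h3 : ((m - 3 : ℕ) : ℝ) = (m : ℝ) - 3 := by
    rw [Nat.cast_sub (by omega)]; norm_num
  have hne : (m : ℝ) - 2 ≠ 0 := by
    have : (3 : ℝ) ≤ m := by exact_mod_cast hm
    linarith
  have hc : cVec y P (tens y w) = ((m : ℝ) - 2) • cVec y P q := by
    rw [h.cVec_tens, h2, funext hw]
  constructor
  · rw [prim_iff, cVec_add, hc, smul_smul]
    funext σ
    simp
    field_simp
    ring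
  · rw [qForm_expand, h.qForm_tens, h.qForm_tens, hc, dotProduct_smul, smul_eq_mul, h3]
    field_simp
    ring

/-- Solving with the Hessian, with a bound uniform near the point. -/
theorem solve {P : Poly ι} {b : ι → ℝ} (hS : Strict1 b P) :
    ∃ B : ℝ, ∀ᶠ y in 𝓝 b, ∀ c : ι → ℝ, (∀ a, LpN.dv a P = 0 → a ⬝ᵥ c = 0) →
      ∃ w, (∀ σ, ev y (pderiv σ (LpN.dv w P)) = c σ) ∧ |w ⬝ᵥ c| ≤ B * ∑ σ, c σ ^ 2 := by
  classical
  let S : Submodule ℝ (ι → ℝ) :=
    { carrier := {a | LpN.dv a P = 0}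
      add_mem' := fun {a a'} ha ha' => by
        show LpN.dv (a + a') P = 0
        rw [dv_add_left, ha, ha', add_zero]
      zero_mem' := by simp [LpN.dv]
      smul_mem' := fun c a ha => by
        show LpN.dv (c • a) P = 0
        rw [dv_smul_left, ha, smul_zero] }
  let e := Module.finBasis ℝ S
  let K : Matrix ι ι ℝ := ∑ k, vecMulVec (e k : ι → ℝ) (e k : ι → ℝ)
  have hK : ∀ v, K *ᵥ v = ∑ k, ((e k : ι → ℝ) ⬝ᵥ v) • (e k : ι → ℝ) := fun v => by
    rw [Matrix.sum_mulVec]
    refine sum_congr rfl fun k _ => ?_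
    funext i
    simp [vecMulVec, Matrix.mulVec, dotProduct, Finset.sum_mul]
    exact sum_congr rfl fun _ _ => by ring
  have hKmem : ∀ v, LpN.dv (K *ᵥ v) P = 0 := fun v => by
    have h : K *ᵥ v ∈ S := by
      rw [hK]
      exact sum_mem fun k _ => S.smul_mem _ (e k).2
    exact h
  have key : ∀ (y v c : ι → ℝ), (∀ a, LpN.dv a P = 0 → a ⬝ᵥ c = 0) →
      (hMat y P + K) *ᵥ v = c → K *ᵥ v = 0 ∧ hMat y P *ᵥ v = c := by
    intro y v c hc hv
    rw [Matrix.add_mulVec] at hv
    have h1 := dot_hVec y (K *ᵥ v) v P (hKmem v)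
    rw [← hMat_mulVec] at h1
    have h2 := hc _ (hKmem v)
    rw [← hv, dotProduct_add, h1, zero_add, dotProduct_self_eq_zero] at h2
    exact ⟨h2, by rwa [h2, add_zero] at hv⟩
  have hinj : Function.Injective (hMat b P + K).mulVec := by
    intro v v' hvv
    rw [← sub_eq_zero]
    have h0 : (hMat b P + K) *ᵥ (v - v') = 0 := by
      rw [Matrix.mulVec_sub, hvv, sub_self]
    set d := v - v'
    obtain ⟨hKd, hHd⟩ := key b d 0 (by simp) h0
    have hdS : LpN.dv d P = 0 := hS d fun σ => by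
      rw [hMat_mulVec] at hHd
      exact congrFun hHd σ
    have hek : ∀ k, (e k : ι → ℝ) ⬝ᵥ d = 0 := by
      have h := congrArg (fun z => z ⬝ᵥ d) (hK d)
      simp only [hKd, zero_dotProduct, sum_dotProduct, smul_dotProduct, smul_eq_mul] at h
      intro k
      exact mul_self_eq_zero.1
        ((sum_eq_zero_iff_of_nonneg fun k _ => mul_self_nonneg _).1 h.symm k (mem_univ k))
    have hd : d = ∑ k, e.repr ⟨d, hdS⟩ k • (e k : ι → ℝ) := by
      have h := congrArg S.subtype (e.sum_repr ⟨d, hdS⟩)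
      rw [map_sum] at h
      exact h.symm
    have h := congrArg (fun z => z ⬝ᵥ d) hd
    simp only [sum_dotProduct, smul_dotProduct, hek, smul_zero, sum_const_zero] at h
    exact dotProduct_self_eq_zero.1 h
  have hdet : (hMat b P + K).det ≠ 0 := by
    have := (Matrix.isUnit_iff_isUnit_det _).1 (Matrix.mulVec_injective_iff_isUnit.1 hinj)
    exact this.ne_zero
  have hM : Continuous fun y => hMat y P + K :=
    continuous_matrix fun i j => (continuous_ev _).add continuous_const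
  let g : (ι → ℝ) → ℝ := fun y => ∑ i, ∑ j, |(hMat y P + K)⁻¹ i j|
  have hg : ContinuousAt g b := by
    have hi : ContinuousAt (fun y => (hMat y P + K)⁻¹) b := by
      refine ContinuousAt.comp (f := fun y => hMat y P + K) ?_ hM.continuousAt
      refine continuousAt_matrix_inv _ ?_
      rw [Ring.inverse_eq_inv']
      exact continuousAt_inv₀ hdet
    refine tendsto_finsetSum _ fun i _ => tendsto_finsetSum _ fun j _ => ?_
    exact (continuousAt_pi.1 (continuousAt_pi.1 hi i) j).abs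
  refine ⟨g b + 1, ?_⟩
  filter_upwards [hg.eventually_le_const (lt_add_one _),
    (hM.matrix_det.continuousAt (x := b)).eventually_ne hdet] with y hy hdy c hc
  let w := (hMat y P + K)⁻¹ *ᵥ c
  have hw : (hMat y P + K) *ᵥ w = c := by
    simp only [w, Matrix.mulVec_mulVec]
    rw [Matrix.mul_nonsing_inv _ (isUnit_iff_ne_zero.2 hdy), Matrix.one_mulVec]
  refine ⟨w, fun σ => ?_, ?_⟩
  · have h := (key y w c hc hw).2
    rw [hMat_mulVec] at h
    exact congrFun h σ
  · have hs : ∀ i, c i ^ 2 ≤ ∑ σ, c σ ^ 2 :=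
      fun i => single_le_sum (f := fun σ => c σ ^ 2) (fun σ _ => sq_nonneg _) (mem_univ i)
    calc |w ⬝ᵥ c| = |∑ i, ∑ j, (hMat y P + K)⁻¹ i j * c j * c i| := by
          simp [w, Matrix.mulVec, dotProduct, Finset.sum_mul]
      _ ≤ ∑ i, ∑ j, |(hMat y P + K)⁻¹ i j * c j * c i| :=
          (abs_sum_le_sum_abs _ _).trans (sum_le_sum fun i _ => abs_sum_le_sum_abs _ _)
      _ ≤ g y * ∑ σ, c σ ^ 2 := by
          simp only [g, Finset.sum_mul]
          refine sum_le_sum fun i _ => sum_le_sum fun j _ => ?_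
          rw [mul_assoc, abs_mul]
          refine mul_le_mul_of_nonneg_left ?_ (abs_nonneg _)
          have h1 := hs i
          have h2 := hs j
          rw [abs_mul]
          nlinarith [sq_nonneg (|c j| - |c i|), sq_abs (c i), sq_abs (c j)]
      _ ≤ _ := mul_le_mul_of_nonneg_right hy (sum_nonneg fun σ _ => sq_nonneg _)

/-- The uniform bound, for any finite set of variables. -/
theorem approx_bound {m : ℕ} {P : Poly ι} {b : ι → ℝ} (hm : 4 ≤ m) (h : Hom m P)
    (hS : Strict1 b P) :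
    ∃ C : ℝ, ∀ᶠ y in 𝓝 b, HR y P → ∀ q,
      -(C * ∑ σ, cVec y P q σ ^ 2) ≤ qForm y P q q := by
  obtain ⟨B, hB⟩ := solve hS
  refine ⟨B, ?_⟩
  filter_upwards [hB] with y hy hR q
  obtain ⟨w, hw, hwb⟩ := hy _ fun a ha => dot_cVec y a P q ha
  obtain ⟨hp, hq⟩ := prim_correct h (by omega) y w q hw
  have h0 := hR _ hp
  rw [hq] at h0
  have hm' : (4 : ℝ) ≤ m := by exact_mod_cast hm
  have hr0 : 0 ≤ ((m : ℝ) - 3) / ((m : ℝ) - 2) := div_nonneg (by linarith) (by linarith)
  have hr1 : ((m : ℝ) - 3) / ((m : ℝ) - 2) ≤ 1 := by rw [div_le_one (by linarith)]; linarith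
  have h1 : -|w ⬝ᵥ cVec y P q| ≤ w ⬝ᵥ cVec y P q := neg_abs_le _
  nlinarith [abs_nonneg (w ⬝ᵥ cVec y P q)]

/-- The uniform lower bound. -/
theorem approxSpec (_ : PolySpec) : ApproxSpec :=
  fun _ _ _ _ hm h hS => approx_bound hm h hS

/-- Openness, for any finite set of variables. -/
theorem hrStrict_open {P : Poly ι} {b : ι → ℝ} (hb : HRStrict b P) :
    ∀ᶠ y in 𝓝 b, HRStrict y P := by
  let S : Submodule ℝ (ι → ι → ℝ) :=
    { carrier := {q | LpN.dq q P = 0}
      add_mem' := fun {q r} hq hr => by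
        show LpN.dq (q + r) P = 0
        rw [dq_add_left, hq, hr, add_zero]
      zero_mem' := by simp [LpN.dq]
      smul_mem' := fun c q hq => by
        show LpN.dq (c • q) P = 0
        rw [dq_smul_left, hq, smul_zero] }
  obtain ⟨T, hT⟩ := Submodule.exists_isCompl S
  let K : Set (ι → ι → ℝ) := Metric.sphere 0 1 ∩ T
  have hKc : IsCompact K :=
    (isCompact_sphere _ _).inter_right (Submodule.closed_of_finiteDimensional T)
  let G : Set ((ι → ℝ) × (ι → ι → ℝ)) :=
    {z | cVec z.1 P z.2 ≠ 0 ∨ 0 < qForm z.1 P z.2 z.2}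
  have hev : ∀ R : Poly ι, Continuous fun z : (ι → ℝ) × (ι → ι → ℝ) => ev z.1 R :=
    fun R => (continuous_ev R).comp continuous_fst
  have hq : ∀ i j, Continuous fun z : (ι → ℝ) × (ι → ι → ℝ) => z.2 i j :=
    fun i j => (continuous_apply j).comp ((continuous_apply i).comp continuous_snd)
  have hcc : Continuous fun z : (ι → ℝ) × (ι → ι → ℝ) => cVec z.1 P z.2 := by
    refine continuous_pi fun σ => ?_
    simp only [cVec, pderiv_dq, ev_dq]
    exact continuous_finsetSum _ fun i _ => continuous_finsetSum _ fun j _ => (hq i j).mul (hev _)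
  have hQc : Continuous fun z : (ι → ℝ) × (ι → ι → ℝ) => qForm z.1 P z.2 z.2 := by
    simp only [qForm, ev_dq, pderiv_dq]
    exact continuous_finsetSum _ fun i _ => continuous_finsetSum _ fun j _ => (hq i j).mul
      (continuous_finsetSum _ fun k _ => continuous_finsetSum _ fun l _ => (hq k l).mul (hev _))
  have hG : IsOpen G :=
    (isOpen_ne_fun hcc continuous_const).union (isOpen_lt continuous_const hQc)
  have hbK : ({b} : Set _) ×ˢ K ⊆ G := by
    rintro ⟨y, s⟩ ⟨rfl, hs, hsT⟩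
    by_contra hn
    simp only [G, Set.mem_ofPred_eq, not_or, not_not, not_lt] at hn
    have hp := (prim_iff y P s).2 hn.1
    have hsS : s ∈ S := hb.2 s hp (le_antisymm hn.2 (hb.1 s hp))
    have h0 : s = 0 := Submodule.disjoint_def.1 hT.disjoint s hsS hsT
    simp [h0] at hs
  obtain ⟨U, V, hU, -, hbU, hKV, hUV⟩ :=
    generalized_tube_lemma isCompact_singleton hKc hG hbK
  filter_upwards [hU.mem_nhds (hbU rfl)] with y hy
  have key : ∀ q, Prim y P q → 0 ≤ qForm y P q q ∧ (qForm y P q q = 0 → LpN.dq q P = 0) := by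
    intro q hp
    obtain ⟨a, ha, s, hs, rfl⟩ := Submodule.mem_sup.1
      (hT.sup_eq_top ▸ Submodule.mem_top : q ∈ S ⊔ T)
    have hdq : LpN.dq (a + s) P = LpN.dq s P := by
      rw [dq_add_left, show LpN.dq a P = 0 from ha, zero_add]
    have hQ : qForm y P (a + s) (a + s) = qForm y P s s := by
      rw [qForm, hdq, ← qForm, qForm_comm, qForm, hdq, ← qForm]
    have hc : cVec y P s = 0 := by
      funext σ
      have := hp σ
      rwa [hdq] at this
    rw [hQ, hdq]
    rcases eq_or_ne s 0 with h0 | h0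
    · have hz : LpN.dq s P = 0 := by simp [h0, LpN.dq]
      simp [qForm, hz, dq_zero_right, ev_zero]
    · have hn : 0 < ‖s‖ := norm_pos_iff.2 h0
      have hsK : ‖s‖⁻¹ • s ∈ K := by
        refine ⟨?_, T.smul_mem _ hs⟩
        simp [norm_smul, hn.ne']
      have hpos : (y, ‖s‖⁻¹ • s) ∈ G := hUV ⟨hy, hKV hsK⟩
      have hc' : cVec y P (‖s‖⁻¹ • s) = 0 := by
        funext σ
        have := congrFun hc σ
        simp only [cVec, Pi.zero_apply] at this ⊢
        rw [dq_smul_left, Derivation.map_smul, ev_smul, this, mul_zero]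
      rcases hpos with h | h
      · exact absurd hc' h
      · rw [qForm_smul_left, qForm_comm, qForm_smul_left] at h
        have hpos' : 0 < qForm y P s s := by
          have hi : 0 < ‖s‖⁻¹ := inv_pos.2 hn
          exact pos_of_mul_pos_right (pos_of_mul_pos_right h hi.le) hi.le
        exact ⟨hpos'.le, fun h => absurd h hpos'.ne'⟩
  exact ⟨fun q hp => (key q hp).1, fun q hp => (key q hp).2⟩

/-- The strict inequality is open. -/
theorem openSpec : OpenSpec := fun _ _ _ hb => hrStrict_open hb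

end Vale.Agent.P227.LpN.Strict
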