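import Vale.Agent.P227.LpN.Spec

/-!
# P227 `LpN`: directional derivatives of polynomials, as used by `Strict`
-/

namespace Vale.Agent.P227.LpN.Strict

open MvPolynomial Finset Matrix

variable {ι : Type} [Fintype ι]

set_option linter.unusedSectionVars false

theorem pderiv_swap (σ τ : ι) (P : Poly ι) :
    pderiv σ (pderiv τ P) = pderiv τ (pderiv σ P) := by
  classical
  induction P using MvPolynomial.induction_on with
  | C a => simp
  | add p q hp hq => simp [hp, hq]
  | mul_X p i hp =>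
      simp only [pderiv_mul, map_add, pderiv_X, hp]
      rcases eq_or_ne σ i with h1 | h1 <;> rcases eq_or_ne τ i with h2 | h2 <;>
        simp [h1, h2]

/-- The bundled directional derivative. -/
noncomputable def dvL (v : ι → ℝ) : Poly ι →ₗ[ℝ] Poly ι where
  toFun := dv v
  map_add' P Q := by simp [dv, Finset.sum_add_distrib]
  map_smul' c P := by simp [dv, Finset.smul_sum, smul_comm c]

/-- The bundled derivative along a two tensor. -/
noncomputable def dqL (q : ι → ι → ℝ) : Poly ι →ₗ[ℝ] Poly ι where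
  toFun := dq q
  map_add' P Q := by simp [dq, Finset.sum_add_distrib]
  map_smul' c P := by simp [dq, Finset.smul_sum, smul_comm c]

theorem dv_smul_right (v : ι → ℝ) (c : ℝ) (P : Poly ι) : dv v (c • P) = c • dv v P :=
  (dvL v).map_smul c P

theorem dv_zero_right (v : ι → ℝ) : dv v (0 : Poly ι) = 0 := (dvL v).map_zero

theorem dq_zero_right (q : ι → ι → ℝ) : dq q (0 : Poly ι) = 0 := (dqL q).map_zero

theorem dq_smul_right (q : ι → ι → ℝ) (c : ℝ) (P : Poly ι) : dq q (c • P) = c • dq q P :=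
  (dqL q).map_smul c P

theorem pderiv_dv (σ : ι) (v : ι → ℝ) (P : Poly ι) :
    pderiv σ (dv v P) = dv v (pderiv σ P) := by
  simp [dv, pderiv_swap σ]

theorem pderiv_dq (σ : ι) (q : ι → ι → ℝ) (P : Poly ι) :
    pderiv σ (dq q P) = dq q (pderiv σ P) := by
  simp [dq, pderiv_swap σ]

theorem dv_dq (v : ι → ℝ) (q : ι → ι → ℝ) (P : Poly ι) : dv v (dq q P) = dq q (dv v P) := by
  have : dq q (dv v P) = ∑ σ, v σ • dq q (pderiv σ P) :=
    (map_sum (dqL q) _ _).trans (sum_congr rfl fun σ _ => (dqL q).map_smul _ _)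
  rw [this]
  simp [dv, pderiv_dq]

theorem dv_dv (v w : ι → ℝ) (P : Poly ι) : dv v (dv w P) = dv w (dv v P) := by
  have : dv w (dv v P) = ∑ σ, v σ • dv w (pderiv σ P) :=
    (map_sum (dvL w) _ _).trans (sum_congr rfl fun σ _ => (dvL w).map_smul _ _)
  rw [this]
  show ∑ σ, v σ • pderiv σ (dv w P) = _
  simp only [pderiv_dv]

theorem dq_eq_sum (q : ι → ι → ℝ) (P : Poly ι) :
    dq q P = ∑ σ, dv (q σ) (pderiv σ P) := by
  refine sum_congr rfl fun σ _ => sum_congr rfl fun τ _ => ?_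
  rw [pderiv_swap]

theorem dq_dq (q r : ι → ι → ℝ) (P : Poly ι) : dq r (dq q P) = dq q (dq r P) := by
  calc dq r (dq q P)
      = ∑ σ, dv (r σ) (dq q (pderiv σ P)) := by
        rw [dq_eq_sum r]
        exact sum_congr rfl fun σ _ => by rw [pderiv_dq]
    _ = ∑ σ, dq q (dv (r σ) (pderiv σ P)) := sum_congr rfl fun σ _ => dv_dq _ _ _
    _ = dq q (dq r P) := by
        rw [dq_eq_sum r P]
        exact (map_sum (dqL q) _ _).symm

theorem dv_add_left (v w : ι → ℝ) (P : Poly ι) : dv (v + w) P = dv v P + dv w P := by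
  simp [dv, add_smul, Finset.sum_add_distrib]

theorem dv_smul_left (c : ℝ) (v : ι → ℝ) (P : Poly ι) : dv (c • v) P = c • dv v P := by
  simp [dv, Finset.smul_sum, smul_smul]

theorem dq_add_left (q r : ι → ι → ℝ) (P : Poly ι) : dq (q + r) P = dq q P + dq r P := by
  simp [dq, add_smul, Finset.sum_add_distrib]

theorem dq_smul_left (c : ℝ) (q : ι → ι → ℝ) (P : Poly ι) : dq (c • q) P = c • dq q P := by
  simp [dq, Finset.smul_sum, smul_smul]

theorem dv_single [DecidableEq ι] (σ : ι) (P : Poly ι) :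
    dv (Pi.single σ 1) P = pderiv σ P := by
  simp [dv, Pi.single_apply, ite_smul]

theorem ev_add (y : ι → ℝ) (P Q : Poly ι) : ev y (P + Q) = ev y P + ev y Q := map_add _ P Q

theorem ev_smul (y : ι → ℝ) (c : ℝ) (P : Poly ι) : ev y (c • P) = c * ev y P :=
  MvPolynomial.smul_eval y P c

theorem ev_zero (y : ι → ℝ) : ev y (0 : Poly ι) = 0 := map_zero _

theorem ev_sum {κ : Type*} (s : Finset κ) (y : ι → ℝ) (f : κ → Poly ι) :
    ev y (∑ k ∈ s, f k) = ∑ k ∈ s, ev y (f k) := map_sum _ f s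

theorem ev_dv (y v : ι → ℝ) (P : Poly ι) :
    ev y (dv v P) = ∑ σ, v σ * ev y (pderiv σ P) := by
  simp [dv, ev_sum, ev_smul]

theorem ev_dq (y : ι → ℝ) (q : ι → ι → ℝ) (P : Poly ι) :
    ev y (dq q P) = ∑ σ, ∑ τ, q σ τ * ev y (pderiv σ (pderiv τ P)) := by
  simp [dq, ev_sum, ev_smul]

theorem continuous_ev (P : Poly ι) : Continuous fun y => ev y P :=
  MvPolynomial.continuous_eval P

/-! ### Homogeneous polynomials -/

theorem _root_.Vale.Agent.P227.LpN.Hom.euler {m : ℕ} {P : Poly ι} (h : Hom m P) (y : ι → ℝ) :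
    ev y (dv y P) = m * ev y P := by
  have h' := congrArg (ev y) h
  rw [ev_smul, ev_sum] at h'
  rw [ev_dv, ← h']
  exact sum_congr rfl fun σ _ => by simp [ev]

theorem coeff_euler (P : Poly ι) (d : ι →₀ ℕ) :
    coeff d (∑ σ, X σ * pderiv σ P) = (d.sum fun _ k => (k : ℝ)) * coeff d P := by
  classical
  induction P using MvPolynomial.induction_on' with
  | monomial s a =>
      simp only [X_mul_pderiv_monomial, coeff_sum, coeff_smul, coeff_monomial]
      split_ifs with hs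
      · subst hs
        rw [Finsupp.sum_fintype _ _ (by simp), Finset.sum_mul]
        simp
      · simp
  | add p q hp hq => simp only [map_add, mul_add, sum_add_distrib, coeff_add, hp, hq]

theorem _root_.Vale.Agent.P227.LpN.Hom.iff_coeff {m : ℕ} {P : Poly ι} :
    Hom m P ↔ ∀ d, coeff d P ≠ 0 → (d.sum fun _ k => k) = m := by
  unfold Hom
  constructor
  · intro h d hd
    have h' := congrArg (coeff d) h
    rw [coeff_euler, coeff_smul, smul_eq_mul] at h'
    have := mul_right_cancel₀ hd h'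
    rw [Finsupp.sum_fintype _ _ (by simp)] at this
    rw [Finsupp.sum_fintype _ _ (by simp)]
    exact_mod_cast this
  · intro h
    ext d
    rw [coeff_euler, coeff_smul, smul_eq_mul]
    by_cases hd : coeff d P = 0
    · simp [hd]
    · have h' := h d hd
      rw [Finsupp.sum_fintype _ _ (by simp)] at h' ⊢
      rw [← h', Nat.cast_sum]

theorem _root_.Vale.Agent.P227.LpN.Hom.sum {κ : Type*} {m : ℕ} (s : Finset κ) {f : κ → Poly ι}
    (h : ∀ k ∈ s, Hom m (f k)) : Hom m (∑ k ∈ s, f k) := by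
  unfold Hom at h ⊢
  simp only [map_sum, mul_sum, Finset.smul_sum]
  rw [sum_comm]
  exact sum_congr rfl h

theorem _root_.Vale.Agent.P227.LpN.Hom.smul {m : ℕ} {P : Poly ι} (h : Hom m P) (c : ℝ) : Hom m (c • P) := by
  unfold Hom at h ⊢
  rw [smul_comm, ← h, Finset.smul_sum]
  exact sum_congr rfl fun σ _ => by rw [Derivation.map_smul, mul_smul_comm]

theorem _root_.Vale.Agent.P227.LpN.Hom.pderiv' {m : ℕ} {P : Poly ι} (h : Hom m P) (σ : ι) :
    Hom (m - 1) (MvPolynomial.pderiv σ P) := by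
  classical
  rw [Hom.iff_coeff] at h ⊢
  intro d hd
  rw [coeff_pderiv] at hd
  have h' := h _ (left_ne_zero_of_mul hd)
  rw [Finsupp.sum_add_index' (by simp) (by simp)] at h'
  simp at h'
  omega

theorem _root_.Vale.Agent.P227.LpN.Hom.dv {m : ℕ} {P : Poly ι} (h : Hom m P) (v : ι → ℝ) :
    Hom (m - 1) (LpN.dv v P) :=
  Hom.sum _ fun σ _ => (h.pderiv' σ).smul _

theorem _root_.Vale.Agent.P227.LpN.Hom.dq {m : ℕ} {P : Poly ι} (h : Hom m P) (q : ι → ι → ℝ) :
    Hom (m - 2) (LpN.dq q P) :=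
  Hom.sum _ fun σ _ => Hom.sum _ fun τ _ => by
    have := ((h.pderiv' τ).pderiv' σ).smul (q σ τ)
    rwa [Nat.sub_sub] at this

theorem _root_.Vale.Agent.P227.LpN.Hom.eq_zero_of_zero {P : Poly ι} (h : Hom 0 P) {y : ι → ℝ} (hy : ev y P = 0) :
    P = 0 := by
  classical
  have hC : P = C (coeff 0 P) := by
    ext d
    rw [coeff_C]
    split_ifs with hd
    · subst hd; rfl
    · by_contra hne
      have hs := (Hom.iff_coeff.1 h) d hne
      rw [Finsupp.sum_fintype _ _ (by simp)] at hs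
      refine hd (Finsupp.ext fun i => ?_)
      have := (sum_eq_zero_iff.1 hs) i (mem_univ i)
      simp [this]
  rw [hC] at hy ⊢
  simp [ev] at hy
  simp [hy]

theorem _root_.Vale.Agent.P227.LpN.Hom.eq_zero_of_pderiv {m : ℕ} {P : Poly ι} (h : Hom (m + 1) P)
    (hd : ∀ σ, MvPolynomial.pderiv σ P = 0) : P = 0 := by
  unfold Hom at h
  have h' : ((m + 1 : ℕ) : ℝ) • P = 0 := by simpa [hd] using h.symm
  exact (smul_eq_zero.1 h').resolve_left (by positivity)

theorem _root_.Vale.Agent.P227.LpN.Hom.eq_zero_one {P : Poly ι} (h : Hom 1 P) (y : ι → ℝ)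
    (hy : ∀ σ, ev y (MvPolynomial.pderiv σ P) = 0) : P = 0 :=
  Hom.eq_zero_of_pderiv h fun σ => (h.pderiv' σ).eq_zero_of_zero (hy σ)

theorem _root_.Vale.Agent.P227.LpN.Hom.eq_zero_two {P : Poly ι} (h : Hom 2 P) (y : ι → ℝ)
    (hy : ∀ σ τ, ev y (MvPolynomial.pderiv σ (MvPolynomial.pderiv τ P)) = 0) : P = 0 :=
  Hom.eq_zero_of_pderiv h fun τ => (h.pderiv' τ).eq_zero_one y fun σ => hy σ τ

/-! ### Linear substitutions -/

variable {κ : Type} [Fintype κ] [DecidableEq κ]

theorem dv_subst (L : (κ → ℝ) →ₗ[ℝ] (ι → ℝ)) (P : Poly ι)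
    (hL : ∀ σ, MvPolynomial.pderiv σ (subst L P) = subst L (dv (L (Pi.single σ 1)) P))
    (x : κ → ℝ) : dv x (subst L P) = subst L (dv (L x) P) := by
  have hx : L x = ∑ σ, x σ • L (Pi.single σ 1) := by
    conv_lhs => rw [pi_eq_sum_univ x]
    rw [map_sum]
    refine sum_congr rfl fun σ _ => ?_
    rw [map_smul]
    congr 2
    funext j
    simp [Pi.single_apply, eq_comm]
  have hs : dv (L x) P = ∑ σ, x σ • dv (L (Pi.single σ 1)) P := by
    rw [hx]
    simp only [dv, Finset.sum_apply, Pi.smul_apply, smul_eq_mul, Finset.sum_smul,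
      Finset.smul_sum, smul_smul]
    exact sum_comm
  rw [hs]
  have hlhs : dv x (subst L P) = ∑ σ, x σ • subst L (dv (L (Pi.single σ 1)) P) := by
    simp only [dv, hL]
  rw [hlhs]
  simp [subst]

/-- The two tensor pushed forward by a linear map. -/
noncomputable def pushQ (L : (κ → ℝ) →ₗ[ℝ] (ι → ℝ)) (q : κ → κ → ℝ) : ι → ι → ℝ :=
  fun i j => ∑ σ, ∑ τ, q σ τ * (L (Pi.single σ 1) i * L (Pi.single τ 1) j)

theorem dq_subst (L : (κ → ℝ) →ₗ[ℝ] (ι → ℝ)) (P : Poly ι)
    (hL : ∀ P σ, MvPolynomial.pderiv σ (subst L P) = subst L (dv (L (Pi.single σ 1)) P))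
    (q : κ → κ → ℝ) : dq q (subst L P) = subst L (dq (pushQ L q) P) := by
  have h2 : ∀ a b : ι → ℝ, dv a (dv b P)
      = ∑ i, ∑ j, (a i * b j) • pderiv i (pderiv j P) := fun a b => by
    simp only [dv, map_sum, Derivation.map_smul, Finset.smul_sum, smul_smul]
  have hs : dq (pushQ L q) P
      = ∑ σ, ∑ τ, q σ τ • dv (L (Pi.single σ 1)) (dv (L (Pi.single τ 1)) P) := by
    simp only [h2, dq, pushQ, Finset.sum_smul, Finset.smul_sum, smul_smul]
    conv_rhs => enter [2, σ]; rw [Finset.sum_comm]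
    conv_rhs => rw [Finset.sum_comm]
    refine sum_congr rfl fun i _ => ?_
    conv_rhs => enter [2, σ]; rw [Finset.sum_comm]
    conv_rhs => rw [Finset.sum_comm]
  rw [hs]
  have hlhs : dq q (subst L P) = ∑ σ, ∑ τ, q σ τ •
      subst L (dv (L (Pi.single σ 1)) (dv (L (Pi.single τ 1)) P)) := by
    refine sum_congr rfl fun σ _ => sum_congr rfl fun τ _ => ?_
    rw [hL P τ, hL _ σ]
  rw [hlhs]
  simp [subst]

end Vale.Agent.P227.LpN.Strict
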