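import Vale.Agent.P227.LpN.StrictApprox

/-!
# P227 `LpN`: passing from a polynomial of the volume to the facets
-/

namespace Vale.Agent.P227.LpN.Strict

open MvPolynomial Finset Matrix Filter
open scoped Topology

set_option linter.unusedSectionVars false

variable {n N : ℕ}

/-- `P` is the volume on an open set of simple bodies adherent to `b`. -/
def Near (u : Fin N → Vec n) (b : Sd N → ℝ) (P : Poly (Sd N)) : Prop :=
  Hom n P ∧ ∃ U : Set (Sd N → ℝ), IsOpen U ∧ b ∈ closure U ∧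
    ∀ y ∈ U, Simple u y ∧ vol u y = ev y P

/-- A simple body, or one side of a wall with enough negative signs. -/
def Case (r : ℕ) (u : Fin N → Vec n) (b : Sd N → ℝ) (P : Poly (Sd N)) : Prop :=
  (Simple u b ∧ LocalPoly u b P) ∨
    ∃ lam, Wall u b lam ∧ AtSide u b lam P ∧ 1 ≤ (posSet lam).card ∧ r ≤ (posSet (-lam)).card

theorem Case.mono {r r' : ℕ} (hr : r ≤ r') {u : Fin N → Vec n} {b : Sd N → ℝ} {P : Poly (Sd N)}
    (h : Case r' u b P) : Case r u b P :=
  h.imp id fun ⟨lam, h1, h2, h3, h4⟩ => ⟨lam, h1, h2, h3, hr.trans h4⟩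

theorem Case.hom {r : ℕ} {u : Fin N → Vec n} {b : Sd N → ℝ} {P : Poly (Sd N)}
    (h : Case r u b P) : Hom n P := by
  rcases h with ⟨-, h⟩ | ⟨lam, -, h, -⟩ <;> exact h.1

theorem Case.width {r : ℕ} {u : Fin N → Vec n} {b : Sd N → ℝ} {P : Poly (Sd N)}
    (h : Case r u b P) : Width b := by
  rcases h with ⟨h, -⟩ | ⟨lam, h, -⟩ <;> exact h.1

theorem continuous_Lam (lam : Sd N → ℝ) : Continuous (Lam lam) :=
  continuous_finsetSum _ fun σ _ => continuous_const.mul (continuous_apply σ)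

theorem disjoint_posSet (lam : Sd N → ℝ) : Disjoint (posSet lam) (posSet (-lam)) := by
  rw [Finset.disjoint_left]
  intro σ h1 h2
  simp [posSet] at h1 h2
  linarith

theorem posSet_subset_supp (lam : Sd N → ℝ) : posSet lam ⊆ supp lam := by
  intro σ h
  simp [posSet, supp] at h ⊢
  exact h.ne'

theorem supp_neg (lam : Sd N → ℝ) : supp (-lam) = supp lam := by
  ext σ; simp [supp]

/-- The negative part of a circuit has at most `n` sides, from different slabs. -/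
theorem negSet_small {u : Fin N → Vec n} {lam : Sd N → ℝ} (h : Circuit u lam)
    (hpos : 1 ≤ (posSet lam).card) :
    Set.InjOn Prod.fst (↑(posSet (-lam)) : Set (Sd N)) ∧ (posSet (-lam)).card ≤ n := by
  have hsub : posSet (-lam) ⊆ supp lam := supp_neg lam ▸ posSet_subset_supp _
  refine ⟨h.2.1.mono (by exact_mod_cast hsub), ?_⟩
  have h1 : (posSet lam).card + (posSet (-lam)).card ≤ (supp lam).card := by
    rw [← card_union_of_disjoint (disjoint_posSet lam)]
    exact card_le_card (union_subset (posSet_subset_supp lam) hsub)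
  rw [h.1] at h1
  omega

/-- An open set of simple bodies on the positive side of a wall. -/
theorem wall_near (hC : CellSpec) (hn : 1 ≤ n) {u : Fin N → Vec n} (hu : GenPos u)
    {b lam : Sd N → ℝ} {P : Poly (Sd N)} (hW : Wall u b lam) (hA : AtSide u b lam P) :
    ∃ U : Set (Sd N → ℝ), IsOpen U ∧ b ∈ closure U ∧
      ∀ y ∈ U, 0 < Lam lam y ∧ Simple u y ∧ vol u y = ev y P := by
  obtain ⟨hL0, -, hsimp, -, -⟩ := (hC.1 n N u hn hu).2.1 b lam hW
  obtain ⟨O, hO, hOo, hbO⟩ := eventually_nhds_iff.1 (hsimp.and hA.2)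
  refine ⟨O ∩ {y | 0 < Lam lam y},
    hOo.inter (isOpen_lt continuous_const (continuous_Lam lam)), ?_,
    fun y hy => ⟨hy.2, (hO y hy.1).1 (ne_of_gt hy.2), (hO y hy.1).2 hy.2⟩⟩
  rw [mem_closure_iff_frequently]
  have hsq : 0 < ∑ σ, lam σ * lam σ := by
    obtain ⟨σ, hσ⟩ : (supp lam).Nonempty := card_pos.1 (by rw [hW.2.1.1]; omega)
    exact Finset.sum_pos' (fun σ _ => mul_self_nonneg _)
      ⟨σ, mem_univ σ, mul_self_pos.2 (mem_filter.1 hσ).2⟩
  have hT : Tendsto (fun t : ℝ => b + t • lam) (𝓝[>] 0) (𝓝 b) := by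
    have : Continuous fun t : ℝ => b + t • lam := by fun_prop
    simpa using (this.tendsto 0).mono_left nhdsWithin_le_nhds
  refine hT.frequently (Eventually.frequently ?_)
  filter_upwards [hT (hOo.mem_nhds hbO), self_mem_nhdsWithin] with t ht ht0
  refine ⟨ht, ?_⟩
  have : Lam lam (b + t • lam) = Lam lam b + t * ∑ σ, lam σ * lam σ := by
    simp [Lam, mul_add, sum_add_distrib, Finset.mul_sum, mul_left_comm]
  simp only [Set.mem_ofPred_eq, this, hL0, zero_add]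
  exact mul_pos ht0 hsq

theorem Case.near (hC : CellSpec) (hn : 1 ≤ n) {r : ℕ} {u : Fin N → Vec n} (hu : GenPos u)
    {b : Sd N → ℝ} {P : Poly (Sd N)} (h : Case r u b P) : Near u b P := by
  refine ⟨h.hom, ?_⟩
  rcases h with ⟨hb, hP⟩ | ⟨lam, hW, hA, -⟩
  · obtain ⟨hsimp, -⟩ := (hC.1 n N u hn hu).1 b hb
    obtain ⟨O, hO, hOo, hbO⟩ := eventually_nhds_iff.1 (hsimp.and hP.2)
    exact ⟨O, hOo, subset_closure hbO, hO⟩
  · obtain ⟨U, hU, hcl, hUy⟩ := wall_near hC hn hu hW hA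
    exact ⟨U, hU, hcl, fun y hy => (hUy y hy).2⟩

theorem vol_empty {u : Fin N → Vec n} {y : Sd N → ℝ} (h : body u y = ∅) : vol u y = 0 := by
  simp [vol, h]

theorem Case.zero_or_int (hP' : PolySpec) (hC : CellSpec) (hn : 1 ≤ n) {r : ℕ} (hr : 1 ≤ r)
    {u : Fin N → Vec n} (hu : GenPos u) {b : Sd N → ℝ} {P : Poly (Sd N)} (h : Case r u b P) :
    P = 0 ∨ HasInt u b := by
  rcases h with ⟨hb, hP⟩ | ⟨lam, hW, -, h1, h2⟩
  · rcases (body u b).eq_empty_or_nonempty with he | he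
    · left
      have hev := (hC.1 n N u hn hu).2.2.2.1 b hb he
      obtain ⟨O, hO, hOo, hbO⟩ := eventually_nhds_iff.1 (hev.and hP.2)
      refine (hP' (Sd N) inferInstance inferInstance).2.1 P 0 O hOo ⟨b, hbO⟩ fun y hy => ?_
      rw [← (hO y hy).2, vol_empty (hO y hy).1, ev_zero]
    · exact Or.inr ((hC.1 n N u hn hu).2.2.1 b hb he)
  · exact Or.inr (((hC.1 n N u hn hu).2.1 b lam hW).2.2.2.1 (card_pos.1 h1)
      (card_pos.1 (by omega)))

section Ambient

variable (hS : SlabSpec) (hP : PolySpec) (hC : CellSpec)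
variable {u : Fin (N + 1) → Vec (n + 1)} (hn : 1 ≤ n) (hu : GenPos u)
include hS hn hu

theorem Near.ev_eq {b : Sd (N + 1) → ℝ} {P : Poly (Sd (N + 1))} (hW : Width b)
    (h : Near u b P) : ev b P = vol u b := by
  obtain ⟨-, U, -, hcl, hUy⟩ := h
  have : (𝓝[U] b).NeBot := mem_closure_iff_nhdsWithin_neBot.1 hcl
  have h1 : Tendsto (vol u) (𝓝[U] b) (𝓝 (vol u b)) :=
    (((hS n N u hn hu).2 b hW).2.2.1.continuousAt).tendsto.mono_left nhdsWithin_le_nhds
  have h2 : Tendsto (fun y => ev y P) (𝓝[U] b) (𝓝 (ev b P)) :=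
    ((continuous_ev P).tendsto b).mono_left nhdsWithin_le_nhds
  have heq : vol u =ᶠ[𝓝[U] b] fun y => ev y P := by
    filter_upwards [self_mem_nhdsWithin] with y hy using (hUy y hy).2
  exact (tendsto_nhds_unique (h1.congr' heq) h2).symm

theorem Case.ev_pos (hC : CellSpec) {r : ℕ} {b : Sd (N + 1) → ℝ} {P : Poly (Sd (N + 1))}
    (h : Case r u b P) (hI : HasInt u b) : 0 < ev b P := by
  rw [(h.near hC (Nat.le_add_left 1 n) hu).ev_eq hS hn hu h.width]
  exact (((hS n N u hn hu).2 b h.width).2.2.2.2.2.2.2.2.1) hI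

include hP in
theorem Near.transl_zero {b : Sd (N + 1) → ℝ} {P : Poly (Sd (N + 1))} (h : Near u b P)
    (a : Vec (n + 1)) : dv (transl u a) P = 0 := by
  obtain ⟨-, U, hU, hcl, hUy⟩ := h
  have hne : U.Nonempty := by
    rw [Set.nonempty_iff_ne_empty]
    rintro rfl
    simp at hcl
  refine (hP (Sd (N + 1)) inferInstance inferInstance).2.1 _ 0 U hU hne fun y hy => ?_
  rw [ev_zero, ev_dv]
  have hcurve : HasDerivAt (fun t : ℝ => y + t • transl u a) (transl u a) 0 := by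
    simpa using ((hasDerivAt_id (0 : ℝ)).smul_const (transl u a)).const_add y
  have hd := ((hP (Sd (N + 1)) inferInstance inferInstance).1 P y).comp_hasDerivAt_of_eq
    (0 : ℝ) hcurve (by simp)
  have hconst : (fun _ : ℝ => vol u y) =ᶠ[𝓝 0]
      fun t : ℝ => ev (y + t • transl u a) P := by
    have hT : Tendsto (fun t : ℝ => y + t • transl u a) (𝓝 0) (𝓝 y) := by
      simpa using (show Continuous fun t : ℝ => y + t • transl u a by fun_prop).tendsto 0
    filter_upwards [hT (hU.mem_nhds hy)] with t ht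
    have htr : t • transl u a = transl u (t • a) := by
      funext σ; simp [transl]
    rw [← (hUy (y + t • transl u a) ht).2, htr, ((hS n N u hn hu).2 y (hUy y hy).1.1).2.2.2.2.2.2.1]
  have h0 := hd.unique ((hasDerivAt_const (0 : ℝ) (vol u y)).congr_of_eventuallyEq hconst.symm)
  simpa [mul_comm] using h0

include hP in
/-- A partial derivative of the volume is the volume of a facet. -/
theorem pderiv_eq_facet {b : Sd (N + 1) → ℝ} {P : Poly (Sd (N + 1))}
    {U : Set (Sd (N + 1) → ℝ)} (hU : IsOpen U) (hcl : b ∈ closure U)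
    (hUy : ∀ y ∈ U, Width y ∧ vol u y = ev y P) (σ : Sd (N + 1)) {PF : Poly (Sd N)}
    {cond : (Sd N → ℝ) → Prop} (hcond : ∀ y ∈ U, cond (fMap u σ y))
    (hF : ∀ᶠ z in 𝓝 (fMap u σ b), cond z → vol (fNormals u σ.1) z = ev z PF) :
    MvPolynomial.pderiv σ P = fJac u σ.1 • subst (fMap u σ) PF := by
  obtain ⟨hd, hid, -, -, -, hsub⟩ := hP (Sd (N + 1)) inferInstance inferInstance
  obtain ⟨hev, -, -⟩ :=
    (hP (Sd N) inferInstance inferInstance).2.2.2.2.2 (Sd (N + 1)) inferInstance inferInstance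
      (fMap u σ) PF
  have hc : Continuous (fMap u σ) := LinearMap.continuous_of_finiteDimensional _
  obtain ⟨O, hO, hOo, hbO⟩ := eventually_nhds_iff.1 hF
  refine hid _ _ (U ∩ fMap u σ ⁻¹' O) (hU.inter (hOo.preimage hc)) ?_ fun y hy => ?_
  · obtain ⟨y, hy1, hy2⟩ := mem_closure_iff.1 hcl _ (hOo.preimage hc) hbO
    exact ⟨y, hy2, hy1⟩
  · obtain ⟨-, harea, hfd, -⟩ := (hS n N u hn hu).2 y (hUy y hy.1).1
    have heq : vol u =ᶠ[𝓝 y] fun x => ev x P := by
      filter_upwards [hU.mem_nhds hy.1] with x hx using (hUy x hx).2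
    have h := DFunLike.congr_fun (hfd.unique ((hd P y).congr_of_eventuallyEq heq))
      (Pi.single σ 1)
    simp [Pi.single_apply] at h
    rw [← h, harea σ, hO _ hy.2 (hcond y hy.1), ev_smul, hev]

include hP hC in
/-- What the facets of a case are. -/
theorem facet_case {r : ℕ} (hn2 : 2 ≤ n) (hr : 2 ≤ r) {b : Sd (N + 1) → ℝ}
    {P : Poly (Sd (N + 1))} (h : Case r u b P) :
    ∃ B : Finset (Sd (N + 1)), Set.InjOn Prod.fst (↑B : Set (Sd (N + 1))) ∧ B.card ≤ n + 1 ∧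
      ∀ σ, MvPolynomial.pderiv σ P = 0 ∨ ∃ PF : Poly (Sd N), 0 < fJac u σ.1 ∧
        MvPolynomial.pderiv σ P = fJac u σ.1 • subst (fMap u σ) PF ∧
        Case (r - 1) (fNormals u σ.1) (fMap u σ b) PF ∧ 0 < ev (fMap u σ b) PF ∧
        (σ ∈ B ∨ Case r (fNormals u σ.1) (fMap u σ b) PF) := by
  obtain ⟨hGen, -⟩ := hS n N u hn hu
  have hn1 : 1 ≤ n + 1 := Nat.le_add_left 1 n
  have hfin : ∀ (B : Finset (Sd (N + 1))) (σ : Sd (N + 1)) (PF : Poly (Sd N)),
      MvPolynomial.pderiv σ P = fJac u σ.1 • subst (fMap u σ) PF →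
      Case (r - 1) (fNormals u σ.1) (fMap u σ b) PF →
      (σ ∈ B ∨ Case r (fNormals u σ.1) (fMap u σ b) PF) →
      MvPolynomial.pderiv σ P = 0 ∨ ∃ PF : Poly (Sd N), 0 < fJac u σ.1 ∧
        MvPolynomial.pderiv σ P = fJac u σ.1 • subst (fMap u σ) PF ∧
        Case (r - 1) (fNormals u σ.1) (fMap u σ b) PF ∧ 0 < ev (fMap u σ b) PF ∧
        (σ ∈ B ∨ Case r (fNormals u σ.1) (fMap u σ b) PF) := by
    intro B σ PF he hc hg
    rcases (abs_nonneg (u σ.1 (pivot (u σ.1)))⁻¹).eq_or_lt with h0 | h0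
    · left
      rw [he, fJac, ← abs_inv, ← h0, zero_smul]
    rcases hc.zero_or_int hP hC hn (by omega) (hGen σ.1) with hz | hI
    · left
      rw [he, hz]
      simp [subst]
    refine Or.inr ⟨PF, by rwa [fJac, ← abs_inv], he, hc, ?_, hg⟩
    obtain ⟨M, rfl⟩ : ∃ M, N = M + 1 := ⟨N - 1, by have := (hGen σ.1).1; omega⟩
    obtain ⟨n', rfl⟩ : ∃ n', n = n' + 1 := ⟨n - 1, by omega⟩
    exact hc.ev_pos hS (by omega) (hGen σ.1) hC hI
  have hsimple : ∀ {U : Set (Sd (N + 1) → ℝ)}, IsOpen U → b ∈ closure U →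
      (∀ y ∈ U, Width y ∧ vol u y = ev y P) → ∀ σ,
      Simple (fNormals u σ.1) (fMap u σ b) → ∀ B : Finset (Sd (N + 1)), MvPolynomial.pderiv σ P = 0 ∨
      ∃ PF : Poly (Sd N), 0 < fJac u σ.1 ∧
        MvPolynomial.pderiv σ P = fJac u σ.1 • subst (fMap u σ) PF ∧
        Case (r - 1) (fNormals u σ.1) (fMap u σ b) PF ∧ 0 < ev (fMap u σ b) PF ∧
        (σ ∈ B ∨ Case r (fNormals u σ.1) (fMap u σ b) PF) := by
    intro U hU hcl hUy σ hσ B
    obtain ⟨PF, hPF⟩ := ((hC.1 n N _ hn (hGen σ.1)).1 _ hσ).2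
    exact hfin B σ PF (pderiv_eq_facet hS hP hn hu hU hcl hUy σ (cond := fun _ => True)
      (fun _ _ => trivial) (hPF.2.mono fun z hz _ => hz)) (Or.inl ⟨hσ, hPF⟩)
      (Or.inr (Or.inl ⟨hσ, hPF⟩))
  rcases h with ⟨hb, hP'⟩ | ⟨lam, hW, hA, hk, hm⟩
  · obtain ⟨-, U, hU, hcl, hUy⟩ := (Case.near (r := r) hC hn1 hu (Or.inl ⟨hb, hP'⟩))
    exact ⟨(∅ : Finset (Sd (N + 1))), by simp, by simp, fun σ => hsimple hU hcl (fun y hy => ⟨(hUy y hy).1.1, (hUy y hy).2⟩)
      σ ((hC.2 n N u hn hu b).1 hb σ) ∅⟩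
  obtain ⟨U, hU, hcl, hUy⟩ := wall_near hC hn1 hu hW hA
  obtain ⟨hi, hcard⟩ := negSet_small hW.2.1 hk
  refine ⟨posSet (-lam), hi, hcard, fun σ => ?_⟩
  obtain ⟨hout, hin⟩ := (hC.2 n N u hn hu b).2 lam hW
  have hUw : ∀ y ∈ U, Width y ∧ vol u y = ev y P :=
    fun y hy => ⟨(hUy y hy).2.1.1, (hUy y hy).2.2⟩
  by_cases hσ : σ ∈ supp lam
  swap
  · exact hsimple hU hcl hUw σ (hout σ hσ) _
  obtain ⟨hWF, hLam, hcp, hcn⟩ := hin σ hσ
  obtain ⟨-, -, -, -, PA, PB, c, hPA, -, -⟩ := (hC.1 n N _ hn (hGen σ.1)).2.1 _ _ hWF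
  have he := pderiv_eq_facet hS hP hn hu hU hcl hUw σ
    (cond := fun z => 0 < Lam (lamF lam σ) z)
    (fun y hy => by rw [hLam]; exact (hUy y hy).1) hPA.2
  rcases Nat.eq_zero_or_pos (posSet (lamF lam σ)).card with h0 | h0
  · left
    rw [he, ((hC.1 n N _ hn (hGen σ.1)).2.2.2.2.1 _ _ _ hWF hPA).1 (card_eq_zero.1 h0)]
    simp [subst]
  · by_cases hneg : lam σ < 0
    · rw [if_pos hneg] at hcn
      exact hfin _ σ PA he (Or.inr ⟨_, hWF, hPA, h0, by omega⟩)
        (Or.inl (by simp [posSet, hneg]))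
    · rw [if_neg hneg] at hcn
      exact hfin _ σ PA he (Or.inr ⟨_, hWF, hPA, h0, by omega⟩)
        (Or.inr (Or.inr ⟨_, hWF, hPA, h0, by omega⟩))

end Ambient

/-- A translation invariant polynomial cannot depend on few sides only. -/
theorem pderiv_zero_of_small {u : Fin N → Vec n} (hu : GenPos u) {Φ : Poly (Sd N)}
    (hT : ∀ a, dv (transl u a) Φ = 0) {B : Finset (Sd N)}
    (hi : Set.InjOn Prod.fst (↑B : Set (Sd N))) (hB : B.card ≤ n)
    (h : ∀ σ ∉ B, MvPolynomial.pderiv σ Φ = 0) (σ : Sd N) :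
    MvPolynomial.pderiv σ Φ = 0 := by
  classical
  by_cases hσ : σ ∈ B
  swap
  · exact h σ hσ
  obtain ⟨T, hBT, -, hTc⟩ := exists_subsuperset_card_eq (subset_univ (B.image Prod.fst))
    (card_image_le.trans hB) (by simpa using hu.1.le)
  let e : Fin n ↪ Fin N := (T.orderEmbOfFin hTc).toEmbedding
  have he : ∀ j ∈ T, ∃ k, e k = j := fun j hj => by
    have : j ∈ Set.range (T.orderEmbOfFin hTc) := by rw [range_orderEmbOfFin]; exact hj
    exact this
  let A : Matrix (Fin n) (Fin n) ℝ := fun k => u (e k)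
  have hA : IsUnit A := Matrix.linearIndependent_rows_iff_isUnit.1 (hu.2 e)
  obtain ⟨a, ha⟩ := (Matrix.mulVec_surjective_iff_isUnit.2 hA)
    (fun k => if e k = σ.1 then sgn σ.2 else 0)
  have hcoef : ∀ ρ ∈ B, transl u a ρ = if ρ = σ then 1 else 0 := by
    intro ρ hρ
    obtain ⟨k, hk⟩ := he ρ.1 (hBT (mem_image_of_mem _ hρ))
    have hak : a ⬝ᵥ u (e k) = if e k = σ.1 then sgn σ.2 else 0 := by
      rw [dotProduct_comm]; exact congrFun ha k
    rw [hk] at hak
    simp only [transl, nrm, dotProduct_smul, smul_eq_mul, hak]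
    by_cases hρσ : ρ = σ
    · subst hρσ
      cases hs : ρ.2 <;> simp [sgn]
    · rw [if_neg hρσ, if_neg fun hh => hρσ (hi hρ hσ hh), mul_zero]
  have h0 := hT a
  unfold dv at h0
  rw [← sum_subset (subset_univ B) (fun ρ _ hρ => by rw [h ρ hρ, smul_zero])] at h0
  rw [sum_congr rfl fun ρ hρ => by rw [hcoef ρ hρ]] at h0
  simpa [ite_smul, hσ] using h0

/-- The facet bounds may be prescribed. -/
theorem fMap_surjective (u : Fin (N + 1) → Vec (n + 1)) (σ : Sd (N + 1)) :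
    Function.Surjective (fMap u σ) := by
  intro x
  refine ⟨fun ρ => Fin.insertNth (α := fun _ => Bool → ℝ) σ.1 (fun _ => (0 : ℝ)) (fun i s => x (i, s)) ρ.1 ρ.2, ?_⟩
  funext τ
  simp [fMap]

end Vale.Agent.P227.LpN.Strict
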