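import Vale.Agent.P227.LpN.StrictFacet

/-!
# P227 `LpN`: the kernels in degree one and two, by induction on the dimension
-/

namespace Vale.Agent.P227.LpN.Strict

open MvPolynomial Finset Matrix Filter
open scoped Topology

set_option linter.unusedSectionVars false

theorem zero_of_nonneg_line {B A : ℝ} (h : ∀ t : ℝ, 0 ≤ t * B + t ^ 2 * A) : B = 0 := by
  by_contra hB
  have h2 : 0 < |A| + 1 := by positivity
  have := h (-B / (|A| + 1))
  have e : -B / (|A| + 1) * B + (-B / (|A| + 1)) ^ 2 * A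
      = B ^ 2 / (|A| + 1) ^ 2 * (A - (|A| + 1)) := by field_simp; ring
  rw [e] at this
  have h3 : 0 < B ^ 2 / (|A| + 1) ^ 2 := by positivity
  nlinarith [le_abs_self A]

variable {ι : Type} [Fintype ι]

theorem hForm_expand (y : ι → ℝ) (P : Poly ι) (v w : ι → ℝ) (t : ℝ) :
    hForm y P (v + t • w) (v + t • w)
      = hForm y P v v + 2 * t * hForm y P v w + t ^ 2 * hForm y P w w := by
  have e : dv (v + t • w) P = dv v P + t • dv w P := by rw [dv_add_left, dv_smul_left]
  unfold hForm
  rw [e, dv_add_left, dv_smul_left]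
  have e2 : ∀ a : ι → ℝ, dv a (dv v P + t • dv w P) = dv a (dv v P) + t • dv a (dv w P) :=
    fun a => ((dvL a).map_add (dv v P) (t • dv w P)).trans
      (congrArg (dv a (dv v P) + ·) (dv_smul_right a t _))
  rw [e2, e2, dv_dv v w P]
  simp only [ev_add, ev_smul]
  ring

theorem ev_pderiv_eq_hForm [DecidableEq ι] (y : ι → ℝ) (P : Poly ι) (v : ι → ℝ) (σ : ι) :
    ev y (pderiv σ (dv v P)) = hForm y P v (Pi.single σ 1) := by
  rw [hForm, dv_single]

/-- A null vector of a quadratic form of the Alexandrov type, at a positive value. -/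
theorem hForm_kernel [DecidableEq ι] {y : ι → ℝ} {P : Poly ι} {k : ℝ} (hk : 0 < k)
    (hy : 0 < ev y P)
    (hAF : ∀ x, k * ev y P * hForm y P x x ≤ (k - 1) * ev y (dv x P) ^ 2)
    {v : ι → ℝ} (hD : ev y (dv v P) = 0) (hH : hForm y P v v = 0) (σ : ι) :
    ev y (pderiv σ (dv v P)) = 0 := by
  rw [ev_pderiv_eq_hForm]
  set w : ι → ℝ := Pi.single σ 1
  have h : ∀ t : ℝ, 0 ≤ t * (-(2 * k * ev y P * hForm y P v w)) +
      t ^ 2 * ((k - 1) * ev y (dv w P) ^ 2 - k * ev y P * hForm y P w w) := by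
    intro t
    have := hAF (v + t • w)
    rw [hForm_expand, hH, dv_add_left, dv_smul_left, ev_add, ev_smul, hD] at this
    nlinarith
  have h0 := zero_of_nonneg_line h
  have : 2 * k * ev y P ≠ 0 := by positivity
  exact (mul_eq_zero.1 (neg_eq_zero.1 h0)).resolve_left this

/-- A null tensor of the form on primitive tensors is in the radical. -/
theorem qForm_radical {m : ℕ} {P : Poly ι} (h : Hom m P) (hm : 4 ≤ m) {b : ι → ℝ}
    (hS : Strict1 b P) (hR : HR b P) {q : ι → ι → ℝ} (hq : Prim b P q)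
    (h0 : qForm b P q q = 0) (r : ι → ι → ℝ) : qForm b P q r = 0 := by
  obtain ⟨B, hB⟩ := solve hS
  obtain ⟨w, hw, -⟩ := hB.self_of_nhds _ fun a ha => dot_cVec b a P r ha
  obtain ⟨hr, -⟩ := prim_correct h (by omega) b w r hw
  have h1 : qForm b P q (r + (-(1 / ((m : ℝ) - 2))) • tens b w) = 0 := by
    set r' := r + (-(1 / ((m : ℝ) - 2))) • tens b w
    refine (mul_eq_zero.1 (zero_of_nonneg_line
      (B := 2 * qForm b P q r') (A := qForm b P r' r') fun t => ?_)).resolve_left (by norm_num)
    have hp : Prim b P (q + t • r') := by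
      rw [prim_iff, cVec_add, (prim_iff b P q).1 hq, (prim_iff b P r').1 hr]
      simp
    have := hR _ hp
    rw [qForm_expand, h0] at this
    linarith
  have h2 : qForm b P q (tens b w) = 0 := by
    rw [h.qForm_tens, (prim_iff b P q).1 hq]
    simp
  rw [qForm_comm, qForm_add_left, qForm_smul_left, qForm_comm b P r, qForm_comm b P (tens b w),
    h2, mul_zero, add_zero] at h1
  exact h1

/-- The radical, on the second derivatives. -/
theorem ev_pderiv2_radical [DecidableEq ι] {P : Poly ι} {b : ι → ℝ} {q : ι → ι → ℝ}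
    (h : ∀ r, qForm b P q r = 0) (σ τ : ι) :
    ev b (pderiv σ (pderiv τ (dq q P))) = 0 := by
  have := h (tens (Pi.single σ 1) (Pi.single τ 1))
  rwa [qForm, dq_tens, dv_single, dv_single] at this

section Ambient

variable {n N : ℕ} {u : Fin N → Vec n}

/-- Euler's identity after a translation making all weights positive. -/
theorem weighted_sum {Φ : Poly (Sd N)} {k : ℕ} (h : Hom k Φ) {b : Sd N → ℝ} {x : Vec n}
    (hT : ∀ a, dv (transl u a) Φ = 0) :
    ∑ σ, (b σ - x ⬝ᵥ nrm u σ) * ev b (MvPolynomial.pderiv σ Φ) = (k : ℝ) * ev b Φ := by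
  have h1 := congrArg (ev b) (hT x)
  rw [ev_dv, ev_zero] at h1
  simp only [transl] at h1
  rw [← h.euler, ev_dv]
  simp only [sub_mul, sum_sub_distrib, h1, sub_zero]

end Ambient

section Facet

variable {n N : ℕ} (hP : PolySpec) {u : Fin (N + 1) → Vec (n + 1)}
include hP

theorem dv_subst_fMap (σ : Sd (N + 1)) (PF : Poly (Sd N)) (x : Sd (N + 1) → ℝ) :
    dv x (subst (fMap u σ) PF) = subst (fMap u σ) (dv (fMap u σ x) PF) :=
  dv_subst _ _ ((hP (Sd N) inferInstance inferInstance).2.2.2.2.2 (Sd (N + 1)) inferInstance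
    inferInstance (fMap u σ) PF).2.1 x

theorem dq_subst_fMap (σ : Sd (N + 1)) (PF : Poly (Sd N)) (q : Sd (N + 1) → Sd (N + 1) → ℝ) :
    dq q (subst (fMap u σ) PF) = subst (fMap u σ) (dq (pushQ (fMap u σ) q) PF) :=
  dq_subst _ _ (fun Q => ((hP (Sd N) inferInstance inferInstance).2.2.2.2.2 (Sd (N + 1))
    inferInstance inferInstance (fMap u σ) Q).2.1) q

theorem ev_subst_fMap (σ : Sd (N + 1)) (PF : Poly (Sd N)) (y : Sd (N + 1) → ℝ) :
    ev y (subst (fMap u σ) PF) = ev (fMap u σ y) PF :=
  ((hP (Sd N) inferInstance inferInstance).2.2.2.2.2 (Sd (N + 1)) inferInstance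
    inferInstance (fMap u σ) PF).1 y

end Facet

/-- The degree one kernel. -/
theorem strict1_case (hS : SlabSpec) (hP : PolySpec) (hC : CellSpec) (hA : AFSpec) :
    ∀ n, 2 ≤ n → ∀ (N : ℕ) (u : Fin N → Vec n), GenPos u → ∀ b P, Case 2 u b P →
      Strict1 b P := by
  intro n hn
  induction n, hn using Nat.le_induction with
  | base =>
      intro N u _ b P h v hv
      exact (h.hom.dv v).eq_zero_one b hv
  | succ n hn IH =>
      intro N' u hu b P h v hv
      obtain ⟨N, rfl⟩ : ∃ N, N' = N + 1 := ⟨N' - 1, by have := hu.1; omega⟩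
      have hn1 : 1 ≤ n := by omega
      obtain ⟨hGen, -⟩ := hS n N u hn1 hu
      rcases h.zero_or_int hP hC (by omega) one_le_two hu with rfl | ⟨x, hx⟩
      · exact dv_zero_right v
      have hT : ∀ a, dv (transl u a) P = 0 :=
        (h.near hC (by omega) hu).transl_zero hS hP hn1 hu
      obtain ⟨B, hBi, hBc, hB⟩ := facet_case hS hP hC hn1 hu hn le_rfl h
      set Ψ := dv v (dv v P)
      have hΨσ : ∀ σ, MvPolynomial.pderiv σ Ψ = dv v (dv v (MvPolynomial.pderiv σ P)) :=
        fun σ => by rw [pderiv_dv, pderiv_dv]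
      -- the facet terms have one sign
      have hAFF : ∀ σ (PF : Poly (Sd N)), Case 1 (fNormals u σ.1) (fMap u σ b) PF → ∀ z,
          (n : ℝ) * ev (fMap u σ b) PF * hForm (fMap u σ b) PF z z
            ≤ ((n : ℝ) - 1) * ev (fMap u σ b) (dv z PF) ^ 2 := by
        intro σ PF hc z
        obtain ⟨hh, U, hU, hcl, hUy⟩ := hc.near hC hn1 (hGen σ.1)
        exact hA n N _ hn1 (hGen σ.1) PF U hU hh
          (fun y hy => ⟨(hUy y hy).1.1, (hUy y hy).2⟩) _ hcl z
      have hD : ∀ σ (PF : Poly (Sd N)),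
          MvPolynomial.pderiv σ P = fJac u σ.1 • subst (fMap u σ) PF → 0 < fJac u σ.1 →
          ev (fMap u σ b) (dv (fMap u σ v) PF) = 0 := by
        intro σ PF he hJ
        have h1 := hv σ
        rw [pderiv_dv, he, dv_smul_right, ev_smul, dv_subst_fMap hP, ev_subst_fMap hP] at h1
        exact (mul_eq_zero.1 h1).resolve_left hJ.ne'
      have hterm : ∀ σ (PF : Poly (Sd N)),
          MvPolynomial.pderiv σ P = fJac u σ.1 • subst (fMap u σ) PF →
          ev b (MvPolynomial.pderiv σ Ψ)
            = fJac u σ.1 * hForm (fMap u σ b) PF (fMap u σ v) (fMap u σ v) := by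
        intro σ PF he
        rw [hΨσ, he, dv_smul_right, dv_smul_right, ev_smul, dv_subst_fMap hP, dv_subst_fMap hP,
          ev_subst_fMap hP]
        rfl
      have hnp : ∀ σ, ev b (MvPolynomial.pderiv σ Ψ) ≤ 0 := by
        intro σ
        rcases hB σ with hz | ⟨PF, hJ, he, hc, hpos, -⟩
        · rw [hΨσ, hz, dv_zero_right, dv_zero_right, ev_zero]
        · rw [hterm σ PF he]
          have h1 := hAFF σ PF hc (fMap u σ v)
          rw [hD σ PF he hJ] at h1
          have hn0 : (0 : ℝ) < n := by exact_mod_cast hn1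
          refine mul_nonpos_of_nonneg_of_nonpos hJ.le ?_
          have := mul_pos hn0 hpos
          nlinarith
      have hΨ0 : ev b Ψ = 0 := by
        show ev b (dv v (dv v P)) = 0
        rw [ev_dv]
        simp [hv]
      have hsum := weighted_sum (u := u) (b := b) (x := x) ((h.hom.dv v).dv v) fun a => by
        rw [dv_dv, dv_dv _ v P, hT, dv_zero_right, dv_zero_right]
      rw [hΨ0, mul_zero] at hsum
      have hzero : ∀ σ, ev b (MvPolynomial.pderiv σ Ψ) = 0 := by
        intro σ
        have h1 := (sum_eq_zero_iff_of_nonpos fun σ _ =>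
          mul_nonpos_of_nonneg_of_nonpos (sub_pos.2 (hx σ)).le (hnp σ)).1 hsum σ (mem_univ σ)
        exact (mul_eq_zero.1 h1).resolve_left (sub_pos.2 (hx σ)).ne'
      -- so the restriction lies in the kernel of every facet
      have hΦT : ∀ a, dv (transl u a) (dv v P) = 0 := fun a => by
        rw [dv_dv, hT, dv_zero_right]
      have hgood : ∀ σ ∉ B, MvPolynomial.pderiv σ (dv v P) = 0 := by
        intro σ hσ
        rcases hB σ with hz | ⟨PF, hJ, he, hc, hpos, hg⟩
        · rw [pderiv_dv, hz, dv_zero_right]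
        · have hH := hzero σ
          rw [hterm σ PF he] at hH
          have hker := IH N _ (hGen σ.1) _ PF (hg.resolve_left hσ) (fMap u σ v) fun τ =>
            hForm_kernel (k := (n : ℝ)) (by exact_mod_cast hn1) hpos (hAFF σ PF hc)
              (hD σ PF he hJ) ((mul_eq_zero.1 hH).resolve_left hJ.ne') τ
          rw [pderiv_dv, he, dv_smul_right, dv_subst_fMap hP, hker]
          simp [subst]
      have hall := pderiv_zero_of_small hu hΦT hBi hBc hgood
      obtain ⟨k, hk⟩ : ∃ k, n + 1 - 1 = k + 1 := ⟨n - 1, by omega⟩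
      exact Hom.eq_zero_of_pderiv (m := k) (hk ▸ h.hom.dv v) hall

/-- The inequality passes to the closure of a set of simple bodies. -/
theorem hr_near {n N : ℕ} (hn : 4 ≤ n) {u : Fin N → Vec n} (hu : GenPos u) (hH : HRAt n)
    {b : Sd N → ℝ} {P : Poly (Sd N)} (h : Near u b P) (hS : Strict1 b P) : HR b P := by
  obtain ⟨hh, U, hU, hcl, hUy⟩ := h
  obtain ⟨C, hC⟩ := approx_bound hn hh hS
  intro q hq
  have hHR : ∀ y ∈ U, HR y P := by
    intro y hy
    refine hH N u hu y P (hUy y hy).1 ⟨hh, ?_⟩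
    filter_upwards [hU.mem_nhds hy] with z hz using (hUy z hz).2
  let F : (Sd N → ℝ) → ℝ := fun y => qForm y P q q + C * ∑ σ, cVec y P q σ ^ 2
  have : (𝓝[U] b).NeBot := mem_closure_iff_nhdsWithin_neBot.1 hcl
  have hF : Continuous F :=
    (continuous_ev _).add (continuous_const.mul
      (continuous_finsetSum _ fun σ _ => (continuous_ev _).pow 2))
  have h0 : (0 : ℝ) ≤ F b := by
    refine ge_of_tendsto ((hF.tendsto b).mono_left (nhdsWithin_le_nhds (s := U))) ?_
    filter_upwards [hC.filter_mono nhdsWithin_le_nhds, self_mem_nhdsWithin] with y hy hyU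
    have := hy (hHR y hyU) q
    simp only [F]
    linarith
  simpa [F, (prim_iff b P q).1 hq] using h0

/-- The degree two kernel. -/
theorem hrStrict_case (hS : SlabSpec) (hP : PolySpec) (hC : CellSpec) (hA : AFSpec) :
    ∀ n, 4 ≤ n → (∀ m, 4 ≤ m → m < n → HRAt m) → ∀ (N : ℕ) (u : Fin N → Vec n), GenPos u →
      ∀ b P, Case 3 u b P → HR b P → HRStrict b P := by
  intro n hn
  induction n, hn using Nat.le_induction with
  | base =>
      intro _ N u hu b P h hR
      refine ⟨hR, fun q hq h0 => (h.hom.dq q).eq_zero_two b ?_⟩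
      exact ev_pderiv2_radical (qForm_radical h.hom le_rfl
        (strict1_case hS hP hC hA 4 (by norm_num) N u hu b P (h.mono (by norm_num))) hR hq h0)
  | succ n hn IH =>
      intro hH N' u hu b P h hR
      refine ⟨hR, fun q hq h0 => ?_⟩
      obtain ⟨N, rfl⟩ : ∃ N, N' = N + 1 := ⟨N' - 1, by have := hu.1; omega⟩
      have hn1 : 1 ≤ n := by omega
      obtain ⟨hGen, -⟩ := hS n N u hn1 hu
      rcases h.zero_or_int hP hC (by omega) (by norm_num) hu with rfl | ⟨x, hx⟩
      · exact dq_zero_right q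
      have hT : ∀ a, dv (transl u a) P = 0 :=
        (h.near hC (by omega) hu).transl_zero hS hP hn1 hu
      have hrad := ev_pderiv2_radical (qForm_radical h.hom (by omega)
        (strict1_case hS hP hC hA (n + 1) (by omega) (N + 1) u hu b P (h.mono (by norm_num)))
        hR hq h0)
      obtain ⟨B, hBi, hBc, hB⟩ := facet_case hS hP hC hn1 hu (by omega) (by norm_num) h
      set Ψ := dq q (dq q P)
      have hΨσ : ∀ σ, MvPolynomial.pderiv σ Ψ = dq q (dq q (MvPolynomial.pderiv σ P)) :=
        fun σ => by rw [pderiv_dq, pderiv_dq]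
      have hHn : HRAt n := hH n hn (by omega)
      have hprim : ∀ σ (PF : Poly (Sd N)),
          MvPolynomial.pderiv σ P = fJac u σ.1 • subst (fMap u σ) PF → 0 < fJac u σ.1 →
          Prim (fMap u σ b) PF (pushQ (fMap u σ) q) := by
        intro σ PF he hJ ρ
        obtain ⟨z, hz⟩ := fMap_surjective u σ (Pi.single ρ 1)
        have h1 : ev b (dv z (MvPolynomial.pderiv σ (dq q P))) = 0 := by
          simp [ev_dv, hrad]
        rw [pderiv_dq, he, dq_smul_right, dv_smul_right, ev_smul, dq_subst_fMap hP,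
          dv_subst_fMap hP, ev_subst_fMap hP, hz, dv_single] at h1
        exact (mul_eq_zero.1 h1).resolve_left hJ.ne'
      have hHRF : ∀ σ (PF : Poly (Sd N)), Case 2 (fNormals u σ.1) (fMap u σ b) PF →
          HR (fMap u σ b) PF := fun σ PF hc =>
        hr_near hn (hGen σ.1) hHn (hc.near hC hn1 (hGen σ.1))
          (strict1_case hS hP hC hA n (by omega) N _ (hGen σ.1) _ PF hc)
      have hterm : ∀ σ (PF : Poly (Sd N)),
          MvPolynomial.pderiv σ P = fJac u σ.1 • subst (fMap u σ) PF →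
          ev b (MvPolynomial.pderiv σ Ψ) = fJac u σ.1 *
            qForm (fMap u σ b) PF (pushQ (fMap u σ) q) (pushQ (fMap u σ) q) := by
        intro σ PF he
        rw [hΨσ, he, dq_smul_right, dq_smul_right, ev_smul, dq_subst_fMap hP, dq_subst_fMap hP,
          ev_subst_fMap hP]
        rfl
      have hnn : ∀ σ, 0 ≤ ev b (MvPolynomial.pderiv σ Ψ) := by
        intro σ
        rcases hB σ with hz | ⟨PF, hJ, he, hc, -, -⟩
        · rw [hΨσ, hz, dq_zero_right, dq_zero_right, ev_zero]
        · rw [hterm σ PF he]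
          exact mul_nonneg hJ.le (hHRF σ PF hc _ (hprim σ PF he hJ))
      have hΨ0 : ev b Ψ = 0 := h0
      have hsum := weighted_sum (u := u) (b := b) (x := x) ((h.hom.dq q).dq q) fun a => by
        rw [dv_dq, dv_dq, hT, dq_zero_right, dq_zero_right]
      rw [hΨ0, mul_zero] at hsum
      have hzero : ∀ σ, ev b (MvPolynomial.pderiv σ Ψ) = 0 := by
        intro σ
        have h1 := (sum_eq_zero_iff_of_nonneg fun σ _ =>
          mul_nonneg (sub_pos.2 (hx σ)).le (hnn σ)).1 hsum σ (mem_univ σ)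
        exact (mul_eq_zero.1 h1).resolve_left (sub_pos.2 (hx σ)).ne'
      have hΦT : ∀ a, dv (transl u a) (dq q P) = 0 := fun a => by
        rw [dv_dq, hT, dq_zero_right]
      have hgood : ∀ σ ∉ B, MvPolynomial.pderiv σ (dq q P) = 0 := by
        intro σ hσ
        rcases hB σ with hz | ⟨PF, hJ, he, hc, -, hg⟩
        · rw [pderiv_dq, hz, dq_zero_right]
        · have hH0 := hzero σ
          rw [hterm σ PF he] at hH0
          have hker := (IH (fun m hm hmn => hH m hm (by omega)) N _ (hGen σ.1) _ PF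
            (hg.resolve_left hσ) (hHRF σ PF hc)).2 _ (hprim σ PF he hJ)
              ((mul_eq_zero.1 hH0).resolve_left hJ.ne')
          rw [pderiv_dq, he, dq_smul_right, dq_subst_fMap hP, hker]
          simp [subst]
      have hall := pderiv_zero_of_small hu hΦT hBi hBc hgood
      obtain ⟨k, hk⟩ : ∃ k, n + 1 - 2 = k + 1 := ⟨n - 2, by omega⟩
      exact Hom.eq_zero_of_pderiv (m := k) (hk ▸ h.hom.dq q) hall

/-- The kernels in degree one and two. -/
theorem strictSpec (hS : SlabSpec) (hP : PolySpec) (hC : CellSpec) (hA : AFSpec) :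
    StrictSpec := by
  intro n N u hn hu
  refine ⟨fun b P hb hl => strict1_case hS hP hC hA n hn N u hu b P (Or.inl ⟨hb, hl⟩),
    fun b lam PA hW hl hk hm =>
      strict1_case hS hP hC hA n hn N u hu b PA (Or.inr ⟨lam, hW, hl, hk, hm⟩),
    fun hn4 hH => ⟨fun b P hb hl hR =>
      hrStrict_case hS hP hC hA n hn4 hH N u hu b P (Or.inl ⟨hb, hl⟩) hR,
    fun b lam PA hW hl hk hm hR =>
      hrStrict_case hS hP hC hA n hn4 hH N u hu b PA (Or.inr ⟨lam, hW, hl, hk, hm⟩) hR⟩⟩

end Vale.Agent.P227.LpN.Strict
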