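import Vale.Agent.P227.LpN.Concave

/-!
# P227 `LpN`: facets for the symmetric layer

A body of positive width and zero volume is empty or a point whose tight cone is trivial, so the
volume does not change along the ray through it. The facet map commutes with translations.
-/

namespace Vale.Agent.P227.LpN

open MeasureTheory Set Filter Finset Matrix
open scoped Topology

variable {n N : ℕ} {u : Fin N → Vec n}

namespace BM

lemma dot_bijective (hu : GenPos u) (e : Fin n ↪ Fin N) :
    Function.Bijective fun z : Vec n => fun k => z ⬝ᵥ u (e k) := by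
  have hM : IsUnit (Matrix.of fun k => u (e k)) := by
    rw [← Matrix.linearIndependent_rows_iff_isUnit]
    exact hu.2 e
  have he : (fun z : Vec n => fun k => z ⬝ᵥ u (e k)) = (Matrix.of fun k => u (e k)).mulVec := by
    funext z k; exact dotProduct_comm _ _
  rw [he]
  exact ⟨Matrix.mulVec_injective_iff_isUnit.2 hM, Matrix.mulVec_surjective_iff_isUnit.2 hM⟩

lemma eq_zero_of_ortho (hu : GenPos u) {S : Finset (Fin N)} (hS : n ≤ S.card) {z : Vec n}
    (hz : ∀ l ∈ S, z ⬝ᵥ u l = 0) : z = 0 := by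
  obtain ⟨S', hsub, hc⟩ := Finset.exists_subset_card_eq hS
  refine (dot_bijective hu (S'.orderEmbOfFin hc).toEmbedding).1 (funext fun k => ?_)
  simpa using hz _ (hsub (Finset.orderEmbOfFin_mem S' hc k))

lemma exists_dot_eq (hu : GenPos u) {S : Finset (Fin N)} (hS : S.card ≤ n) (f : Fin N → ℝ) :
    ∃ w : Vec n, ∀ l ∈ S, w ⬝ᵥ u l = f l := by
  obtain ⟨S', hsub, hc⟩ : ∃ S' : Finset (Fin N), S ⊆ S' ∧ S'.card = n :=
    Finset.exists_superset_card_eq hS (by simpa using hu.1.le)
  obtain ⟨w, hw⟩ := (dot_bijective hu (S'.orderEmbOfFin hc).toEmbedding).2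
    (fun k => f (S'.orderEmbOfFin hc k))
  refine ⟨w, fun l hl => ?_⟩
  obtain ⟨k, rfl⟩ : l ∈ Set.range (S'.orderEmbOfFin hc) := by
    rw [Finset.range_orderEmbOfFin]; exact hsub hl
  exact congrFun hw k

lemma nrm_pair (u : Fin N → Vec n) (i : Fin N) (s : Bool) (x : Vec n) :
    x ⬝ᵥ nrm u (i, s) = sgn s * (x ⬝ᵥ u i) := by simp [nrm]

lemma tight_injOn {b : Sd N → ℝ} (hw : Width b) (p : Vec n) :
    Set.InjOn Prod.fst (↑(tight u b p) : Set (Sd N)) := by
  rintro ⟨i, s⟩ hs ⟨j, t⟩ ht (rfl : i = j)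
  simp only [tight, Finset.coe_filter, Finset.mem_univ, true_and, Set.mem_ofPred_eq,
    nrm_pair] at hs ht
  have := hw i
  cases s <;> cases t <;> simp only [sgn, Bool.false_eq_true, if_false, if_true] at hs ht ⊢ <;>
    first | rfl | linarith

/-- A body of positive width and no volume has a point with trivial tight cone. -/
lemma degenerate (hu : GenPos u) {b : Sd N → ℝ} (hw : Width b) (hv : vol u b = 0)
    (hne : (body u b).Nonempty) :
    ∃ p ∈ body u b, ∀ z : Vec n, (∀ σ ∈ tight u b p, z ⬝ᵥ nrm u σ ≤ 0) → z = 0 := by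
  classical
  have hline : ∀ (p z : Vec n) σ, Continuous fun e : ℝ => (p + e • z) ⬝ᵥ nrm u σ := fun p z σ => by
    simp only [dotProduct]; fun_prop
  have hoff : ∀ p ∈ body u b, ∀ z : Vec n, ∀ᶠ e : ℝ in 𝓝[>] 0, ∀ σ, σ ∉ tight u b p →
      (p + e • z) ⬝ᵥ nrm u σ < b σ := fun p hp z =>
    nhdsWithin_le_nhds (eventually_all.2 fun σ => by
      by_cases hσ : σ ∈ tight u b p
      · exact Eventually.of_forall fun e h => absurd hσ h
      · have hlt : (p + (0 : ℝ) • z) ⬝ᵥ nrm u σ < b σ := by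
          rw [zero_smul, add_zero]
          exact lt_of_le_of_ne (hp σ) fun h => hσ (by simp [tight, h])
        filter_upwards [(hline p z σ).continuousAt.eventually_lt_const hlt] with e he using
          fun _ => he)
  have hon : ∀ (p : Vec n) (z : Vec n) (e : ℝ) σ, σ ∈ tight u b p →
      (p + e • z) ⬝ᵥ nrm u σ = b σ + e * (z ⬝ᵥ nrm u σ) := fun p z e σ hσ => by
    simp only [tight, Finset.mem_filter, Finset.mem_univ, true_and] at hσ
    simp [add_dotProduct, hσ]
  obtain ⟨p, hp, hmin⟩ := (⟨_, Function.argminOn_mem (fun p => (tight u b p).card) _ hne,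
    fun q hq => Function.argminOn_le (fun p => (tight u b p).card) _ hq⟩ :
      ∃ p, p ∈ body u b ∧ ∀ q ∈ body u b, (tight u b p).card ≤ (tight u b q).card)
  refine ⟨p, hp, fun z hz => ?_⟩
  have hflat : ∀ σ ∈ tight u b p, z ⬝ᵥ nrm u σ = 0 := by
    intro τ hτ
    by_contra hne'
    have hlt : z ⬝ᵥ nrm u τ < 0 := lt_of_le_of_ne (hz τ hτ) hne'
    obtain ⟨e, he, he0⟩ := ((hoff p hp z).and self_mem_nhdsWithin).exists
    have hq : p + e • z ∈ body u b := fun σ => by
      by_cases hσ : σ ∈ tight u b p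
      · rw [hon p z e σ hσ]
        nlinarith [hz σ hσ, show (0 : ℝ) < e from he0]
      · exact (he σ hσ).le
    have hsub : tight u b (p + e • z) ⊆ (tight u b p).erase τ := by
      intro σ hσ
      simp only [tight, Finset.mem_filter, Finset.mem_univ, true_and] at hσ
      have hσp : σ ∈ tight u b p := by
        by_contra hc
        exact (he σ hc).ne hσ
      refine Finset.mem_erase.2 ⟨?_, hσp⟩
      rintro rfl
      rw [hon p z e σ hσp] at hσ
      nlinarith [show (0 : ℝ) < e from he0]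
    have h1 := (hmin _ hq).trans (Finset.card_le_card hsub)
    have h2 := Finset.card_erase_lt_of_mem hτ
    omega
  have hcard : ((tight u b p).image Prod.fst).card = (tight u b p).card :=
    Finset.card_image_of_injOn (tight_injOn hw p)
  rcases le_or_gt n ((tight u b p).image Prod.fst).card with hc | hc
  · refine eq_zero_of_ortho hu hc fun l hl => ?_
    obtain ⟨⟨i, s⟩, hσ, rfl⟩ := Finset.mem_image.1 hl
    have := hflat _ hσ
    rw [nrm_pair] at this
    exact (mul_eq_zero.1 this).resolve_left (by cases s <;> simp [sgn])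
  -- otherwise an interior point would exist
  obtain ⟨w, hw'⟩ := exists_dot_eq hu hc.le
    (fun l => if (l, true) ∈ tight u b p then (-1 : ℝ) else 1)
  have hwn : ∀ σ ∈ tight u b p, w ⬝ᵥ nrm u σ = -1 := by
    rintro ⟨i, s⟩ hσ
    rw [nrm_pair, hw' i (Finset.mem_image.2 ⟨_, hσ, rfl⟩)]
    cases s
    · have : (i, true) ∉ tight u b p := fun h =>
        absurd (tight_injOn hw p hσ h rfl) (by simp)
      simp [this, sgn]
    · simp [hσ, sgn]
  obtain ⟨e, he, he0⟩ := ((hoff p hp w).and self_mem_nhdsWithin).exists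
  have hint : HasInt u b := ⟨p + e • w, fun σ => by
    by_cases hσ : σ ∈ tight u b p
    · rw [hon p w e σ hσ, hwn σ hσ]
      linarith [show (0 : ℝ) < e from he0]
    · exact he σ hσ⟩
  exact absurd hv (vol_pos_of_hasInt hu hint).ne'

lemma eventually_empty (hu : GenPos u) {b : Sd N → ℝ} (hb : body u b = ∅) :
    ∀ᶠ y in 𝓝 b, body u y = ∅ := by
  obtain ⟨c, hc⟩ : ∃ c : Sd N → ℝ, c = fun σ => b σ + 1 := ⟨_, rfl⟩
  have h1 : ∀ᶠ y in 𝓝 b, ∀ x ∈ body u c, ∃ σ, y σ < x ⬝ᵥ nrm u σ := by
    refine (Kernel.isCompact_body hu c).eventually_forall_of_forall_eventually fun x _ => ?_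
    obtain ⟨σ, hσ⟩ : ∃ σ, b σ < x ⬝ᵥ nrm u σ := by
      by_contra hno
      push Not at hno
      exact (Set.eq_empty_iff_forall_notMem.1 hb x) hno
    have hcont : Continuous fun q : (Sd N → ℝ) × Vec n => q.2 ⬝ᵥ nrm u σ - q.1 σ := by
      simp only [dotProduct]; fun_prop
    filter_upwards [hcont.continuousAt.eventually_const_lt (sub_pos.2 hσ)] with q hq using
      ⟨σ, sub_pos.1 hq⟩
  have h2 : ∀ᶠ y in 𝓝 b, ∀ σ, y σ ≤ c σ := eventually_all.2 fun σ =>
    (continuous_apply σ).tendsto b (Iic_mem_nhds (by rw [hc]; linarith))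
  filter_upwards [h1, h2] with y hy1 hy2
  refine Set.eq_empty_iff_forall_notMem.2 fun x hx => ?_
  obtain ⟨σ, hσ⟩ := hy1 x fun τ => (hx τ).trans (hy2 τ)
  exact absurd (hx σ) (not_le.2 hσ)

lemma transl_smul (u : Fin N → Vec n) (t : ℝ) (a : Vec n) :
    transl u (t • a) = t • transl u a := by
  funext σ; simp [transl]

lemma transl_neg (u : Fin N → Vec n) (a : Vec n) : transl u (-a) = -transl u a := by
  funext σ; simp [transl]

/-- Near a body of no volume the volume is constant along the ray through it. -/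
lemma ray_const (hu : GenPos u) (hn : 1 ≤ n) {b : Sd N → ℝ} (hw : Width b) (hv : vol u b = 0) :
    ∀ᶠ y in 𝓝 b, ∀ᶠ t : ℝ in 𝓝 0, vol u (y + t • b) = vol u y := by
  classical
  rcases Set.eq_empty_or_nonempty (body u b) with hb | hb
  · filter_upwards [(eventually_empty hu hb).eventually_nhds] with y hy
    have ht : Tendsto (fun t : ℝ => y + t • b) (𝓝 0) (𝓝 y) :=
      (show Continuous fun t : ℝ => y + t • b by fun_prop).tendsto' 0 y (by simp)
    filter_upwards [ht.eventually hy] with t h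
    rw [vol, vol, h, hy.self_of_nhds]
  obtain ⟨p, hp, hcone⟩ := degenerate hu hw hv hb
  obtain ⟨T, hT⟩ : ∃ T, T = tight u b p := ⟨_, rfl⟩
  obtain ⟨c, hc⟩ : ∃ c : Sd N → ℝ, c = b - transl u p := ⟨_, rfl⟩
  have hc0 : ∀ σ ∈ T, c σ = 0 := fun σ hσ => by
    rw [hT] at hσ
    simp only [tight, Finset.mem_filter, Finset.mem_univ, true_and] at hσ
    simp [hc, transl, hσ]
  have hcpos : ∀ σ, σ ∉ T → 0 < c σ := fun σ hσ => by
    have : p ⬝ᵥ nrm u σ < b σ :=
      lt_of_le_of_ne (hp σ) fun h => hσ (by rw [hT]; simp [tight, h])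
    simpa [hc, transl] using this
  have : Nonempty (Fin n) := ⟨⟨0, hn⟩⟩
  have hTne : T.Nonempty := by
    by_contra hno
    rw [Finset.not_nonempty_iff_eq_empty] at hno
    have := hcone (fun _ => (1 : ℝ)) fun σ hσ => by rw [← hT, hno] at hσ; simp at hσ
    exact one_ne_zero (congrFun this ⟨0, hn⟩)
  obtain ⟨f, hf⟩ : ∃ f : Vec n → ℝ, f = fun z => T.sup' hTne fun σ => z ⬝ᵥ nrm u σ := ⟨_, rfl⟩
  have hfc : Continuous f := by
    rw [hf]
    exact Continuous.finset_sup'_apply hTne fun σ _ => by simp only [dotProduct]; fun_prop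
  have hsne : (Metric.sphere (0 : Vec n) 1).Nonempty := ⟨fun _ => 1, by simp [pi_norm_const]⟩
  obtain ⟨z0, hz0, hzmin⟩ := (isCompact_sphere (0 : Vec n) 1).exists_isMinOn hsne hfc.continuousOn
  have hδ : 0 < f z0 := by
    by_contra hno
    push Not at hno
    rw [hf] at hno
    have : z0 = 0 := hcone z0 fun σ hσ => by
      rw [← hT] at hσ
      exact (Finset.le_sup' (fun σ => z0 ⬝ᵥ nrm u σ) hσ).trans hno
    simp [this] at hz0
  have hbound : ∀ z : Vec n, ∃ σ ∈ T, f z0 * ‖z‖ ≤ z ⬝ᵥ nrm u σ := fun z => by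
    rcases eq_or_ne z 0 with rfl | hz
    · obtain ⟨σ, hσ⟩ := hTne
      exact ⟨σ, hσ, by simp⟩
    have hzn : 0 < ‖z‖ := norm_pos_iff.2 hz
    have hm : ‖z‖⁻¹ • z ∈ Metric.sphere (0 : Vec n) 1 := by
      simp [norm_smul, hzn.ne']
    obtain ⟨σ, hσ, he⟩ := T.exists_mem_eq_sup' hTne fun σ => (‖z‖⁻¹ • z) ⬝ᵥ nrm u σ
    refine ⟨σ, hσ, ?_⟩
    have := hzmin hm
    simp only [Set.mem_ofPred_eq] at this
    rw [hf] at this ⊢
    simp only at this ⊢
    rw [he, smul_dotProduct, smul_eq_mul, ← div_eq_inv_mul, le_div_iff₀ hzn] at this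
    exact this
  obtain ⟨η, hη, hηs⟩ : ∃ η > (0 : ℝ), ∀ z : Vec n, ‖z‖ ≤ η → ∀ σ, σ ∉ T →
      z ⬝ᵥ nrm u σ ≤ c σ / 2 := by
    have hev : ∀ᶠ z : Vec n in 𝓝 0, ∀ σ, σ ∉ T → z ⬝ᵥ nrm u σ ≤ c σ / 2 :=
      eventually_all.2 fun σ => by
        by_cases hσ : σ ∈ T
        · exact Eventually.of_forall fun z h => absurd hσ h
        · have hcz : Continuous fun z : Vec n => z ⬝ᵥ nrm u σ := by
            simp only [dotProduct]; fun_prop
          filter_upwards [hcz.continuousAt.eventually_lt_const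
            (show (0 : Vec n) ⬝ᵥ nrm u σ < c σ / 2 by
              rw [zero_dotProduct]; linarith [hcpos σ hσ])] with z hz using fun _ => hz.le
    obtain ⟨e, he, hes⟩ := Metric.eventually_nhds_iff.1 hev
    exact ⟨e / 2, half_pos he, fun z hz => hes (by rw [dist_zero_right]; linarith)⟩
  have hnear : ∀ᶠ y in 𝓝 b, ∀ σ, (σ ∈ T → y σ - b σ ≤ f z0 * η) ∧
      (σ ∉ T → -(c σ / 4) ≤ y σ - b σ) := eventually_all.2 fun σ => by
    have ht : Tendsto (fun y : Sd N → ℝ => y σ - b σ) (𝓝 b) (𝓝 0) :=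
      ((continuous_apply σ).sub continuous_const).tendsto' b 0 (by simp)
    by_cases hσ : σ ∈ T
    · filter_upwards [ht.eventually_le_const (mul_pos hδ hη)] with y hy using
        ⟨fun _ => hy, fun h => absurd hσ h⟩
    · filter_upwards [ht.eventually_const_le (show -(c σ / 4) < 0 by linarith [hcpos σ hσ])]
        with y hy using ⟨fun h => absurd h hσ, fun _ => hy⟩
  filter_upwards [hnear] with y hy
  filter_upwards [Metric.closedBall_mem_nhds (0 : ℝ) (show (0 : ℝ) < 1 / 4 by norm_num)] with t ht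
  rw [Real.closedBall_eq_Icc, zero_sub, zero_add] at ht
  obtain ⟨d, hd⟩ : ∃ d, d = y - b := ⟨_, rfl⟩
  have key : ∀ s ∈ Set.Icc (-(1 / 4) : ℝ) (1 / 4),
      body u (c + d + s • c) = {z | ∀ σ ∈ T, z ⬝ᵥ nrm u σ ≤ d σ} := by
    intro s hs
    ext z
    constructor
    · intro hz σ hσ
      have := hz σ
      simp only [Pi.add_apply, Pi.smul_apply, smul_eq_mul, hc0 σ hσ] at this
      linarith
    · intro hz σ
      simp only [Pi.add_apply, Pi.smul_apply, smul_eq_mul]
      by_cases hσ : σ ∈ T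
      · rw [hc0 σ hσ]; linarith [hz σ hσ]
      · obtain ⟨τ, hτ, hτ'⟩ := hbound z
        have hz' : ‖z‖ ≤ η := by
          have h1 := hτ'.trans (hz τ hτ)
          have h2 := (hy τ).1 hτ
          simp only [hd, Pi.sub_apply] at h1
          exact le_of_mul_le_mul_left (h1.trans h2) hδ
        have h3 := hηs z hz' σ hσ
        have h4 := (hy σ).2 hσ
        have h5 : -(1 / 4) * c σ ≤ s * c σ := mul_le_mul_of_nonneg_right hs.1 (hcpos σ hσ).le
        simp only [hd, Pi.sub_apply]
        linarith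
  have e1 : y + t • b = c + d + t • c + transl u ((1 + t) • p) := by
    rw [transl_smul, hc, hd]; module
  have e2 : y = c + d + (0 : ℝ) • c + transl u p := by rw [hc, hd]; module
  calc vol u (y + t • b) = vol u (c + d + t • c) := by rw [e1, vol_transl]
    _ = vol u (c + d + (0 : ℝ) • c) := by
        rw [vol, vol, key t ht, key 0 ⟨by norm_num, by norm_num⟩]
    _ = vol u y := by conv_rhs => rw [e2, vol_transl]

section facet

variable {u : Fin (N + 1) → Vec (n + 1)}

lemma ne_zero_of_genPos {m M : ℕ} {w : Fin M → Vec m} (hw : GenPos w) (hm : 1 ≤ m) (l : Fin M) :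
    w l ≠ 0 := by
  intro h
  obtain ⟨S, hS, hc⟩ := Finset.exists_superset_card_eq (s := {l}) (by simpa using hm)
    (by simpa using hw.1.le)
  obtain ⟨v, hv⟩ := exists_dot_eq hw hc.le fun _ => 1
  simpa [h] using hv l (hS (Finset.mem_singleton_self l))

lemma pivot_ne {v : Vec (n + 1)} (hv : v ≠ 0) : v (pivot v) ≠ 0 := by
  have h : ∃ j, v j ≠ 0 := by
    by_contra hno
    push Not at hno
    exact hv (funext hno)
  rw [pivot, dif_pos h]
  exact h.choose_spec

lemma fJac_pos (hu : GenPos u) (l : Fin (N + 1)) : 0 < fJac u l :=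
  inv_pos.2 (abs_pos.2 (pivot_ne (ne_zero_of_genPos hu n.succ_pos l)))

lemma fMap_transl (hu : GenPos u) (σ : Sd (N + 1)) (a : Vec (n + 1)) :
    fMap u σ (transl u a) =
      transl (fNormals u σ.1) (fun k => a ((pivot (u σ.1)).succAbove k)) := by
  obtain ⟨l, s⟩ := σ
  funext τ
  obtain ⟨j, t⟩ := τ
  have hp := pivot_ne (ne_zero_of_genPos hu n.succ_pos l)
  have hs : sgn s * sgn s = 1 := by cases s <;> simp [sgn]
  have hzero : u (l.succAbove j) (pivot (u l)) -
      fCoef u l (l.succAbove j) * u l (pivot (u l)) = 0 := by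
    rw [fCoef, div_mul_cancel₀ _ hp, sub_self]
  calc fMap u (l, s) (transl u a) (j, t)
      = sgn t * (a ⬝ᵥ u (l.succAbove j))
        - sgn t * fCoef u l (l.succAbove j) * (sgn s * sgn s * (a ⬝ᵥ u l)) := by
        simp only [fMap, transl, nrm_pair, LinearMap.coe_mk, AddHom.coe_mk]
        ring
    _ = sgn t * ∑ k, a k * (u (l.succAbove j) k - fCoef u l (l.succAbove j) * u l k) := by
        rw [hs, one_mul]
        simp only [dotProduct, mul_sub, Finset.sum_sub_distrib, Finset.mul_sum]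
        congr 1
        exact Finset.sum_congr rfl fun k _ => by ring
    _ = sgn t * ∑ k, a ((pivot (u l)).succAbove k) *
          fNormals u l j k := by
        rw [Fin.sum_univ_succAbove _ (pivot (u l)), hzero, mul_zero, zero_add]
        rfl
    _ = transl (fNormals u l) (fun k => a ((pivot (u l)).succAbove k)) (j, t) := by
        simp [transl, dotProduct, nrm, Finset.mul_sum, mul_left_comm]

end facet

end BM

end Vale.Agent.P227.LpN
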