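import Vale.Agent.P227.LpN.Spec

/-!
# Elementary facts about `tauVal` and the penalty
-/

namespace Vale.Agent.P227.LpN

open MeasureTheory Set Filter Finset Matrix
open scoped Topology

set_option linter.unusedSectionVars false

namespace Port

variable {n N : ℕ} [NeZero n] {u : Fin N → Vec n} {h : Fin N → ℝ}

lemma mem_body_dbl {x : Vec n} : x ∈ body u (dbl h) ↔ ∀ i, |x ⬝ᵥ u i| ≤ h i := by
  constructor
  · intro hx i
    have h1 := hx (i, true)
    have h2 := hx (i, false)
    simp [nrm, sgn, dbl] at h1 h2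
    exact abs_le.2 ⟨by linarith, h1⟩
  · rintro hx ⟨i, s⟩
    obtain ⟨h1, h2⟩ := abs_le.1 (hx i)
    cases s <;> simp [nrm, sgn, dbl] <;> linarith

lemma exists_emb (hu : GenPos u) (hn : 1 ≤ n) (i : Fin N) :
    ∃ e : Fin n ↪ Fin N, i ∈ Set.range e := by
  have h0 : 0 < N := Nat.lt_of_le_of_lt (Nat.zero_le n) hu.1
  set σ := Equiv.swap (⟨0, h0⟩ : Fin N) i
  refine ⟨(Fin.castLEEmb hu.1.le).trans σ.toEmbedding, ⟨0, hn⟩, ?_⟩
  show σ ((Fin.castLEEmb hu.1.le) ⟨0, hn⟩) = i
  rw [show Fin.castLEEmb hu.1.le ⟨0, hn⟩ = (⟨0, h0⟩ : Fin N) from rfl]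
  exact Equiv.swap_apply_left _ _

lemma isOpen_pos : IsOpen {h : Fin N → ℝ | Pos h} := by
  have e : {h : Fin N → ℝ | Pos h} = ⋂ i, {h | 0 < h i} := by ext; simp [Pos]
  rw [e]
  exact isOpen_iInter_of_finite fun i => isOpen_lt continuous_const (continuous_apply i)

lemma pos_mem_nhds (hh : Pos h) : {h : Fin N → ℝ | Pos h} ∈ 𝓝 h := isOpen_pos.mem_nhds hh

lemma pos_line (hh : Pos h) (z : Fin N → ℝ) : ∀ᶠ s : ℝ in 𝓝 0, Pos (h + s • z) := by
  have hc : Continuous fun s : ℝ => h + s • z := by fun_prop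
  exact hc.tendsto' 0 h (by simp) (pos_mem_nhds hh)

lemma hasDerivAt_line (h z : Fin N → ℝ) (s : ℝ) : HasDerivAt (fun t : ℝ => h + t • z) z s := by
  simpa using ((hasDerivAt_id s).smul_const z).const_add h

lemma vol_line (hg : SymFacts u) {z : Fin N → ℝ} {s : ℝ} (hs : Pos (h + s • z)) :
    HasDerivAt (fun t => svol u (h + t • z)) (form1 u (h + s • z) z) s := by
  have := (hg.vol_fderiv _ hs).comp_hasDerivAt s (hasDerivAt_line h z s)
  simpa [form1, _root_.sum_apply, Function.comp_def] using this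

lemma form1_line (hg : SymFacts u) {z : Fin N → ℝ} {s : ℝ} (hs : Pos (h + s • z)) :
    HasDerivAt (fun t => form1 u (h + t • z) z) (form2 u (h + s • z) z z) s := by
  have := HasDerivAt.fun_sum (u := (Finset.univ : Finset (Fin N)))
    (fun i _ => ((hg.area_fderiv _ hs i).comp_hasDerivAt s (hasDerivAt_line h z s)).mul_const (z i))
  simp only [form1] at this ⊢
  refine (this.congr_deriv ?_)
  simp only [form2]
  refine Finset.sum_congr rfl fun i _ => ?_
  simp only [_root_.sum_apply, _root_.smul_apply, ContinuousLinearMap.proj_apply, smul_eq_mul,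
    Finset.sum_mul]
  exact Finset.sum_congr rfl fun j _ => by ring

lemma hess_row_zero (hg : SymFacts u) (hh : Pos h) {i : Fin N} (hi : sarea u h i = 0) (j : Fin N) :
    shess u h i j = 0 := by
  have hm : IsLocalMin (fun g => sarea u g i) h := by
    filter_upwards [pos_mem_nhds hh] with g hg'
    rw [hi]
    exact hg.area_nonneg g hg' i
  have h0 := hm.hasFDerivAt_eq_zero (hg.area_fderiv h hh i)
  simpa [_root_.sum_apply, Pi.single_apply] using
    congrArg (fun L : (Fin N → ℝ) →L[ℝ] ℝ => L (Pi.single j (1 : ℝ))) h0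

lemma form1_self (hg : SymFacts u) (hh : Pos h) : form1 u h h = n * svol u h :=
  hg.euler_vol h hh

lemma form2_comm (hg : SymFacts u) (hh : Pos h) (a b : Fin N → ℝ) :
    form2 u h a b = form2 u h b a := by
  simp only [form2]
  rw [Finset.sum_comm]
  exact Finset.sum_congr rfl fun i _ => Finset.sum_congr rfl fun j _ => by
    rw [hg.hess_symm h hh j i]; ring

lemma form2_self_right (hg : SymFacts u) (hh : Pos h) (a : Fin N → ℝ) :
    form2 u h a h = ((n : ℝ) - 1) * form1 u h a := by
  simp only [form2, form1, Finset.mul_sum]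
  refine Finset.sum_congr rfl fun i _ => ?_
  have : ∑ j, shess u h i j * a i * h j = (∑ j, shess u h i j * h j) * a i := by
    rw [Finset.sum_mul]
    exact Finset.sum_congr rfl fun j _ => by ring
  rw [this, hg.euler_area h hh i]
  ring

lemma form1_add (a b : Fin N → ℝ) (c : ℝ) :
    form1 u h (a + c • b) = form1 u h a + c * form1 u h b := by
  simp only [form1, Finset.mul_sum, ← Finset.sum_add_distrib]
  exact Finset.sum_congr rfl fun i _ => by simp; ring

lemma form1_smul (a : Fin N → ℝ) (c : ℝ) : form1 u h (c • a) = c * form1 u h a := by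
  simp only [form1, Finset.mul_sum]
  exact Finset.sum_congr rfl fun i _ => by simp; ring

lemma varForm_eq_sum (hg : SymFacts u) (hh : Pos h) (z : Fin N → ℝ) :
    varForm u h z =
      ∑ i, sarea u h i * (z i - form1 u h z / (n * svol u h) * h i) ^ 2 / h i := by
  set c := form1 u h z / (n * svol u h) with hc
  have hn : (n : ℝ) ≠ 0 := Nat.cast_ne_zero.2 (NeZero.ne n)
  have hV : svol u h ≠ 0 := (hg.vol_pos h hh).ne'
  have e : ∀ i, sarea u h i * (z i - c * h i) ^ 2 / h i =
      sarea u h i * z i ^ 2 / h i - 2 * c * (sarea u h i * z i) + c ^ 2 * (sarea u h i * h i) := by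
    intro i
    have := (hh i).ne'
    field_simp
    ring
  simp only [e, Finset.sum_add_distrib, Finset.sum_sub_distrib, ← Finset.mul_sum, hg.euler_vol h hh]
  rw [← form1, varForm, hc]
  field_simp
  ring

lemma varForm_nonneg (hg : SymFacts u) (hh : Pos h) (z : Fin N → ℝ) : 0 ≤ varForm u h z := by
  rw [varForm_eq_sum hg hh]
  exact Finset.sum_nonneg fun i _ =>
    div_nonneg (mul_nonneg (hg.area_nonneg h hh i) (sq_nonneg _)) (hh i).le

lemma rForm_mono (hg : SymFacts u) (hh : Pos h) (z : Fin N → ℝ) {s t : ℝ} (hst : s ≤ t) :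
    rForm u s h z ≤ rForm u t h z := by
  simp only [rForm]
  nlinarith [varForm_nonneg hg hh z]

lemma form2_shift (hg : SymFacts u) (hh : Pos h) (z : Fin N → ℝ) (c : ℝ) :
    form2 u h (z + c • h) (z + c • h) =
      form2 u h z z + 2 * ((n : ℝ) - 1) * c * form1 u h z +
        ((n : ℝ) - 1) * n * c ^ 2 * svol u h := by
  have e : form2 u h (z + c • h) (z + c • h) =
      form2 u h z z + c * form2 u h z h + c * form2 u h h z + c ^ 2 * form2 u h h h := by
    simp only [form2, Finset.mul_sum, ← Finset.sum_add_distrib]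
    exact Finset.sum_congr rfl fun i _ => Finset.sum_congr rfl fun j _ => by simp; ring
  rw [e, form2_comm hg hh h z, form2_self_right hg hh z, form2_self_right hg hh h,
    form1_self hg hh]
  ring

lemma varForm_shift (hg : SymFacts u) (hh : Pos h) (z : Fin N → ℝ) (c : ℝ) :
    varForm u h (z + c • h) = varForm u h z := by
  rw [varForm_eq_sum hg hh, varForm_eq_sum hg hh, form1_add, form1_self hg hh]
  have hn : (n : ℝ) ≠ 0 := Nat.cast_ne_zero.2 (NeZero.ne n)
  have hV : svol u h ≠ 0 := (hg.vol_pos h hh).ne'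
  refine Finset.sum_congr rfl fun i _ => ?_
  have : (z + c • h) i - (form1 u h z + c * (n * svol u h)) / (n * svol u h) * h i =
      z i - form1 u h z / (n * svol u h) * h i := by
    simp only [Pi.add_apply, Pi.smul_apply, smul_eq_mul]
    field_simp
    ring
  rw [this]

/-- `R_τ` does not see multiples of `h`. -/
lemma rForm_shift (hg : SymFacts u) (hh : Pos h) (τ : ℝ) (z : Fin N → ℝ) (c : ℝ) :
    rForm u τ h (z + c • h) = rForm u τ h z := by
  have hn : (n : ℝ) ≠ 0 := Nat.cast_ne_zero.2 (NeZero.ne n)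
  have hV : svol u h ≠ 0 := (hg.vol_pos h hh).ne'
  simp only [rForm, form2_shift hg hh, varForm_shift hg hh, form1_add, form1_self hg hh]
  field_simp
  ring

lemma rForm_smul (τ : ℝ) (z : Fin N → ℝ) (c : ℝ) :
    rForm u τ h (c • z) = c ^ 2 * rForm u τ h z := by
  have e2 : form2 u h (c • z) (c • z) = c ^ 2 * form2 u h z z := by
    simp only [form2, Finset.mul_sum]
    exact Finset.sum_congr rfl fun i _ => Finset.sum_congr rfl fun j _ => by simp; ring
  have e3 : ∑ i, sarea u h i * (c • z) i ^ 2 / h i = c ^ 2 * ∑ i, sarea u h i * z i ^ 2 / h i := by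
    rw [Finset.mul_sum]
    exact Finset.sum_congr rfl fun i _ => by simp; ring
  simp only [rForm, varForm, e2, e3, form1_smul]
  ring

/-- `R_τ` only sees the pairs carrying area. -/
lemma rForm_congr (hg : SymFacts u) (hh : Pos h) (τ : ℝ) {z z' : Fin N → ℝ}
    (he : ∀ i, sarea u h i ≠ 0 → z i = z' i) : rForm u τ h z = rForm u τ h z' := by
  have e1 : form1 u h z = form1 u h z' := by
    refine Finset.sum_congr rfl fun i _ => ?_
    rcases eq_or_ne (sarea u h i) 0 with h0 | h0
    · simp [h0]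
    · rw [he i h0]
  have e2 : form2 u h z z = form2 u h z' z' := by
    refine Finset.sum_congr rfl fun i _ => Finset.sum_congr rfl fun j _ => ?_
    rcases eq_or_ne (sarea u h i) 0 with h0 | h0
    · simp [hess_row_zero hg hh h0]
    rcases eq_or_ne (sarea u h j) 0 with h1 | h1
    · simp [hg.hess_symm h hh i j, hess_row_zero hg hh h1]
    rw [he i h0, he j h1]
  have e3 : ∑ i, sarea u h i * z i ^ 2 / h i = ∑ i, sarea u h i * z' i ^ 2 / h i := by
    refine Finset.sum_congr rfl fun i _ => ?_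
    rcases eq_or_ne (sarea u h i) 0 with h0 | h0
    · simp [h0]
    · rw [he i h0]
  simp only [rForm, varForm, e1, e2, e3]

/-- Brunn–Minkowski at second order. -/
lemma rForm_zero_le (hg : SymFacts u) (hn : 1 ≤ n) (hh : Pos h) (z : Fin N → ℝ) :
    rForm u 0 h z ≤ 0 := by
  obtain ⟨ε, hε, hball⟩ := Metric.eventually_nhds_iff.1 (pos_line hh z)
  set p : ℝ := 1 / n with hp
  have hI : ∀ s ∈ Set.Ioo (-ε) ε, Pos (h + s • z) := fun s hs =>
    hball (by rw [Real.dist_eq, sub_zero, abs_lt]; exact ⟨hs.1, hs.2⟩)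
  have hd : ∀ s ∈ Set.Ioo (-ε) ε, HasDerivAt (fun t => svol u (h + t • z) ^ p)
      (form1 u (h + s • z) z * p * svol u (h + s • z) ^ (p - 1)) s := fun s hs =>
    (vol_line hg (hI s hs)).rpow_const (Or.inl (hg.vol_pos _ (hI s hs)).ne')
  have hconc : ConcaveOn ℝ (Set.Ioo (-ε) ε) (fun t => svol u (h + t • z) ^ p) := by
    refine ⟨convex_Ioo _ _, fun x hx y hy a b ha hb' hab => ?_⟩
    have := hg.vol_concave.2 (hI x hx) (hI y hy) ha hb' hab
    simp only [smul_eq_mul] at this ⊢
    convert this using 3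
    ext i
    simp only [Pi.add_apply, Pi.smul_apply, smul_eq_mul]
    linear_combination -(h i) * hab
  have hanti : AntitoneOn (fun s => form1 u (h + s • z) z * p * svol u (h + s • z) ^ (p - 1))
      (Set.Ioo (-ε) ε) := by
    intro x hx y hy hxy
    have := hconc.antitoneOn_deriv (fun s hs => (hd s hs).differentiableAt) hx hy hxy
    rwa [(hd x hx).deriv, (hd y hy).deriv] at this
  have h0 : Pos (h + (0 : ℝ) • z) := by simpa using hh
  have hder := ((form1_line hg h0).mul_const p).fun_mul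
    ((vol_line hg h0).rpow_const (p := p - 1) (Or.inl (hg.vol_pos _ h0).ne'))
  have hle := nonpos_of_hasDerivAt_antitone hder hanti (Ioo_mem_nhds (by linarith) hε)
  simp only [zero_smul, add_zero] at hle
  have hV := hg.vol_pos h hh
  have e : svol u h ^ (p - 1) = svol u h ^ (p - 1 - 1) * svol u h := by
    rw [← Real.rpow_add_one hV.ne']; ring_nf
  rw [e, hp] at hle
  have hn0 : (0 : ℝ) < n := by exact_mod_cast hn
  have hpos : 0 < (1 : ℝ) / n * svol u h ^ ((1 : ℝ) / n - 1 - 1) :=
    mul_pos (by positivity) (Real.rpow_pos_of_pos hV _)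
  have hfac : form2 u h z z * svol u h + ((1 : ℝ) / n - 1) * form1 u h z ^ 2 ≤ 0 := by
    by_contra hc
    push Not at hc
    nlinarith [mul_pos hc hpos]
  simp only [rForm, zero_mul, add_zero]
  rw [sub_nonpos, le_div_iff₀ (by positivity)]
  have e : ((n : ℝ) - 1) * form1 u h z ^ 2 =
      -((n : ℝ) * (((1 : ℝ) / n - 1) * form1 u h z ^ 2)) := by
    field_simp
    ring
  rw [e]
  nlinarith [mul_le_mul_of_nonneg_left hfac hn0.le]
where
  nonpos_of_hasDerivAt_antitone {f : ℝ → ℝ} {f' : ℝ} {s : Set ℝ} (hf : HasDerivAt f f' 0)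
      (ha : AntitoneOn f s) (hs : s ∈ 𝓝 (0 : ℝ)) : f' ≤ 0 := by
    refine le_of_tendsto hf.tendsto_slope_zero_right ?_
    filter_upwards [mem_nhdsWithin_of_mem_nhds hs, self_mem_nhdsWithin] with t ht (h0 : 0 < t)
    have := ha (mem_of_mem_nhds hs) ht h0.le
    simp only [zero_add, smul_eq_mul]
    exact mul_nonpos_of_nonneg_of_nonpos (inv_nonneg.2 h0.le) (by linarith)

end Port

open Port

/-- `TauSpec`. -/
theorem tauSpec (hS : SymSpec) : TauSpec := by
  intro n N u hn hu h hh
  have hg := hS n N u hn hu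
  have : NeZero n := ⟨by omega⟩
  set S := {τ : ℝ | 0 ≤ τ ∧ τ ≤ 1 ∧ ∀ z, rForm u τ h z ≤ 0} with hS
  have h0 : (0 : ℝ) ∈ S := ⟨le_rfl, zero_le_one, rForm_zero_le hg (by omega) hh⟩
  have hbdd : BddAbove S := ⟨1, fun τ hτ => hτ.2.1⟩
  set τ := tauVal u h with hτdef
  have hτ0 : 0 ≤ τ := le_csSup hbdd h0
  have hτ1 : τ ≤ 1 := csSup_le ⟨0, h0⟩ fun s hs => hs.2.1
  have hle : ∀ z, rForm u τ h z ≤ 0 := by
    intro z
    rcases (varForm_nonneg hg hh z).eq_or_lt with hv | hv
    · simpa [rForm, ← hv] using rForm_zero_le hg (by omega) hh z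
    · have : τ ≤ -(form2 u h z z - ((n : ℝ) - 1) * form1 u h z ^ 2 / (n * svol u h)) / varForm u h z := by
        refine csSup_le ⟨0, h0⟩ fun s hs => ?_
        rw [le_div_iff₀ hv]
        have := hs.2.2 z
        simp only [rForm] at this
        linarith
      rw [le_div_iff₀ hv] at this
      simp only [rForm]
      linarith
  refine ⟨hτ0, hτ1, hle, fun hlt => ?_⟩
  set K := {z : Fin N → ℝ | (∀ i, sarea u h i = 0 → z i = 0) ∧ form1 u h z = 0 ∧
    ∑ i, z i ^ 2 = 1} with hK
  have hvpos : ∀ z ∈ K, 0 < varForm u h z := by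
    rintro z ⟨hz0, hz1, hz2⟩
    obtain ⟨i, -, hi⟩ := Finset.exists_ne_zero_of_sum_ne_zero (hz2.trans_ne one_ne_zero)
    have hzi : z i ≠ 0 := fun e => hi (by simp [e])
    have ha : 0 < sarea u h i :=
      lt_of_le_of_ne (hg.area_nonneg h hh i) fun e => hzi (hz0 i e.symm)
    rw [varForm_eq_sum hg hh, hz1]
    refine Finset.sum_pos' (fun j _ =>
      div_nonneg (mul_nonneg (hg.area_nonneg h hh j) (sq_nonneg _)) (hh j).le) ⟨i, mem_univ _, ?_⟩
    simp only [zero_div, zero_mul, sub_zero]
    exact div_pos (mul_pos ha (by positivity)) (hh i)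
  by_contra hno
  push Not at hno
  have hneg : ∀ z ∈ K, rForm u τ h z < 0 := fun z hz =>
    lt_of_le_of_ne (hle z) (hno z hz.1 hz.2.1 (hvpos z hz))
  have hKc : IsCompact K := by
    refine Metric.isCompact_of_isClosed_isBounded ?_ ?_
    · refine IsClosed.inter ?_ (IsClosed.inter ?_ ?_)
      · have e : {z : Fin N → ℝ | ∀ i, sarea u h i = 0 → z i = 0} =
            ⋂ i, {z | sarea u h i = 0 → z i = 0} := by ext; simp
        change IsClosed {z : Fin N → ℝ | ∀ i, sarea u h i = 0 → z i = 0}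
        rw [e]
        refine isClosed_iInter fun i => ?_
        by_cases hi : sarea u h i = 0
        · simpa [hi] using isClosed_eq (continuous_apply i) continuous_const
        · simp [hi]
      · exact isClosed_eq (show Continuous fun z : Fin N → ℝ => ∑ i, sarea u h i * z i by fun_prop)
          continuous_const
      · exact isClosed_eq (by fun_prop) continuous_const
    · refine (Metric.isBounded_iff_subset_closedBall 0).2 ⟨1, fun z hz => ?_⟩
      rw [Metric.mem_closedBall, dist_zero_right, pi_norm_le_iff_of_nonneg zero_le_one]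
      intro i
      have hz2 : z i ^ 2 ≤ 1 :=
        le_trans (Finset.single_le_sum (f := fun i => z i ^ 2) (fun j _ => sq_nonneg _)
          (mem_univ i)) hz.2.2.le
      rw [Real.norm_eq_abs, abs_le]
      constructor <;> nlinarith
  have hcR : Continuous fun z => rForm u τ h z := by
    simp only [rForm, varForm, form1, form2]; fun_prop
  have hcV : Continuous fun z => varForm u h z := by simp only [varForm, form1]; fun_prop
  have key : ∃ δ > 0, ∀ z ∈ K, rForm u τ h z + δ * varForm u h z ≤ 0 := by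
    rcases K.eq_empty_or_nonempty with he | hne
    · exact ⟨1, one_pos, by simp [he]⟩
    obtain ⟨z₁, hz₁, hm⟩ := hKc.exists_isMaxOn hne hcR.continuousOn
    obtain ⟨z₂, hz₂, hM⟩ := hKc.exists_isMaxOn hne hcV.continuousOn
    refine ⟨-rForm u τ h z₁ / varForm u h z₂,
      div_pos (by linarith [hneg z₁ hz₁]) (hvpos z₂ hz₂), fun z hz => ?_⟩
    have a1 : rForm u τ h z ≤ rForm u τ h z₁ := hm hz
    have a2 : varForm u h z ≤ varForm u h z₂ := hM hz
    have : -rForm u τ h z₁ / varForm u h z₂ * varForm u h z ≤ -rForm u τ h z₁ := by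
      rw [div_mul_eq_mul_div, div_le_iff₀ (hvpos z₂ hz₂)]
      exact mul_le_mul_of_nonneg_left a2 (by linarith [hneg z₁ hz₁])
    linarith
  obtain ⟨δ, hδ, hδK⟩ := key
  set τ' := min 1 (τ + δ) with hτ'
  have hmem : τ' ∈ S := by
    refine ⟨le_min zero_le_one (by linarith), min_le_left _ _, fun z => ?_⟩
    set c := -(form1 u h z) / (n * svol u h) with hc
    set w : Fin N → ℝ := fun i => if sarea u h i = 0 then 0 else (z + c • h) i with hw
    have hwe : ∀ i, sarea u h i ≠ 0 → (z + c • h) i = w i := fun i hi => by simp [hw, hi]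
    rw [← rForm_shift hg hh τ' z c, rForm_congr hg hh τ' hwe]
    have hw1 : form1 u h w = 0 := by
      have : form1 u h w = form1 u h (z + c • h) := by
        refine Finset.sum_congr rfl fun i _ => ?_
        by_cases hi : sarea u h i = 0
        · simp [hi]
        · rw [hwe i hi]
      have hn : (n : ℝ) ≠ 0 := Nat.cast_ne_zero.2 (NeZero.ne n)
      have hV : svol u h ≠ 0 := (hg.vol_pos h hh).ne'
      rw [this, form1_add, form1_self hg hh, hc]
      field_simp
      ring
    set q := Real.sqrt (∑ i, w i ^ 2) with hq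
    by_cases hq0 : q = 0
    · have : w = 0 := by
        rw [hq, Real.sqrt_eq_zero (Finset.sum_nonneg fun i _ => sq_nonneg _),
          Finset.sum_eq_zero_iff_of_nonneg (fun i _ => sq_nonneg _)] at hq0
        ext i
        simpa using hq0 i (mem_univ i)
      have e0 := rForm_smul (u := u) (h := h) τ' w 0
      simp [this] at e0 ⊢
      linarith
    have hq2 : q ^ 2 = ∑ i, w i ^ 2 := Real.sq_sqrt (Finset.sum_nonneg fun i _ => sq_nonneg _)
    have hwK : q⁻¹ • w ∈ K := by
      refine ⟨fun i hi => by simp [hw, hi], by simp [form1_smul, hw1], ?_⟩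
      simp only [Pi.smul_apply, smul_eq_mul, mul_pow, ← Finset.mul_sum, ← hq2]
      field_simp
    have h1 := hδK _ hwK
    have h2 : rForm u τ' h (q⁻¹ • w) ≤ 0 := by
      have := rForm_mono hg hh (q⁻¹ • w) (min_le_right 1 (τ + δ))
      simp only [rForm] at this h1 ⊢
      linarith
    rw [rForm_smul] at h2
    exact nonpos_of_mul_nonpos_right h2 (by positivity)
  have : τ' ≤ τ := le_csSup hbdd hmem
  have : τ < τ' := lt_min hlt (by linarith)
  linarith

namespace Port

variable {n N : ℕ} [NeZero n] {u : Fin N → Vec n} {h : Fin N → ℝ}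

lemma ballSupp_pos (hu : GenPos u) (hn : 1 ≤ n) : Pos (ballSupp u) := by
  intro i
  obtain ⟨e, j, rfl⟩ := exists_emb hu hn i
  refine Real.sqrt_pos.2 (lt_of_le_of_ne (Finset.sum_nonneg fun l _ => mul_self_nonneg _) fun h0 => ?_)
  exact (hu.2 e).ne_zero j (dotProduct_self_eq_zero.1 h0.symm)

/-- The isoperimetric inequality from concavity. -/
lemma surf_ge (hg : SymFacts u) (hu : GenPos u) (hn : 1 ≤ n) (hh : Pos h) :
    (n : ℝ) * svol u (ballSupp u) ^ ((1 : ℝ) / n) * svol u h ^ (((n : ℝ) - 1) / n) ≤ surf u h := by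
  set b := ballSupp u
  set p : ℝ := 1 / n with hp
  have hn0 : (0 : ℝ) < n := by exact_mod_cast hn
  have hbp : Pos b := ballSupp_pos hu hn
  have hV := hg.vol_pos h hh
  have h0 : Pos (h + (0 : ℝ) • b) := by simpa using hh
  have hd := (vol_line hg h0).rpow_const (p := p) (Or.inl (hg.vol_pos _ h0).ne')
  simp only [zero_smul, add_zero] at hd
  have hge : svol u b ^ p ≤ form1 u h b * p * svol u h ^ (p - 1) := by
    refine ge_of_tendsto hd.tendsto_slope_zero_right ?_
    filter_upwards [self_mem_nhdsWithin] with s (hs : 0 < s)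
    simp only [zero_add, zero_smul, add_zero, smul_eq_mul]
    have hc := hg.vol_concave.2 hh hbp (show (0:ℝ) ≤ 1 / (1 + s) by positivity)
      (show (0:ℝ) ≤ s / (1 + s) by positivity) (by field_simp)
    simp only [smul_eq_mul, ← hp] at hc
    have hm : Pos ((1 / (1 + s)) • h + (s / (1 + s)) • b) := fun i => by
      have := hh i; have := hbp i
      simp only [Pi.add_apply, Pi.smul_apply, smul_eq_mul]; positivity
    have e : h + s • b = (1 + s) • ((1 / (1 + s)) • h + (s / (1 + s)) • b) := by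
      ext i; simp only [Pi.add_apply, Pi.smul_apply, smul_eq_mul]; field_simp
    have hv : svol u (h + s • b) ^ p =
        (1 + s) * svol u ((1 / (1 + s)) • h + (s / (1 + s)) • b) ^ p := by
      rw [e, hg.vol_hom _ hm _ (by positivity),
        Real.mul_rpow (by positivity) (hg.vol_pos _ hm).le, ← Real.rpow_natCast _ n,
        ← Real.rpow_mul (by positivity), hp, mul_one_div_cancel hn0.ne', Real.rpow_one]
    rw [le_inv_mul_iff₀ hs, hv]
    have h1 := mul_le_mul_of_nonneg_left hc (show (0:ℝ) ≤ 1 + s by positivity)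
    have : (1 + s) * (1 / (1 + s) * svol u h ^ p + s / (1 + s) * svol u b ^ p) =
        svol u h ^ p + s * svol u b ^ p := by field_simp
    linarith
  have e : svol u h ^ (p - 1) * svol u h ^ (((n : ℝ) - 1) / n) = 1 := by
    rw [← Real.rpow_add hV, hp, show (1 : ℝ) / n - 1 + ((n : ℝ) - 1) / n = 0 by field_simp; ring,
      Real.rpow_zero]
  have h2 := mul_le_mul_of_nonneg_right hge (Real.rpow_pos_of_pos hV (((n : ℝ) - 1) / n)).le
  rw [mul_assoc (form1 u h b * p), e, mul_one] at h2
  rw [surf]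
  calc (n : ℝ) * svol u b ^ ((1 : ℝ) / n) * svol u h ^ (((n : ℝ) - 1) / n)
      = n * (svol u b ^ p * svol u h ^ (((n : ℝ) - 1) / n)) := by rw [hp]; ring
    _ ≤ n * (form1 u h b * p) := mul_le_mul_of_nonneg_left h2 hn0.le
    _ = form1 u h b := by rw [hp]; field_simp

lemma surf_pos (hg : SymFacts u) (hu : GenPos u) (hn : 1 ≤ n) (hh : Pos h) :
    0 < surf u h :=
  lt_of_lt_of_le (mul_pos (mul_pos (by exact_mod_cast hn)
    (Real.rpow_pos_of_pos (hg.vol_pos _ (ballSupp_pos hu hn)) _))
    (Real.rpow_pos_of_pos (hg.vol_pos h hh) _)) (surf_ge hg hu hn hh)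

end Port

open Port

/-- `PenaltySpec`. -/
theorem penaltySpec (hS : SymSpec) : PenaltySpec := by
  intro n N u hn hu
  have hg := hS n N u hn hu
  have : NeZero n := ⟨by omega⟩
  have hn1 : 1 ≤ n := by omega
  refine ⟨Real.log ((n : ℝ) * svol u (ballSupp u) ^ ((1 : ℝ) / n)), fun h hh => ?_⟩
  have hb3 : 0 < (n : ℝ) * svol u (ballSupp u) ^ ((1 : ℝ) / n) :=
    mul_pos (by exact_mod_cast hn1) (Real.rpow_pos_of_pos (hg.vol_pos _ (ballSupp_pos hu hn1)) _)
  have hv := hg.vol_pos h hh
  have h1 := Real.log_le_log (mul_pos hb3 (Real.rpow_pos_of_pos hv _))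
    (surf_ge hg hu hn1 hh)
  rw [Real.log_mul hb3.ne' (Real.rpow_pos_of_pos hv _).ne', Real.log_rpow hv] at h1
  simp only [penalty]
  linarith

end Vale.Agent.P227.LpN
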