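import Vale.Agent.P227.LpN.VarGerm

/-!
First and second variation of the penalised functional along parabolas at a minimiser.
-/

namespace Vale.Agent.P227.LpN.Var

open Filter Finset Set Matrix MvPolynomial
open scoped Topology
open Vale.Agent.P227.Lp3 (Ex2)

variable {n N : ℕ} {u : Fin N → Vec n}

/-- A minimiser `g` of the penalised functional, with an extremal perturbation `z`. -/
structure Crit (u : Fin N → Vec n) (η τ : ℝ) (g z : Fin N → ℝ) : Prop where
  dim : 4 ≤ n
  gen : GenPos u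
  geo : SymFacts u
  eta : 0 ≤ η
  prop : Proper u g
  tau : τ = tauVal u g
  le_all : ∀ h, Pos h → ∀ v, rForm u (tauVal u h) h v ≤ 0
  min : ∀ h, Pos h → tauVal u g + η * penalty u g ≤ tauVal u h + η * penalty u h
  f1 : form1 u g z = 0
  zero : rForm u τ g z = 0

lemma surf_pos (G : SymFacts u) (hu : GenPos u) {h : Fin N → ℝ} (hh : Pos h) : 0 < surf u h := by
  obtain ⟨C, hC, hb⟩ := G.vol_le_surf
  have hN : 0 < N := lt_of_le_of_lt (Nat.zero_le n) hu.1
  exact pos_of_mul_pos_right ((G.vol_pos h hh).trans_le (hb h hh ⟨0, hN⟩))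
    (mul_pos hC (hh _)).le

namespace Crit

variable {η τ : ℝ} {g z : Fin N → ℝ}

lemma pos (C : Crit u η τ g z) : Pos g := C.prop.1

lemma var_eq (C : Crit u η τ g z) :
    varForm u g z = ∑ i, sarea u g i * z i ^ 2 / g i := by
  simp [varForm, C.f1]

lemma form2_eq (C : Crit u η τ g z) : form2 u g z z = -τ * varForm u g z := by
  have := C.zero
  simp only [rForm, C.f1] at this
  linear_combination this

/-- The extremal equation. -/
lemma lin_eq (C : Crit u η τ g z) (i : Fin N) :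
    ∑ j, shess u g i j * z j = -τ * (sarea u g i * z i / g i) := by
  obtain ⟨B, hB⟩ : ∃ B, B = (∑ j, shess u g i j * z j) + τ * (sarea u g i * z i / g i) := ⟨_, rfl⟩
  suffices B = 0 by linarith
  have hs := C.geo.hess_symm g C.pos
  obtain ⟨e, he⟩ : ∃ e : Fin N → ℝ, e = Pi.single i 1 := ⟨_, rfl⟩
  obtain ⟨R, hR⟩ : ∃ R, R = form2 u g e e - ((n : ℝ) - 1) * sarea u g i ^ 2 / (n * svol u g)
      + τ * (sarea u g i / g i - sarea u g i ^ 2 / (n * svol u g)) := ⟨_, rfl⟩
  have e2 : ∀ s : ℝ, form2 u g (z + s • e) (z + s • e) =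
      form2 u g z z + 2 * s * (∑ j, shess u g i j * z j) + s ^ 2 * form2 u g e e := by
    intro s
    have h0 : form2 u g (z + s • e) (z + s • e) =
        form2 u g z z + s * form2 u g e z + s * form2 u g z e + s ^ 2 * form2 u g e e := by
      simp only [form2, Finset.mul_sum, ← sum_add_distrib]
      exact sum_congr rfl fun a _ => sum_congr rfl fun b _ => by simp; ring
    have e3 : form2 u g e z = ∑ j, shess u g i j * z j := by
      simp [form2, he, Pi.single_apply]
    have e4 : form2 u g z e = form2 u g e z := by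
      simp only [form2]
      rw [Finset.sum_comm]
      exact sum_congr rfl fun a _ => sum_congr rfl fun b _ => by rw [hs b a]; ring
    rw [h0, e4, e3]; ring
  have e1 : ∀ s : ℝ, form1 u g (z + s • e) = s * sarea u g i := by
    intro s
    have h0 : form1 u g (z + s • e) = form1 u g z + s * form1 u g e := by
      simp only [form1, Pi.add_apply, Pi.smul_apply, smul_eq_mul, Finset.mul_sum, ← sum_add_distrib]
      exact sum_congr rfl fun j _ => by ring
    rw [h0, C.f1, zero_add, he]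
    simp [form1, Pi.single_apply]
  have eW : ∀ s : ℝ, ∑ l, sarea u g l * (z + s • e) l ^ 2 / g l =
      varForm u g z + 2 * s * (sarea u g i * z i / g i) + s ^ 2 * (sarea u g i / g i) := by
    intro s
    rw [C.var_eq]
    have : ∀ l, sarea u g l * (z + s • e) l ^ 2 / g l =
        sarea u g l * z l ^ 2 / g l + (if l = i then 2 * s * (sarea u g i * z i / g i)
          + s ^ 2 * (sarea u g i / g i) else 0) := by
      intro l
      rcases eq_or_ne l i with rfl | hl
      · simp [he]; ring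
      · simp [he, hl]
    rw [sum_congr rfl fun l _ => this l, sum_add_distrib, Finset.sum_ite_eq']
    simp; ring
  have key : ∀ s : ℝ, 2 * s * B + s ^ 2 * R ≤ 0 := by
    intro s
    have h := C.le_all g C.pos (z + s • e)
    rw [← C.tau] at h
    unfold rForm varForm at h
    rw [e2 s, e1 s, eW s, C.form2_eq] at h
    rw [hB, hR]
    linear_combination h
  have hd : 0 < |R| + 1 := by positivity
  have h := key (B / (|R| + 1))
  have h' : B ^ 2 * (2 * (|R| + 1) + R) / (|R| + 1) ^ 2 ≤ 0 := by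
    refine le_of_eq_of_le ?_ h
    field_simp
  by_contra hne
  have : 0 < B ^ 2 * (2 * (|R| + 1) + R) / (|R| + 1) ^ 2 := by
    have : 0 < 2 * (|R| + 1) + R := by linarith [neg_abs_le R]
    positivity
  linarith

/-- The two first coefficients of the functional along a parabola inside a germ. -/
theorem path (C : Crit u η τ g z) (hP : PolySpec) {R : Poly (Fin N)} {U : Set (Fin N → ℝ)}
    (hR : Germ u R U) {a c : Fin N → ℝ} {ε : ℝ} (hε : 0 < ε)
    (hc : ∀ t ∈ Set.Ico (0 : ℝ) ε, g + t • a + (t ^ 2 / 2) • c ∈ closure U)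
    {T3 T4 D1 W1 W2 V1 V2 S1 S2 : ℝ} (hT3 : T3 = ev g (dv a (dv z (dv z R))))
    (hT4 : T4 = (ev g (dv c (dv z (dv z R))) + ev g (dv a (dv a (dv z (dv z R))))) / 2)
    (hD1 : D1 = ev g (dv a (dv z R)))
    (hW1 : W1 = ∑ i, z i ^ 2 * (sarea u g i * (-a i / g i ^ 2)
      + ev g (dv a (pderiv i R)) * (g i)⁻¹))
    (hW2 : W2 = ∑ i, z i ^ 2 * (sarea u g i * ((a i ^ 2 - g i * (c i / 2)) / g i ^ 3)
      + ev g (dv a (pderiv i R)) * (-a i / g i ^ 2)
      + (ev g (dv c (pderiv i R)) + ev g (dv a (dv a (pderiv i R)))) / 2 * (g i)⁻¹))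
    (hV1 : V1 = ev g (dv a R)) (hV2 : V2 = (ev g (dv c R) + ev g (dv a (dv a R))) / 2)
    (hS1 : S1 = ev g (dv a (dv (ballSupp u) R)))
    (hS2 : S2 = (ev g (dv c (dv (ballSupp u) R))
      + ev g (dv a (dv a (dv (ballSupp u) R)))) / 2) :
    T3 + τ * W1 - η * ((S1 / surf u g - ((n : ℝ) - 1) / n * (V1 / svol u g)) * varForm u g z) ≤ 0 ∧
      (T3 + τ * W1
          - η * ((S1 / surf u g - ((n : ℝ) - 1) / n * (V1 / svol u g)) * varForm u g z) = 0 →
        T4 - ((n : ℝ) - 1 + τ) * (D1 ^ 2 / (n * svol u g)) + τ * W2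
          - η * ((S2 / surf u g
              - ((n : ℝ) - 1) / n * (V2 / svol u g - V1 ^ 2 / svol u g ^ 2)) * varForm u g z
            + (S1 / surf u g - ((n : ℝ) - 1) / n * (V1 / svol u g)) * W1) ≤ 0) := by
  have G := C.geo
  have hg0 : g ∈ closure U := by
    have := hc 0 ⟨le_rfl, hε⟩
    simpa using this
  obtain ⟨Z, hZ⟩ : ∃ Z, Z = varForm u g z := ⟨_, rfl⟩
  obtain ⟨V, hV⟩ : ∃ V, V = svol u g := ⟨_, rfl⟩
  obtain ⟨S, hS⟩ : ∃ S, S = surf u g := ⟨_, rfl⟩
  obtain ⟨k, hk⟩ : ∃ k, k = ((n : ℝ) - 1) / n := ⟨_, rfl⟩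
  have hn : (4 : ℝ) ≤ n := by exact_mod_cast C.dim
  have hk0 : 0 ≤ k := hk ▸ div_nonneg (by linarith) (by linarith)
  have hV0 : 0 < V := hV ▸ G.vol_pos g C.pos
  have hS0 : 0 < S := hS ▸ surf_pos G C.gen C.pos
  have hnV : (n : ℝ) * V ≠ 0 := (mul_pos (by linarith) hV0).ne'
  have q0 : ev g (dv z (dv z R)) = -τ * Z := by
    rw [← hR.form2_eq hP G C.pos hg0, C.form2_eq, hZ]
  have D0 : ev g (dv z R) = 0 := by rw [← hR.form1_eq hP G C.pos hg0, C.f1]
  have V0 : ev g R = V := by rw [← hR.vol_eq G C.pos hg0, hV]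
  have A0 : ∀ i, ev g (pderiv i R) = sarea u g i := fun i => (hR.area_eq hP G C.pos hg0 i).symm
  have S0 : ev g (dv (ballSupp u) R) = S := by
    rw [← hR.form1_eq hP G C.pos hg0, hS, surf]
  -- scalar expansions along the parabola
  have xq := ex2_poly (dv z (dv z R)) g a c
  have xD := ex2_poly (dv z R) g a c
  have xV := ex2_poly R g a c
  have xS := ex2_poly (dv (ballSupp u) R) g a c
  have xI : ∀ i, Ex2 (fun t => ((g + t • a + (t ^ 2 / 2) • c) i)⁻¹)
      (g i)⁻¹ (-a i / g i ^ 2) ((a i ^ 2 - g i * (c i / 2)) / g i ^ 3) := by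
    intro i
    exact (((Ex2.poly (g i) (a i) (c i / 2)).congr (fun t => by simp; ring)).inv (C.pos i).ne')
  have xW := Ex2.sum Finset.univ fun i (_ : i ∈ Finset.univ) =>
    (((ex2_poly (pderiv i R) g a c).mul (xI i))).smul (z i ^ 2)
  have eW : ∑ i, z i ^ 2 * (ev g (pderiv i R) * (g i)⁻¹) = Z := by
    rw [hZ, C.var_eq]
    exact sum_congr rfl fun i _ => by rw [A0]; ring
  simp only [A0] at xW
  simp only [A0] at eW
  rw [eW, ← hW1, ← hW2] at xW
  rw [q0, ← hT3, ← hT4] at xq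
  rw [D0, ← hD1] at xD
  rw [V0, ← hV1, ← hV2] at xV
  rw [S0, ← hS1, ← hS2] at xS
  have xDV := (xD.mul xD).mul ((xV.smul (n : ℝ)).inv hnV)
  have xVar := xW.sub xDV
  have xR := (xq.sub (xDV.smul ((n : ℝ) - 1))).add (xVar.smul τ)
  have xP := ((xS.sub (Ex2.const S)).smul S⁻¹).add
    ((((Ex2.const V).sub xV).mul (xV.inv hV0.ne')).smul k)
  have xF := (xR.sub ((xP.mul xVar).smul η))
  rw [← hZ, ← hV, ← hS, ← hk]
  have hcast : Ex2 (fun t => ev (g + t • a + (t ^ 2 / 2) • c) (dv z (dv z R))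
      - ((n : ℝ) - 1) * (ev (g + t • a + (t ^ 2 / 2) • c) (dv z R)
        * ev (g + t • a + (t ^ 2 / 2) • c) (dv z R)
        * ((n : ℝ) * ev (g + t • a + (t ^ 2 / 2) • c) R)⁻¹)
      + τ * (∑ i, z i ^ 2 * (ev (g + t • a + (t ^ 2 / 2) • c) (pderiv i R)
          * ((g + t • a + (t ^ 2 / 2) • c) i)⁻¹)
        - ev (g + t • a + (t ^ 2 / 2) • c) (dv z R) * ev (g + t • a + (t ^ 2 / 2) • c) (dv z R)
          * ((n : ℝ) * ev (g + t • a + (t ^ 2 / 2) • c) R)⁻¹)
      - η * ((S⁻¹ * (ev (g + t • a + (t ^ 2 / 2) • c) (dv (ballSupp u) R) - S)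
          + k * ((V - ev (g + t • a + (t ^ 2 / 2) • c) R)
            * (ev (g + t • a + (t ^ 2 / 2) • c) R)⁻¹))
        * (∑ i, z i ^ 2 * (ev (g + t • a + (t ^ 2 / 2) • c) (pderiv i R)
            * ((g + t • a + (t ^ 2 / 2) • c) i)⁻¹)
          - ev (g + t • a + (t ^ 2 / 2) • c) (dv z R) * ev (g + t • a + (t ^ 2 / 2) • c) (dv z R)
            * ((n : ℝ) * ev (g + t • a + (t ^ 2 / 2) • c) R)⁻¹)))
      0 (T3 + τ * W1 - η * ((S1 / S - k * (V1 / V)) * Z))
      (T4 - ((n : ℝ) - 1 + τ) * (D1 ^ 2 / (n * V)) + τ * W2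
          - η * ((S2 / S - k * (V2 / V - V1 ^ 2 / V ^ 2)) * Z
            + (S1 / S - k * (V1 / V)) * W1)) := by
    obtain ⟨r, hr, hr0, he⟩ := xF
    refine ⟨r, hr, ?_, ?_⟩
    · rw [hr0]; field_simp; ring
    · filter_upwards [he] with t e
      rw [e]; field_simp; ring
  refine hcast.right ?_
  have hpos : ∀ᶠ t in 𝓝 (0 : ℝ), Pos (g + t • a + (t ^ 2 / 2) • c) := by
    refine eventually_all.2 fun i => ?_
    have : ContinuousAt (fun t : ℝ => (g + t • a + (t ^ 2 / 2) • c) i) 0 := by fun_prop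
    exact this.eventually_const_lt (by simpa using C.pos i)
  filter_upwards [Ico_mem_nhdsGT_of_mem (Set.mem_Ico.2 ⟨le_rfl, hε⟩),
    hpos.filter_mono nhdsWithin_le_nhds] with t ht hp
  obtain ⟨p, hpd⟩ : ∃ p, p = g + t • a + (t ^ 2 / 2) • c := ⟨_, rfl⟩
  rw [← hpd] at hp
  have hpU : p ∈ closure U := hpd ▸ hc t ht
  simp only [← hpd]
  have h1 := hR.form1_eq hP G hp hpU z
  have h2 := hR.vol_eq G hp hpU
  have h3 : surf u p = ev p (dv (ballSupp u) R) := by rw [surf]; exact hR.form1_eq hP G hp hpU _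
  have h4 : ∑ i, z i ^ 2 * (ev p (pderiv i R) * (p i)⁻¹) = ∑ i, sarea u p i * z i ^ 2 / p i :=
    sum_congr rfl fun i _ => by rw [hR.area_eq hP G hp hpU]; ring
  rw [← h1, ← h2, ← h3, h4, ← hR.form2_eq hP G hp hpU]
  have hVp := G.vol_pos p hp
  have hSp := surf_pos G C.gen hp
  have hΨ : penalty u p - penalty u g ≤
      S⁻¹ * (surf u p - S) + k * ((V - svol u p) * (svol u p)⁻¹) := by
    unfold penalty
    rw [← hV, ← hS, ← hk]
    have l1 := Real.log_le_sub_one_of_pos (div_pos hSp hS0)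
    have l2 := Real.log_le_sub_one_of_pos (div_pos hV0 hVp)
    rw [Real.log_div hSp.ne' hS0.ne'] at l1
    rw [Real.log_div hV0.ne' hVp.ne'] at l2
    have q1 : surf u p / S - 1 = S⁻¹ * (surf u p - S) := by field_simp
    have q2 : V / svol u p - 1 = (V - svol u p) * (svol u p)⁻¹ := by field_simp
    rw [q1] at l1
    rw [q2] at l2
    have := mul_le_mul_of_nonneg_left l2 hk0
    linarith
  have hv := Kernel.varForm_nonneg G (by have := C.dim; omega) hp z
  have hr := C.le_all p hp z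
  have hm := C.min p hp
  rw [← C.tau] at hm
  have step : (τ - tauVal u p) * varForm u p z ≤
      η * (S⁻¹ * (surf u p - S) + k * ((V - svol u p) * (svol u p)⁻¹)) * varForm u p z := by
    refine mul_le_mul_of_nonneg_right ?_ hv
    have := mul_le_mul_of_nonneg_left hΨ C.eta
    linarith
  simp only [rForm, varForm] at hr step
  linear_combination hr + step

end Crit

end Vale.Agent.P227.LpN.Var
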