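import Vale.Agent.P227.LpN.VarPoly
import Vale.Agent.P227.LpN.Kernel

/-!
At the closure of an open set on which the volume is one polynomial, the derivatives of the
volume are those of the polynomial.
-/

namespace Vale.Agent.P227.LpN.Var

open Filter Finset Set Matrix MvPolynomial
open scoped Topology

variable {n N : ℕ} {u : Fin N → Vec n}

lemma coef_unique {a b : Fin N → ℝ}
    (e : (∑ i, a i • ContinuousLinearMap.proj (R := ℝ) (φ := fun _ : Fin N => ℝ) i)
      = ∑ i, b i • ContinuousLinearMap.proj (R := ℝ) i) (k : Fin N) : a k = b k := by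
  have := congrArg (fun L : (Fin N → ℝ) →L[ℝ] ℝ => L (Pi.single k 1)) e
  simpa [_root_.sum_apply, Pi.single_apply] using this

lemma continuous_ev {ι : Type} (P : Poly ι) : Continuous fun y : ι → ℝ => ev y P :=
  MvPolynomial.continuous_eval P

lemma eq_of_mem_closure {F : (Fin N → ℝ) → ℝ} {P : Poly (Fin N)} {U : Set (Fin N → ℝ)}
    {p : Fin N → ℝ} (hF : ContinuousOn F {h | Pos h}) (hp : Pos p) (hpU : p ∈ closure U)
    (heq : ∀ y ∈ U, F y = ev y P) : F p = ev p P := by
  have : (𝓝[U] p).NeBot := mem_closure_iff_nhdsWithin_neBot.1 hpU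
  refine tendsto_nhds_unique_of_eventuallyEq (l := 𝓝[U] p)
    ((hF.continuousAt (Kernel.pos_mem_nhds hp)).tendsto.mono_left nhdsWithin_le_nhds)
    ((continuous_ev P).continuousAt.tendsto.mono_left nhdsWithin_le_nhds) ?_
  filter_upwards [self_mem_nhdsWithin] with y hy using heq y hy

/-- `R` is the volume on the open set `U`. -/
structure Germ (u : Fin N → Vec n) (R : Poly (Fin N)) (U : Set (Fin N → ℝ)) : Prop where
  hom : Hom n R
  isOpen : IsOpen U
  on : ∀ y ∈ U, Pos y ∧ svol u y = ev y R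

variable {R : Poly (Fin N)} {U : Set (Fin N → ℝ)}

lemma Germ.area_on (hP : PolySpec) (G : SymFacts u) (hR : Germ u R U) :
    ∀ y ∈ U, ∀ i, sarea u y i = ev y (pderiv i R) := by
  obtain ⟨hf, -⟩ := hP (Fin N) inferInstance inferInstance
  intro y hy
  refine coef_unique (((G.vol_fderiv y (hR.on y hy).1).congr_of_eventuallyEq ?_).unique (hf R y))
  filter_upwards [hR.isOpen.mem_nhds hy] with w hw using (hR.on w hw).2.symm

lemma Germ.hess_on (hP : PolySpec) (G : SymFacts u) (hR : Germ u R U) :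
    ∀ y ∈ U, ∀ i j, shess u y i j = ev y (pderiv j (pderiv i R)) := by
  obtain ⟨hf, -⟩ := hP (Fin N) inferInstance inferInstance
  intro y hy i
  refine coef_unique (((G.area_fderiv y (hR.on y hy).1 i).congr_of_eventuallyEq ?_).unique
    (hf (pderiv i R) y))
  filter_upwards [hR.isOpen.mem_nhds hy] with w hw using (hR.area_on hP G w hw i).symm

lemma Germ.d3_on (hP : PolySpec) (G : SymFacts u) (hR : Germ u R U) :
    ∀ y ∈ U, ∀ i j k, sd3 u y i j k = ev y (pderiv k (pderiv j (pderiv i R))) := by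
  obtain ⟨hf, -⟩ := hP (Fin N) inferInstance inferInstance
  intro y hy i j
  refine coef_unique (((G.hess_fderiv y (hR.on y hy).1 i j).congr_of_eventuallyEq ?_).unique
    (hf (pderiv j (pderiv i R)) y))
  filter_upwards [hR.isOpen.mem_nhds hy] with w hw using (hR.hess_on hP G w hw i j).symm

lemma Germ.vol_eq (G : SymFacts u) (hR : Germ u R U) {p : Fin N → ℝ} (hp : Pos p)
    (hpU : p ∈ closure U) : svol u p = ev p R :=
  eq_of_mem_closure G.vol_cont hp hpU fun y hy => (hR.on y hy).2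

lemma Germ.area_eq (hP : PolySpec) (G : SymFacts u) (hR : Germ u R U) {p : Fin N → ℝ}
    (hp : Pos p) (hpU : p ∈ closure U) (i : Fin N) : sarea u p i = ev p (pderiv i R) :=
  eq_of_mem_closure (G.area_cont i) hp hpU fun y hy => hR.area_on hP G y hy i

lemma Germ.form1_eq (hP : PolySpec) (G : SymFacts u) (hR : Germ u R U) {p : Fin N → ℝ}
    (hp : Pos p) (hpU : p ∈ closure U) (a : Fin N → ℝ) : form1 u p a = ev p (dv a R) := by
  rw [form1, ev_dv]
  exact sum_congr rfl fun i _ => by rw [hR.area_eq hP G hp hpU, mul_comm]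

lemma Germ.hess_row (hP : PolySpec) (G : SymFacts u) (hR : Germ u R U) {p : Fin N → ℝ}
    (hp : Pos p) (hpU : p ∈ closure U) (i : Fin N) (b : Fin N → ℝ) :
    ∑ j, shess u p i j * b j = ev p (dv b (pderiv i R)) := by
  rw [ev_dv]
  exact sum_congr rfl fun j _ => by
    rw [eq_of_mem_closure (G.hess_cont i j) hp hpU fun y hy => hR.hess_on hP G y hy i j, mul_comm]

lemma Germ.form2_eq (hP : PolySpec) (G : SymFacts u) (hR : Germ u R U) {p : Fin N → ℝ}
    (hp : Pos p) (hpU : p ∈ closure U) (a b : Fin N → ℝ) :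
    form2 u p a b = ev p (dv b (dv a R)) := by
  have e : dv b (dv a R) = ∑ i, a i • dv b (pderiv i R) := by
    show dv b (∑ i, a i • pderiv i R) = _
    rw [dv_sum]
    exact sum_congr rfl fun i _ => dv_smul b (a i) _
  rw [e, form2, ev_sum]
  refine sum_congr rfl fun i _ => ?_
  rw [ev_smul, ← hR.hess_row hP G hp hpU, Finset.mul_sum]
  exact sum_congr rfl fun j _ => by ring

lemma Germ.d3_row (hP : PolySpec) (G : SymFacts u) (hR : Germ u R U) {p : Fin N → ℝ}
    (hp : Pos p) (hpU : p ∈ closure U) (i : Fin N) (b c : Fin N → ℝ) :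
    ∑ j, ∑ k, sd3 u p i j k * b j * c k = ev p (dv c (dv b (pderiv i R))) := by
  have e : dv c (dv b (pderiv i R)) = ∑ j, b j • dv c (pderiv j (pderiv i R)) := by
    show dv c (∑ j, b j • pderiv j (pderiv i R)) = _
    rw [dv_sum]
    exact sum_congr rfl fun j _ => dv_smul c (b j) _
  rw [e, ev_sum]
  refine sum_congr rfl fun j _ => ?_
  rw [ev_smul, ev_dv, Finset.mul_sum]
  exact sum_congr rfl fun k _ => by
    rw [eq_of_mem_closure (G.d3_cont i j k) hp hpU fun y hy => hR.d3_on hP G y hy i j k]; ring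

/-- The statement proved in `VarHR.lean`. -/
def HRSymSpec : Prop :=
  ∀ (n N : ℕ) (u : Fin N → Vec n), 4 ≤ n → GenPos u → ∀ g : Fin N → ℝ, Proper u g →
    (∀ y : Fin N → ℝ, (∀ i, sarea u g i = 0 → y i = 0) →
      (∀ i, ∑ j, shess u g i j * y j = 0) → y = 0) →
    ∀ (R : Poly (Fin N)) (U : Set (Fin N → ℝ)), Germ u R U → (∀ y ∈ U, Simple u (dbl y)) →
      g ∈ closure U → ∀ z w : Fin N → ℝ,
      (∀ i, ∑ j, ∑ k, sd3 u g i j k * z j * z k = ((n : ℝ) - 2) * ∑ j, shess u g i j * w j) →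
      ((n : ℝ) - 3) * ∑ i, w i * ∑ j, ∑ k, sd3 u g i j k * z j * z k
        ≤ ev g (dv z (dv z (dv z (dv z R))))

end Vale.Agent.P227.LpN.Var
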