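import Vale.Agent.P227.LpN.Spec
import Vale.Agent.P227.Lp3.Expand

/-!
Polynomials in the bounds: linearity of the derivatives, expansion along a parabola, and the
symmetric form of the Hodge–Riemann inequality.
-/

namespace Vale.Agent.P227.LpN.Var

open Filter Finset Set Matrix MvPolynomial
open scoped Topology
open Vale.Agent.P227.Lp3 (Ex2)

variable {ι : Type} [Fintype ι]

omit [Fintype ι] in
lemma ev_add (y : ι → ℝ) (P Q : Poly ι) : ev y (P + Q) = ev y P + ev y Q := map_add _ _ _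

omit [Fintype ι] in
lemma ev_mul (y : ι → ℝ) (P Q : Poly ι) : ev y (P * Q) = ev y P * ev y Q := map_mul _ _ _

omit [Fintype ι] in
lemma ev_smul (y : ι → ℝ) (c : ℝ) (P : Poly ι) : ev y (c • P) = c * ev y P := by
  simp [ev, MvPolynomial.smul_eval]

omit [Fintype ι] in
lemma ev_sum {κ : Type*} (s : Finset κ) (y : ι → ℝ) (f : κ → Poly ι) :
    ev y (∑ k ∈ s, f k) = ∑ k ∈ s, ev y (f k) := map_sum _ _ _

lemma ev_dv (y v : ι → ℝ) (P : Poly ι) :
    ev y (dv v P) = ∑ σ, v σ * ev y (pderiv σ P) := by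
  simp [dv, ev_sum, ev_smul]

lemma dv_add (v : ι → ℝ) (P Q : Poly ι) : dv v (P + Q) = dv v P + dv v Q := by
  simp [dv, map_add, smul_add, sum_add_distrib]

lemma dv_sub (v : ι → ℝ) (P Q : Poly ι) : dv v (P - Q) = dv v P - dv v Q := by
  simp [dv, map_sub, smul_sub, sum_sub_distrib]

lemma dv_smul (v : ι → ℝ) (c : ℝ) (P : Poly ι) : dv v (c • P) = c • dv v P := by
  simp [dv, Derivation.map_smul, Finset.smul_sum, smul_comm c]

lemma dv_sum {κ : Type*} (s : Finset κ) (v : ι → ℝ) (f : κ → Poly ι) :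
    dv v (∑ k ∈ s, f k) = ∑ k ∈ s, dv v (f k) := by
  classical
  induction s using Finset.induction_on with
  | empty => simp [dv]
  | insert a s ha ih => simp [Finset.sum_insert ha, dv_add, ih]

lemma dv_mul (v : ι → ℝ) (P Q : Poly ι) : dv v (P * Q) = P * dv v Q + Q * dv v P := by
  simp [dv, Derivation.leibniz, smul_eq_mul, Finset.mul_sum, ← sum_add_distrib, smul_add]

lemma dv_single [DecidableEq ι] (σ : ι) (P : Poly ι) : dv (Pi.single σ 1) P = pderiv σ P := by
  simp [dv, Pi.single_apply, ite_smul]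

lemma dv_C (v : ι → ℝ) (a : ℝ) : dv v (C a : Poly ι) = 0 := by simp [dv]

lemma dv_X (v : ι → ℝ) (i : ι) : dv v (X i : Poly ι) = C (v i) := by
  classical
  simp [dv, pderiv_X, Pi.single_apply, smul_ite, MvPolynomial.smul_eq_C_mul]

lemma dv_comm (hc : ∀ (P : Poly ι) (σ τ : ι), pderiv σ (pderiv τ P) = pderiv τ (pderiv σ P))
    (a b : ι → ℝ) (P : Poly ι) : dv a (dv b P) = dv b (dv a P) := by
  simp only [dv, map_sum, Derivation.map_smul, Finset.smul_sum]
  rw [Finset.sum_comm]
  exact sum_congr rfl fun σ _ => sum_congr rfl fun τ _ => by rw [hc P τ σ, smul_comm]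

lemma hom_dv (hd : ∀ (m : ℕ) (P : Poly ι) (σ : ι), Hom (m + 1) P → Hom m (pderiv σ P))
    {m : ℕ} {P : Poly ι} (hP : Hom (m + 1) P) (v : ι → ℝ) : Hom m (dv v P) := by
  classical
  have key : ∀ σ, ∑ τ, X τ * pderiv τ (pderiv σ P) = (m : ℝ) • pderiv σ P := fun σ => hd m P σ hP
  unfold Hom
  simp only [dv, map_sum, Derivation.map_smul, Finset.mul_sum, mul_smul_comm]
  rw [Finset.sum_comm, Finset.smul_sum]
  refine sum_congr rfl fun σ _ => ?_
  rw [← Finset.smul_sum, key σ, smul_comm]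

lemma ev_dv_self {m : ℕ} {P : Poly ι} (hP : Hom m P) (y : ι → ℝ) :
    ev y (dv y P) = m * ev y P := by
  have := congrArg (ev y) hP
  rw [ev_smul, ev_sum] at this
  rw [ev_dv, ← this]
  exact sum_congr rfl fun σ _ => by rw [ev_mul]; simp [ev]

/-- Expansion of a polynomial along a parabola. -/
lemma ex2_poly (F : Poly ι) (g a c : ι → ℝ) :
    Ex2 (fun t => ev (g + t • a + (t ^ 2 / 2) • c) F) (ev g F) (ev g (dv a F))
      ((ev g (dv c F) + ev g (dv a (dv a F))) / 2) := by
  induction F using MvPolynomial.induction_on with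
  | C x =>
    obtain ⟨r, hr, hr0, he⟩ := Ex2.const x
    refine ⟨r, hr, by simp [hr0, ev, dv], ?_⟩
    filter_upwards [he] with t e
    simpa [ev, dv_C] using e
  | add P Q hP hQ =>
    have h := hP.add hQ
    simp only [dv_add, ev_add] at h ⊢
    obtain ⟨r, hr, hr0, he⟩ := h
    exact ⟨r, hr, by rw [hr0]; ring, he⟩
  | mul_X P i hP =>
    have h := hP.mul (Ex2.poly (g i) (a i) (c i / 2))
    obtain ⟨r, hr, hr0, he⟩ := h
    refine ⟨r, hr, ?_, ?_⟩
    · rw [hr0]
      simp only [dv_mul, dv_add, dv_X, dv_C, ev_add, ev_mul, mul_zero]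
      simp [ev]
      ring
    · filter_upwards [he] with t e
      simp only [dv_mul, dv_X, ev_add, ev_mul] at e ⊢
      simp [ev] at e ⊢
      linear_combination e

lemma dq_outer (a b : ι → ℝ) (P : Poly ι) :
    dq (fun σ τ => a σ * b τ) P = dv a (dv b P) := by
  simp [dq, dv, map_sum, Derivation.map_smul, Finset.smul_sum, smul_smul]

lemma dq_sub (q q' : ι → ι → ℝ) (P : Poly ι) : dq (q - q') P = dq q P - dq q' P := by
  simp [dq, sub_smul, sum_sub_distrib]

/-- The substitution commutes with directional derivatives. -/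
lemma dv_subst [DecidableEq ι] {κ : Type} [Fintype κ] [DecidableEq κ]
    {L : (κ → ℝ) →ₗ[ℝ] (ι → ℝ)} {P : Poly ι}
    (h : ∀ σ : κ, pderiv σ (subst L P) = subst L (dv (L (Pi.single σ 1)) P)) (v : κ → ℝ) :
    dv v (subst L P) = subst L (dv (L v) P) := by
  have e : L v = ∑ σ, v σ • L (Pi.single σ 1) := by
    conv_lhs => rw [pi_eq_sum_univ' v]
    simp [map_sum]
  conv_lhs => rw [dv]; simp only [h]
  simp only [subst, dv, map_sum, map_smul, e, Finset.sum_apply, Pi.smul_apply, smul_eq_mul,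
    Finset.sum_smul, Finset.smul_sum, smul_smul]
  rw [Finset.sum_comm]

/-- The linear map `dbl`. -/
def dblL (N : ℕ) : (Fin N → ℝ) →ₗ[ℝ] (Sd N → ℝ) where
  toFun := dbl
  map_add' _ _ := rfl
  map_smul' _ _ := rfl

/-- The flip as a linear map. -/
def flipL (N : ℕ) : (Sd N → ℝ) →ₗ[ℝ] (Sd N → ℝ) where
  toFun := flipB
  map_add' _ _ := rfl
  map_smul' _ _ := rfl

lemma dblL_apply {N : ℕ} (h : Fin N → ℝ) (σ : Sd N) : dblL N h σ = h σ.1 := rfl

/-- The symmetric form of the Hodge–Riemann inequality: for `P` invariant under the flip. -/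
lemma hr_sym {N n : ℕ} (hP : PolySpec) (hn : 4 ≤ n) {P : Poly (Sd N)} (hom : Hom n P)
    (hflip : subst (flipL N) P = P) {y : Fin N → ℝ} (hr : HR (dbl y) P) (z w : Fin N → ℝ)
    (hw : ∀ i, ev y (pderiv i (dv z (dv z (subst (dblL N) P))))
      = ((n : ℝ) - 2) * ev y (pderiv i (dv w (subst (dblL N) P)))) :
    ((n : ℝ) - 3) * ev y (dv w (dv z (dv z (subst (dblL N) P))))
      ≤ ev y (dv z (dv z (dv z (dv z (subst (dblL N) P))))) := by
  classical
  obtain ⟨-, -, hc, hd, -, hsub⟩ := hP (Sd N) inferInstance inferInstance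
  obtain ⟨m, rfl⟩ : ∃ m, n = m + 4 := ⟨n - 4, by omega⟩
  have sD := fun (Q : Poly (Sd N)) => hsub (Fin N) inferInstance inferInstance (dblL N) Q
  have sF := fun (Q : Poly (Sd N)) => hsub (Sd N) inferInstance inferInstance (flipL N) Q
  have dS : ∀ (v : Fin N → ℝ) (Q : Poly (Sd N)),
      dv v (subst (dblL N) Q) = subst (dblL N) (dv (dbl v) Q) := fun v Q =>
    dv_subst (sD Q).2.1 v
  have eS : ∀ (Q : Poly (Sd N)), ev y (subst (dblL N) Q) = ev (dbl y) Q := fun Q => (sD Q).1 y
  obtain ⟨a, ha⟩ : ∃ a, a = dbl z := ⟨_, rfl⟩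
  obtain ⟨b, hb⟩ : ∃ b, b = dbl w := ⟨_, rfl⟩
  obtain ⟨Y, hY⟩ : ∃ Y, Y = dbl y := ⟨_, rfl⟩
  rw [← hY] at hr
  simp only [dS, ← ha, ← hb, eS, ← hY] at hw ⊢
  -- evaluations on the two sides of a slab agree for invariant arguments
  have hside : ∀ (X : Poly (Sd N)), subst (flipL N) X = X → ∀ i,
      ev y (pderiv i (subst (dblL N) X)) = 2 * ev Y (pderiv (i, true) X)
        ∧ ev Y (pderiv (i, false) X) = ev Y (pderiv (i, true) X) := by
    intro X hX i
    have e1 : ev Y (pderiv (i, false) X) = ev Y (pderiv (i, true) X) := by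
      conv_lhs => rw [← hX, (sF X).2.1, (sF _).1]
      have f1 : flipL N (Pi.single (i, false) 1) = Pi.single (i, true) 1 := by
        funext σ
        obtain ⟨j, s⟩ := σ
        change flipB (Pi.single ((i, false) : Sd N) (1 : ℝ)) (j, s) = _
        cases s <;> simp [flipB, Pi.single_apply]
      have f2 : flipL N Y = Y := by rw [hY]; rfl
      rw [f1, f2, dv_single]
    refine ⟨?_, e1⟩
    rw [(sD X).2.1, eS, ← hY, ev_dv, Fintype.sum_prod_type]
    simp only [Fintype.sum_bool, dblL_apply, Pi.single_apply]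
    simp only [ite_mul, one_mul, zero_mul, sum_add_distrib, Finset.sum_ite_eq', Finset.mem_univ, if_true]
    rw [e1]; ring
  have hflip_dv : ∀ (v : Fin N → ℝ) (X : Poly (Sd N)), subst (flipL N) X = X →
      subst (flipL N) (dv (dbl v) X) = dv (dbl v) X := by
    intro v X hX
    conv_rhs => rw [← hX, dv_subst (sF X).2.1]
    have : flipL N (dbl v) = dbl v := rfl
    rw [this]
  have hfb := hflip_dv w P hflip
  have hfa := hflip_dv z _ (hflip_dv z P hflip)
  rw [← hb] at hfb
  rw [← ha] at hfa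
  have h1 : Hom (m + 3) (dv b P) := hom_dv hd hom b
  have hprim : Prim Y P ((fun σ τ => a σ * a τ) - fun σ τ => b σ * Y τ) := by
    intro σ
    rw [dq_sub, dq_outer, dq_outer, map_sub, dv_comm hc b Y]
    have eX : ev Y (pderiv σ (dv Y (dv b P))) = ((m : ℝ) + 2) * ev Y (pderiv σ (dv b P)) := by
      rw [← dv_single, dv_comm hc _ Y, ev_dv_self (hom_dv hd h1 _)]
      push_cast
      rw [dv_single]
    have e : ev Y (pderiv σ (dv a (dv a P))) = ((m : ℝ) + 2) * ev Y (pderiv σ (dv b P)) := by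
      obtain ⟨i, s⟩ := σ
      obtain ⟨p1, p2⟩ := hside _ hfa i
      obtain ⟨q1, q2⟩ := hside _ hfb i
      have := hw i
      rw [p1, q1] at this
      push_cast at this
      cases s
      · rw [p2, q2]; linarith
      · linarith
    have h0 : ∀ A B : Poly (Sd N), ev Y (A - B) = ev Y A - ev Y B := fun A B => map_sub _ _ _
    rw [h0, eX, e, sub_self]
  have key := hr _ hprim
  have h0 : ∀ A B : Poly (Sd N), ev Y (A - B) = ev Y A - ev Y B := fun A B => map_sub _ _ _
  simp only [qForm, dq_sub, dq_outer, dv_sub, h0] at key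
  rw [dv_comm hc b Y P] at key
  have haa : Hom (m + 2) (dv a (dv a P)) := hom_dv hd (hom_dv hd hom a) a
  have hbb : Hom (m + 2) (dv b (dv b P)) := hom_dv hd h1 b
  have t1 : ev Y (dv a (dv a (dv Y (dv b P))))
      = ((m : ℝ) + 1) * ev Y (dv b (dv a (dv a P))) := by
    rw [dv_comm hc a Y (dv b P), dv_comm hc a Y, dv_comm hc a b P, dv_comm hc a b,
      ev_dv_self (hom_dv hd haa b)]
    push_cast; ring
  have t2 : ev Y (dv b (dv Y (dv a (dv a P))))
      = ((m : ℝ) + 1) * ev Y (dv b (dv a (dv a P))) := by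
    rw [dv_comm hc b Y, ev_dv_self (hom_dv hd haa b)]
    push_cast; ring
  have t3 : ev Y (dv b (dv Y (dv Y (dv b P))))
      = ((m : ℝ) + 1) * ((m + 2) * ev Y (dv b (dv b P))) := by
    rw [dv_comm hc b Y, dv_comm hc b Y, ev_dv_self (hom_dv hd hbb Y), ev_dv_self hbb]
    push_cast; ring
  have hwX : ev Y (dv b (dv a (dv a P))) = ((m : ℝ) + 2) * ev Y (dv b (dv b P)) := by
    have L : ∀ X : Poly (Sd N), subst (flipL N) X = X → ev Y (dv b X) =
        ∑ i, w i * ev y (pderiv i (subst (dblL N) X)) := by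
      intro X hX
      rw [ev_dv, Fintype.sum_prod_type]
      refine sum_congr rfl fun i _ => ?_
      obtain ⟨p1, p2⟩ := hside X hX i
      rw [p1, Fintype.sum_bool, p2, hb]
      simp only [dbl]; ring
    rw [L _ hfa, L _ hfb, Finset.mul_sum]
    refine sum_congr rfl fun i _ => ?_
    rw [hw i]
    push_cast; ring
  rw [t1, t2, t3, ← hwX] at key
  push_cast
  linarith

end Vale.Agent.P227.LpN.Var
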